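import Vale.Agent.P132.Interface
import Vale.Agent.P132.Row
import Vale.Agent.P104.Continuous.Basic

/-!
P096, type III, centralizer states: if every element with moduli is central, then averages over
unitaries nearly centralizing `ξ` carry each finite family into the centre.
-/

open scoped InnerProductSpace
open Filter Topology
open Vale.Agent.P132.Tomita (conjBy Modular)
open VP132 (rho HasMod)

namespace Vale.Agent.P096.Cent

open Vale.Agent.P104.Continuous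

variable {H : Type} [NormedAddCommGroup H] [InnerProductSpace ℂ H] [CompleteSpace H]
variable {M : VonNeumannAlgebra H} {ξ : H} {R : H →L[ℂ] H} {J : H ≃ₗᵢ⋆[ℂ] H}
  {U : ℝ → H →L[ℂ] H}

/-- A unitary of `M` that moves `ξ` by at most `δ` from its right action. -/
def IsNearCen (M : VonNeumannAlgebra H) (ξ : H) (J : H ≃ₗᵢ⋆[ℂ] H) (δ : ℝ) (w : H →L[ℂ] H) : Prop :=
  w ∈ M ∧ star w * w = 1 ∧ w * star w = 1 ∧ ‖w ξ - rho J w ξ‖ ≤ δ

/-- Every element with moduli is central. -/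
def ModCentral (M : VonNeumannAlgebra H) (ξ : H) (J : H ≃ₗᵢ⋆[ℂ] H) : Prop :=
  ∀ a, HasMod M ξ J a → HasMod M ξ J (star a) → ∀ y ∈ M, a * y = y * a

/-- A bounded sequence converging at `ξ` converges strongly in `M`. -/
theorem exists_strong_limit (hm : Modular M ξ R J U) (hd : Dense {v : H | ∃ x ∈ M, x ξ = v})
    {y : ℕ → H →L[ℂ] H} (hy : ∀ k, y k ∈ M) {C : ℝ} (hC : ∀ k, ‖y k‖ ≤ C)
    (hlim : CauchySeq fun k => y k ξ) :
    ∃ z ∈ M, ‖z‖ ≤ C ∧ ∀ v, Tendsto (fun k => y k v) atTop (𝓝 (z v)) := by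
  have hC0 : 0 ≤ C := (norm_nonneg (y 0)).trans (hC 0)
  have hcau : ∀ v, CauchySeq fun k => y k v := by
    intro v
    refine Metric.cauchySeq_iff.2 fun ε hε => ?_
    obtain ⟨_, ⟨x, hx, rfl⟩, hxv⟩ := Metric.mem_closure_iff.1 (hd (J v))
      (ε / (4 * (C + 1))) (by positivity)
    rw [dist_eq_norm] at hxv
    obtain ⟨K, hK⟩ := Metric.cauchySeq_iff.1 hlim (ε / (4 * (‖x‖ + 1))) (by positivity)
    refine ⟨K, fun i hi j hj => ?_⟩
    have hb : ‖v - conjBy J x ξ‖ < ε / (4 * (C + 1)) := by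
      rw [← J.norm_map, map_sub, VP132.Row.conjBy_apply, hm.J_J, hm.J_xi]
      exact hxv
    have hc : ∀ k, y k (conjBy J x ξ) = conjBy J x (y k ξ) := fun k => by
      rw [← apply_mul, ← apply_mul, (VP132.Row.commute_conjBy hm (hy k) hx).eq]
    have hij := hK i hi j hj
    rw [dist_eq_norm] at hij ⊢
    have e : y i v - y j v = y i (v - conjBy J x ξ) - y j (v - conjBy J x ξ)
        + conjBy J x (y i ξ - y j ξ) := by
      simp only [map_sub, hc]; abel
    have h1 : ∀ k, ‖y k (v - conjBy J x ξ)‖ ≤ ε / 4 := fun k => by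
      refine ((y k).le_of_opNorm_le (hC k) _).trans ?_
      calc C * ‖v - conjBy J x ξ‖ ≤ (C + 1) * (ε / (4 * (C + 1))) := by gcongr; linarith
        _ = ε / 4 := by field_simp
    have h2 : ‖conjBy J x (y i ξ - y j ξ)‖ ≤ ε / 4 := by
      rw [VP132.Row.conjBy_apply, J.norm_map]
      refine (x.le_opNorm _).trans ?_
      rw [J.norm_map]
      calc ‖x‖ * ‖y i ξ - y j ξ‖ ≤ (‖x‖ + 1) * (ε / (4 * (‖x‖ + 1))) := by gcongr; linarith
        _ = ε / 4 := by field_simp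
    rw [e]
    linarith [norm_add_le (y i (v - conjBy J x ξ) - y j (v - conjBy J x ξ))
      (conjBy J x (y i ξ - y j ξ)), norm_sub_le (y i (v - conjBy J x ξ))
      (y j (v - conjBy J x ξ)), h1 i, h1 j]
  choose f hf using fun v => cauchySeq_tendsto_of_complete (hcau v)
  obtain ⟨z, hz⟩ : ∃ z : H →L[ℂ] H, ∀ v, z v = f v :=
    ⟨continuousLinearMapOfTendsto (g := y) (f := f) (tendsto_pi_nhds.2 hf), fun v => rfl⟩
  have hzt : ∀ v, Tendsto (fun k => y k v) atTop (𝓝 (z v)) := fun v => (hz v).symm ▸ hf v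
  refine ⟨z, mem_iff_comm.2 fun b hb => ?_, ContinuousLinearMap.opNorm_le_bound _ hC0 fun v => ?_,
    hzt⟩
  · ext v
    refine tendsto_nhds_unique ((b.continuous.tendsto _).comp (hzt v)) ((hzt (b v)).congr fun k => ?_)
    simp only [Function.comp_apply]
    rw [← apply_mul, ← apply_mul, mem_iff_comm.1 (hy k) b hb]
  · exact le_of_tendsto' (hzt v).norm fun k => (y k).le_of_opNorm_le (hC k) v

theorem norm_le_one_of_unitary {w : H →L[ℂ] H} (h : star w * w = 1) : ‖w‖ ≤ 1 :=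
  ContinuousLinearMap.opNorm_le_bound _ zero_le_one fun v => by
    rw [one_mul, VP132.Row.norm_apply_eq h]

theorem IsNearCen.mul (hm : Modular M ξ R J U) {δ δ' : ℝ} {a b : H →L[ℂ] H}
    (ha : IsNearCen M ξ J δ a) (hb : IsNearCen M ξ J δ' b) :
    IsNearCen M ξ J (δ + δ') (a * b) := by
  obtain ⟨ha, ha1, ha2, had⟩ := ha
  obtain ⟨hb, hb1, hb2, hbd⟩ := hb
  refine ⟨mul_mem ha hb, by rw [star_mul, mul_assoc, ← mul_assoc (star a), ha1, one_mul, hb1],
    by rw [star_mul, mul_assoc, ← mul_assoc b, hb2, one_mul, ha2], ?_⟩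
  have hr : rho J (a * b) ξ = rho J b (rho J a ξ) := by
    rw [rho, star_mul, VP132.Row.conjBy_mul J hm.J_J]; rfl
  have hc : a (rho J b ξ) = rho J b (a ξ) := by
    rw [rho, ← apply_mul, (VP132.Row.commute_conjBy hm ha (star_mem hb)).eq, apply_mul]
  have hn : ∀ v, ‖rho J b v‖ = ‖v‖ := fun v => by
    rw [rho, VP132.Row.conjBy_apply, J.norm_map,
      VP132.Row.norm_apply_eq (show star (star b) * star b = 1 by rw [star_star, hb2]), J.norm_map]
  rw [apply_mul, hr]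
  calc ‖a (b ξ) - rho J b (rho J a ξ)‖
      = ‖a (b ξ - rho J b ξ) + rho J b (a ξ - rho J a ξ)‖ := by
        simp only [map_sub, hc]; congr 1; abel
    _ ≤ δ + δ' := by
        refine (norm_add_le _ _).trans ?_
        rw [VP132.Row.norm_apply_eq ha1, hn]; linarith

/-- The average of `star w * a * w`. -/
noncomputable def conjAvg {ι : Type} [Fintype ι] (w : ι → H →L[ℂ] H) (a : H →L[ℂ] H) : H →L[ℂ] H :=
  ((Fintype.card ι : ℂ))⁻¹ • ∑ i, star (w i) * a * w i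

theorem norm_conjAvg_le {ι : Type} [Fintype ι] [Nonempty ι] {w : ι → H →L[ℂ] H}
    (hw : ∀ i, star (w i) * w i = 1) (a : H →L[ℂ] H) : ‖conjAvg w a‖ ≤ ‖a‖ := by
  rw [conjAvg, norm_smul, norm_inv, Complex.norm_natCast,
    inv_mul_le_iff₀ (by exact_mod_cast Fintype.card_pos)]
  refine (norm_sum_le _ _).trans ((Finset.sum_le_sum fun i _ =>
    show ‖star (w i) * a * w i‖ ≤ ‖a‖ from ?_).trans_eq ?_)
  · have h := norm_le_one_of_unitary (hw i)
    calc _ ≤ ‖star (w i)‖ * ‖a‖ * ‖w i‖ :=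
          (norm_mul_le _ _).trans (mul_le_mul_of_nonneg_right (norm_mul_le _ _) (norm_nonneg _))
      _ ≤ 1 * ‖a‖ * 1 := by gcongr; rwa [norm_star]
      _ = ‖a‖ := by ring
  · simp

theorem conjAvg_mem {ι : Type} [Fintype ι] {w : ι → H →L[ℂ] H} (hw : ∀ i, w i ∈ M)
    {a : H →L[ℂ] H} (ha : a ∈ M) : conjAvg w a ∈ M :=
  smul_mem_vn _ (sum_mem fun i _ => mul_mem (mul_mem (star_mem (hw i)) ha) (hw i))

theorem star_conjAvg {ι : Type} [Fintype ι] (w : ι → H →L[ℂ] H) (a : H →L[ℂ] H) :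
    star (conjAvg w a) = conjAvg w (star a) := by
  simp [conjAvg, star_smul, star_sum, mul_assoc]

/-- If every element with moduli is central, averages over nearly centralizing unitaries take a
finite family into the centre. -/
theorem exists_avg_central (hm : Modular M ξ R J U) (hd : Dense {v : H | ∃ x ∈ M, x ξ = v})
    (hA : ModCentral M ξ J) {κ : Type} [Fintype κ] (x : κ → H →L[ℂ] H) (hx : ∀ j, x j ∈ M)
    {ε δ : ℝ} (hε : 0 < ε) (hδ : 0 < δ) :
    ∃ (ι : Type) (_ : Fintype ι) (_ : Nonempty ι) (w : ι → H →L[ℂ] H) (z : κ → H →L[ℂ] H),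
      (∃ p : ℕ, Fintype.card ι = 2 ^ p) ∧ (∀ i, IsNearCen M ξ J δ (w i)) ∧
      (∀ j, z j ∈ M ∧ (∀ b ∈ M, z j * b = b * z j) ∧ ‖z j‖ ≤ ‖x j‖) ∧
      ∀ j, ‖conjAvg w (x j) ξ - z j ξ‖ ≤ ε := by
  let X : κ ⊕ κ → H →L[ℂ] H := Sum.elim x fun j => star (x j)
  have hX : ∀ j, X j ∈ M := by
    rintro (j | j)
    exacts [hx j, star_mem (hx j)]
  obtain ⟨N, hN⟩ : ∃ N : ℝ → Set ℝ, N = fun d => {r | ∃ (ι : Type) (_ : Fintype ι) (_ : Nonempty ι)
      (w : ι → H →L[ℂ] H), (∃ p : ℕ, Fintype.card ι = 2 ^ p) ∧ (∀ i, IsNearCen M ξ J d (w i)) ∧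
        r = ∑ j, ‖conjAvg w (X j) ξ‖ ^ 2} := ⟨_, rfl⟩
  obtain ⟨B, hB⟩ : ∃ B : ℝ, B = ∑ j, ‖X j ξ‖ ^ 2 := ⟨_, rfl⟩
  have hone : ∀ d : ℝ, 0 ≤ d → IsNearCen M ξ J d 1 := fun d hd0 =>
    ⟨one_mem _, by simp, by simp, by simpa [rho, VP132.Row.conjBy_one J hm.J_J] using hd0⟩
  have hBmem : ∀ d : ℝ, 0 ≤ d → B ∈ N d := fun d hd0 => by
    rw [hN]
    exact ⟨Unit, inferInstance, inferInstance, fun _ => 1, ⟨0, rfl⟩, fun _ => hone d hd0, by
      simp [hB, conjAvg]⟩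
  have hbdd : ∀ d, BddBelow (N d) := fun d => ⟨0, fun r hr => by
    rw [hN] at hr
    obtain ⟨ι, _, _, w, -, -, rfl⟩ := hr
    positivity⟩
  obtain ⟨m, hm'⟩ : ∃ m : ℕ → ℝ, m = fun k : ℕ => sInf (N (1 / ((k : ℝ) + 1))) := ⟨_, rfl⟩
  have hpos : ∀ k : ℕ, (0 : ℝ) < 1 / (k + 1 : ℝ) := fun k => by positivity
  have hanti : ∀ d d', d' ≤ d → N d' ⊆ N d := by
    intro d d' h r hr
    rw [hN] at hr ⊢
    obtain ⟨ι, h1, h2, w, hp, hw, rfl⟩ := hr
    exact ⟨ι, h1, h2, w, hp, fun i => ⟨(hw i).1, (hw i).2.1, (hw i).2.2.1, (hw i).2.2.2.trans h⟩, rfl⟩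
  have hmono : Monotone m := by
    intro k l hkl
    rw [hm']
    refine csInf_le_csInf (hbdd _) ⟨B, hBmem _ (hpos l).le⟩ (hanti _ _ ?_)
    exact one_div_le_one_div_of_le (by positivity) (by exact_mod_cast Nat.succ_le_succ hkl)
  have hmB : ∀ k, m k ≤ B := fun k => by rw [hm']; exact csInf_le (hbdd _) (hBmem _ (hpos k).le)
  obtain ⟨L, hL⟩ : ∃ L, L = ⨆ k, m k := ⟨_, rfl⟩
  have hbm : BddAbove (Set.range m) := ⟨B, by rintro _ ⟨k, rfl⟩; exact hmB k⟩
  have hmL : Tendsto m atTop (𝓝 L) := hL ▸ tendsto_atTop_ciSup hmono hbm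
  have hpick : ∀ k : ℕ, ∃ (ι : Type) (_ : Fintype ι) (_ : Nonempty ι) (w : ι → H →L[ℂ] H),
      (∃ p : ℕ, Fintype.card ι = 2 ^ p) ∧ (∀ i, IsNearCen M ξ J (1 / (k + 1 : ℝ)) (w i)) ∧
        ∑ j, ‖conjAvg w (X j) ξ‖ ^ 2 ≤ L + 1 / (k + 1 : ℝ) := by
    intro k
    obtain ⟨r, hr, hlt⟩ := exists_lt_of_csInf_lt ⟨B, hBmem _ (hpos k).le⟩
      (lt_add_of_pos_right (m k) (hpos k) |>.trans_eq' (by rw [hm']))
    rw [hN] at hr
    obtain ⟨ι, h1, h2, w, hp, hw, rfl⟩ := hr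
    exact ⟨ι, h1, h2, w, hp, hw, hlt.le.trans (by linarith [le_ciSup hbm k])⟩
  choose ι hι hne w hcard hw hwn using hpick
  obtain ⟨Y, hY⟩ : ∃ Y : ℕ → κ ⊕ κ → H →L[ℂ] H, Y = fun k j => conjAvg (w k) (X j) := ⟨_, rfl⟩
  have hYM : ∀ k j, Y k j ∈ M := fun k j => by
    rw [hY]; exact conjAvg_mem (fun i => (hw k i).1) (hX j)
  have hYn : ∀ k j, ‖Y k j‖ ≤ ‖X j‖ := fun k j => by
    rw [hY]; exact norm_conjAvg_le (fun i => (hw k i).2.1) _
  -- two averages that are nearly least are near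
  have hclose : ∀ (l : ℕ) (α : Type) [Fintype α] [Nonempty α] (u : α → H →L[ℂ] H) (β : Type)
      [Fintype β] [Nonempty β] (v : β → H →L[ℂ] H),
      (∃ p : ℕ, Fintype.card α = 2 ^ p) → (∃ p : ℕ, Fintype.card β = 2 ^ p) → (∀ i, IsNearCen M ξ J (1 / (l + 1 : ℝ)) (u i)) →
      (∀ i, IsNearCen M ξ J (1 / (l + 1 : ℝ)) (v i)) →
      ∑ j, ‖conjAvg u (X j) ξ - conjAvg v (X j) ξ‖ ^ 2 ≤
        2 * (∑ j, ‖conjAvg u (X j) ξ‖ ^ 2) + 2 * (∑ j, ‖conjAvg v (X j) ξ‖ ^ 2) - 4 * m l := by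
    intro l α _ _ u β _ _ v hpα hpβ hu hv
    let W : α × β × Bool → H →L[ℂ] H := fun p => if p.2.2 then u p.1 else v p.2.1
    have hW : ∀ p, IsNearCen M ξ J (1 / (l + 1 : ℝ)) (W p) := fun p => by
      simp only [W]; split
      exacts [hu _, hv _]
    have hmid : ∀ a, conjAvg W a = (2 : ℂ)⁻¹ • (conjAvg u a + conjAvg v a) := by
      intro a
      have hα : (Fintype.card α : ℂ) ≠ 0 := by exact_mod_cast Fintype.card_ne_zero
      have hβ : (Fintype.card β : ℂ) ≠ 0 := by exact_mod_cast Fintype.card_ne_zero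
      simp only [conjAvg, W, Fintype.sum_prod_type, Fintype.sum_bool, if_true, Bool.false_eq_true,
        if_false, Finset.sum_add_distrib, Finset.sum_const, Finset.card_univ, Fintype.card_prod,
        Fintype.card_bool, smul_add, smul_smul, ← Finset.smul_sum, ← Nat.cast_smul_eq_nsmul ℂ]
      push_cast
      congr 1 <;> congr 1 <;> field_simp
    have hlow : m l ≤ ∑ j, ‖conjAvg W (X j) ξ‖ ^ 2 := by
      rw [hm']
      refine csInf_le (hbdd _) ?_
      rw [hN]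
      obtain ⟨a, ha⟩ := hpα
      obtain ⟨b, hb⟩ := hpβ
      exact ⟨α × β × Bool, inferInstance, inferInstance, W, ⟨a + (b + 1), by
        simp [Fintype.card_prod, ha, hb, pow_add]⟩, hW, rfl⟩
    have hpar : ∀ j, ‖conjAvg u (X j) ξ - conjAvg v (X j) ξ‖ ^ 2 + 4 * ‖conjAvg W (X j) ξ‖ ^ 2
        = 2 * ‖conjAvg u (X j) ξ‖ ^ 2 + 2 * ‖conjAvg v (X j) ξ‖ ^ 2 := fun j => by
      have h := parallelogram_law_with_norm ℂ (conjAvg u (X j) ξ) (conjAvg v (X j) ξ)
      rw [hmid, smul_apply, add_apply, norm_smul, norm_inv, Complex.norm_ofNat]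
      nlinarith
    have := Finset.sum_congr (s₁ := Finset.univ) rfl fun j _ => hpar j
    simp only [Finset.sum_add_distrib, ← Finset.mul_sum] at this
    linarith
  have hYle : ∀ k, ∑ j, ‖Y k j ξ‖ ^ 2 ≤ L + 1 / (k + 1 : ℝ) := fun k => by rw [hY]; exact hwn k
  have hnear : ∀ l k : ℕ, l ≤ k → ∀ i, IsNearCen M ξ J (1 / (l + 1 : ℝ)) (w k i) := fun l k h i =>
    ⟨(hw k i).1, (hw k i).2.1, (hw k i).2.2.1, (hw k i).2.2.2.trans
      (one_div_le_one_div_of_le (by positivity) (by exact_mod_cast Nat.succ_le_succ h))⟩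
  have hcau : ∀ j, CauchySeq fun k => Y k j ξ := by
    intro j
    refine cauchySeq_of_le_tendsto_0 (fun l : ℕ => Real.sqrt (4 * (L - m l) + 4 / (l + 1 : ℝ)))
      (fun a b l hla hlb => ?_) ?_
    · rw [dist_eq_norm]
      refine Real.le_sqrt_of_sq_le ?_
      have := @hclose l (ι a) (hι a) (hne a) (w a) (ι b) (hι b) (hne b) (w b)
        (hcard a) (hcard b) (hnear l a hla) (hnear l b hlb)
      have h1 : (1 : ℝ) / (a + 1) ≤ 1 / (l + 1) :=
        one_div_le_one_div_of_le (by positivity) (by exact_mod_cast Nat.succ_le_succ hla)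
      have h2 : (1 : ℝ) / (b + 1) ≤ 1 / (l + 1) :=
        one_div_le_one_div_of_le (by positivity) (by exact_mod_cast Nat.succ_le_succ hlb)
      have h3 := Finset.single_le_sum (s := Finset.univ)
        (f := fun j => ‖Y a j ξ - Y b j ξ‖ ^ 2) (fun _ _ => by positivity) (Finset.mem_univ j)
      have e4 : (4 : ℝ) / (l + 1) = 4 * (1 / (l + 1)) := by ring
      have ha := hYle a
      have hb := hYle b
      rw [hY] at h3 ha hb ⊢
      linarith
    · have h0 : Tendsto (fun l : ℕ => 4 * (L - m l) + 4 / (l + 1 : ℝ)) atTop (𝓝 0) := by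
        have := ((tendsto_const_nhds (x := L)).sub hmL).const_mul 4
        simpa [div_eq_mul_inv] using this.add (tendsto_one_div_add_atTop_nhds_zero_nat.const_mul 4)
      simpa [Function.comp_def] using (Real.continuous_sqrt.tendsto 0).comp h0
  choose z hzM hzn hzlim using fun j => exists_strong_limit hm hd (fun k => hYM k j)
    (fun k => hYn k j) (hcau j)
  -- the limits have moduli
  have hmod : ∀ j, HasMod M ξ J (z j) := by
    intro j
    refine ⟨hzM j, fun e he => ?_⟩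
    obtain ⟨Bs, hBs⟩ : ∃ Bs : ℝ, Bs = ∑ i, ‖X i‖ := ⟨_, rfl⟩
    have hBs0 : 0 ≤ Bs := hBs ▸ by positivity
    have hnum : ∀ᶠ l : ℕ in atTop, 4 * (L - m l) + 4 / (l + 1 : ℝ) ≤ (e / 4) ^ 2 / 2 := by
      have h0 : Tendsto (fun l : ℕ => 4 * (L - m l) + 4 / (l + 1 : ℝ)) atTop (𝓝 0) := by
        have := ((tendsto_const_nhds (x := L)).sub hmL).const_mul 4
        simpa [div_eq_mul_inv] using this.add (tendsto_one_div_add_atTop_nhds_zero_nat.const_mul 4)
      exact h0.eventually (ge_mem_nhds (by positivity))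
    obtain ⟨l, hl⟩ := hnum.exists
    have hlimj := (hzlim j ξ)
    obtain ⟨k, hk1, hk2⟩ : ∃ k, 2 * l + 1 ≤ k ∧ ‖Y k j ξ - z j ξ‖ ≤ e / 8 := by
      obtain ⟨K, hK⟩ := Metric.tendsto_atTop.1 hlimj (e / 8) (by positivity)
      exact ⟨max K (2 * l + 1), le_max_right _ _, by
        rw [← dist_eq_norm]; exact (hK _ (le_max_left _ _)).le⟩
    obtain ⟨D, hD⟩ : ∃ D : ℝ, D = ∑ i, (2 * ‖X i‖ ^ 2 * ‖ξ‖ + ‖X i‖ ^ 2 + 1) := ⟨_, rfl⟩
    have hD0 : 0 ≤ D := hD ▸ by positivity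
    refine ⟨min 1 (min (1 / (2 * (l + 1) : ℝ)) (min ((e / 4) ^ 2 / (4 * (D + 1)))
      (e / (8 * (Bs + 1))))), by positivity, fun W hW h1 h2 hWd => ?_⟩
    simp only [le_min_iff] at hWd
    obtain ⟨hd1, hd2, hd3, hd4⟩ := hWd
    have hWv : ∀ v, ‖W v‖ = ‖v‖ := VP132.Row.norm_apply_eq h1
    have hrW : ∀ a ∈ M, ‖a (rho J W ξ)‖ = ‖a ξ‖ := fun a ha => by
      rw [rho, ← apply_mul, (VP132.Row.commute_conjBy hm ha (star_mem hW)).eq, apply_mul,
        VP132.Row.conjBy_apply, J.norm_map,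
        VP132.Row.norm_apply_eq (show star (star W) * star W = 1 by rw [star_star, h2]), J.norm_map]
    have hmove : ∀ a ∈ M, ‖a (W ξ)‖ ≤ ‖a ξ‖ + ‖a‖ * ‖W ξ - rho J W ξ‖ := fun a ha => by
      have := norm_add_le (a (rho J W ξ)) (a (W ξ - rho J W ξ))
      rw [← map_add, add_sub_cancel, hrW a ha] at this
      linarith [a.le_opNorm (W ξ - rho J W ξ)]
    let v : ι k → H →L[ℂ] H := fun i => w k i * W
    have hv : ∀ i, IsNearCen M ξ J (1 / (l + 1 : ℝ)) (v i) := fun i => by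
      have h' := (hw k i).mul hm (b := W) (δ' := 1 / (2 * (l + 1) : ℝ)) ⟨hW, h1, h2, hd2⟩
      refine ⟨h'.1, h'.2.1, h'.2.2.1, h'.2.2.2.trans ?_⟩
      have : (1 : ℝ) / (k + 1) ≤ 1 / (2 * (l + 1)) :=
        one_div_le_one_div_of_le (by positivity) (by exact_mod_cast (by omega : 2 * (l + 1) ≤ k + 1))
      have e2 : (1 : ℝ) / (l + 1) = 1 / (2 * (l + 1)) + 1 / (2 * (l + 1)) := by field_simp; ring
      linarith
    have hconj : ∀ a, conjAvg v a = star W * conjAvg (w k) a * W := fun a => by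
      simp only [conjAvg, v, star_mul, Finset.mul_sum, Finset.sum_mul, mul_smul_comm,
        smul_mul_assoc, mul_assoc]
    have hYk : ∀ i, conjAvg (w k) (X i) = Y k i := fun i => by rw [hY]
    have hsq : ∀ i, ‖conjAvg v (X i) ξ‖ ^ 2 ≤ ‖Y k i ξ‖ ^ 2
        + (2 * ‖X i‖ ^ 2 * ‖ξ‖ + ‖X i‖ ^ 2 + 1) * ‖W ξ - rho J W ξ‖ := by
      intro i
      rw [hconj, hYk, apply_mul, apply_mul,
        VP132.Row.norm_apply_eq (show star (star W) * star W = 1 by rw [star_star, h2])]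
      have h3 := (hmove _ (hYM k i)).trans (add_le_add le_rfl
        (mul_le_mul_of_nonneg_right (hYn k i) (norm_nonneg _)))
      refine (pow_le_pow_left₀ (norm_nonneg _) h3 2).trans ?_
      have h4 := ((Y k i).le_opNorm ξ).trans (mul_le_mul_of_nonneg_right (hYn k i) (norm_nonneg _))
      nlinarith [norm_nonneg (W ξ - rho J W ξ), norm_nonneg (X i), norm_nonneg (Y k i ξ),
        mul_le_mul_of_nonneg_left hd1 (mul_nonneg (sq_nonneg ‖X i‖) (norm_nonneg (W ξ - rho J W ξ))),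
        mul_le_mul_of_nonneg_left h4 (mul_nonneg (norm_nonneg (X i)) (norm_nonneg (W ξ - rho J W ξ)))]
    have hsum : ∑ i, ‖conjAvg v (X i) ξ‖ ^ 2 ≤ L + 1 / (k + 1 : ℝ) + D * ‖W ξ - rho J W ξ‖ := by
      refine (Finset.sum_le_sum fun i _ => hsq i).trans ?_
      rw [Finset.sum_add_distrib, ← Finset.sum_mul, ← hD]
      linarith [hYle k]
    have hcl := @hclose l (ι k) (hι k) (hne k) (w k) (ι k) (hι k) (hne k) v
      (hcard k) (hcard k) (hnear l k (by omega)) hv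
    have h5 : ‖Y k j ξ - conjAvg v (X j) ξ‖ ^ 2 ≤ (e / 4) ^ 2 := by
      have h3 := Finset.single_le_sum (s := Finset.univ)
        (f := fun i => ‖conjAvg (w k) (X i) ξ - conjAvg v (X i) ξ‖ ^ 2) (fun _ _ => by positivity)
        (Finset.mem_univ j)
      simp only [hYk] at h3 hcl
      have hDd : D * ‖W ξ - rho J W ξ‖ ≤ (e / 4) ^ 2 / 4 := by
        calc D * ‖W ξ - rho J W ξ‖ ≤ (D + 1) * ((e / 4) ^ 2 / (4 * (D + 1))) :=
              mul_le_mul (by linarith) hd3 (norm_nonneg _) (by positivity)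
          _ = _ := by field_simp
      have hk' : (1 : ℝ) / (k + 1) ≤ 1 / (l + 1) :=
        one_div_le_one_div_of_le (by positivity) (by exact_mod_cast (by omega : l + 1 ≤ k + 1))
      have e4 : (4 : ℝ) / (l + 1) = 4 * (1 / (l + 1)) := by ring
      linarith [hYle k]
    have h6 := (pow_le_pow_iff_left₀ (norm_nonneg _) (by positivity) two_ne_zero).1 h5
    have h7 : ‖(W * Y k j - Y k j * W) ξ‖ = ‖Y k j ξ - conjAvg v (X j) ξ‖ := by
      rw [hconj, hYk, ← hWv (Y k j ξ - (star W * Y k j * W) ξ), map_sub, ← apply_mul W (star W * _ * _),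
        ← mul_assoc W (star W * Y k j), ← mul_assoc W (star W), h2, one_mul, sub_apply, apply_mul,
        apply_mul]
    have h8 : ‖(z j - Y k j) (W ξ)‖ ≤ e / 8 + e / 4 := by
      refine (hmove _ (sub_mem (hzM j) (hYM k j))).trans (add_le_add ?_ ?_)
      · rw [sub_apply, norm_sub_rev]; exact hk2
      · have hXj : ‖X j‖ ≤ Bs := hBs ▸ Finset.single_le_sum (fun i _ => norm_nonneg (X i))
          (Finset.mem_univ j)
        calc _ ≤ (2 * (Bs + 1)) * (e / (8 * (Bs + 1))) :=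
              mul_le_mul ((norm_sub_le _ _).trans (by linarith [hzn j, hYn k j])) hd4
                (norm_nonneg _) (by positivity)
          _ = _ := by field_simp; ring
    have h9 : (W * z j - z j * W) ξ
        = (W * Y k j - Y k j * W) ξ + W ((z j - Y k j) ξ) - (z j - Y k j) (W ξ) := by
      simp [map_sub]
    rw [h9]
    have h10 : ‖W ((z j - Y k j) ξ)‖ ≤ e / 8 := by
      rw [hWv, sub_apply, norm_sub_rev]; exact hk2
    linarith [norm_sub_le ((W * Y k j - Y k j * W) ξ + W ((z j - Y k j) ξ)) ((z j - Y k j) (W ξ)),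
      norm_add_le ((W * Y k j - Y k j * W) ξ) (W ((z j - Y k j) ξ))]
  have hstar : ∀ j, z (Sum.inr j) = star (z (Sum.inl j)) := by
    intro j
    ext v
    refine ext_inner_left ℂ fun u => ?_
    have h1 := (tendsto_const_nhds (x := u)).inner (hzlim (Sum.inr j) v) (𝕜 := ℂ)
    have h2 := (hzlim (Sum.inl j) u).inner (tendsto_const_nhds (x := v)) (𝕜 := ℂ)
    rw [ContinuousLinearMap.star_eq_adjoint, ContinuousLinearMap.adjoint_inner_right]
    refine tendsto_nhds_unique h1 (h2.congr fun k => ?_)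
    have e : Y k (Sum.inr j) = star (Y k (Sum.inl j)) := by
      simp [hY, X, star_conjAvg]
    rw [e, ContinuousLinearMap.star_eq_adjoint, ContinuousLinearMap.adjoint_inner_right]
  obtain ⟨l, hl⟩ : ∃ l : ℕ, 1 / (l + 1 : ℝ) < δ := exists_nat_one_div_lt hδ
  have hev : ∀ᶠ k in atTop, l ≤ k ∧ ∀ j : κ, ‖Y k (Sum.inl j) ξ - z (Sum.inl j) ξ‖ ≤ ε := by
    refine (eventually_ge_atTop l).and (eventually_all.2 fun j => ?_)
    filter_upwards [Metric.tendsto_nhds.1 (hzlim (Sum.inl j) ξ) ε hε] with k hk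
    rw [← dist_eq_norm]; exact hk.le
  obtain ⟨k, hkl, hk⟩ := hev.exists
  refine ⟨ι k, hι k, hne k, w k, fun j => z (Sum.inl j), hcard k, fun i => ?_,
    fun j => ⟨hzM _, hA _ (hmod _) (hstar j ▸ hmod _), hzn _⟩, fun j => ?_⟩
  · have h := hnear l k hkl i
    exact ⟨h.1, h.2.1, h.2.2.1, h.2.2.2.trans hl.le⟩
  · have := hk j
    rw [hY] at this
    exact this

end Vale.Agent.P096.Cent
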