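import Vale.Agent.P104.Continuous.Basic

/-!
P096, type III: on finitely many vectors a unitary is an exponential `exp (i h)`, and exponentials
of strongly convergent bounded sequences converge strongly.
-/

open scoped InnerProductSpace
open Filter Topology Complex

namespace Vale.Agent.P096.Cent

open Vale.Agent.P104.Continuous

variable {H : Type} [NormedAddCommGroup H] [InnerProductSpace ℂ H] [CompleteSpace H]

/-- A bump of radius `r` at `c`. -/
noncomputable def bump (c : ℂ) (r : ℝ) (z : ℂ) : ℝ := max 0 (1 - ‖z - c‖ / r)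

theorem bump_nonneg (c : ℂ) (r : ℝ) (z : ℂ) : 0 ≤ bump c r z := le_max_left _ _

theorem bump_le_one (c : ℂ) {r : ℝ} (hr : 0 < r) (z : ℂ) : bump c r z ≤ 1 :=
  max_le zero_le_one (sub_le_self _ (by positivity))

theorem bump_self (c : ℂ) (r : ℝ) : bump c r c = 1 := by simp [bump]

@[fun_prop]
theorem continuous_bump (c : ℂ) (r : ℝ) : Continuous (bump c r) := by unfold bump; fun_prop

theorem dist_lt_of_bump_ne_zero {c : ℂ} {r : ℝ} (hr : 0 < r) {z : ℂ} (h : bump c r z ≠ 0) :
    ‖z - c‖ < r := by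
  by_contra h'
  exact h (max_eq_left (by rw [sub_nonpos, le_div_iff₀ hr]; linarith))

/-- The argument with the cut at `c`. -/
noncomputable def cutArg (c z : ℂ) : ℝ := arg (-(z * (starRingEnd ℂ) c)) + arg (-c)

theorem exp_cutArg {c z : ℂ} (hc : ‖c‖ = 1) (hz : ‖z‖ = 1) :
    Complex.exp (I * (cutArg c z : ℂ)) = z := by
  have h1 := norm_mul_exp_arg_mul_I (-(z * (starRingEnd ℂ) c))
  have h2 := norm_mul_exp_arg_mul_I (-c)
  simp only [norm_neg, norm_mul, hz, hc, RCLike.norm_conj, mul_one, ofReal_one, one_mul] at h1 h2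
  rw [cutArg, ofReal_add, mul_add, Complex.exp_add, mul_comm I, h1, mul_comm I, h2, neg_mul_neg,
    mul_assoc, mul_comm ((starRingEnd ℂ) c), mul_conj, normSq_eq_norm_sq, hc]
  simp

theorem abs_cutArg_le (c z : ℂ) : |cutArg c z| ≤ 2 * Real.pi :=
  (abs_add_le _ _).trans (by linarith [abs_arg_le_pi (-(z * (starRingEnd ℂ) c)), abs_arg_le_pi (-c)])

/-- The argument damped near the cut. -/
noncomputable def softArg (c : ℂ) (r : ℝ) (z : ℂ) : ℝ := (1 - bump c r z) * cutArg c z

theorem continuousOn_softArg {c : ℂ} (hc : ‖c‖ = 1) (r : ℝ) :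
    ContinuousOn (softArg c r) (Metric.sphere (0 : ℂ) 1) := by
  intro z hz
  rw [mem_sphere_zero_iff_norm] at hz
  refine ContinuousAt.continuousWithinAt ?_
  rcases eq_or_ne z c with rfl | hzc
  · have h0 : Tendsto (fun w => (1 - bump z r w) * cutArg z w) (𝓝 z) (𝓝 0) := by
      refine squeeze_zero_norm (fun w => ?_)
        (show Tendsto (fun w => |1 - bump z r w| * (2 * Real.pi)) (𝓝 z) (𝓝 0) from ?_)
      · rw [Real.norm_eq_abs, abs_mul]; gcongr; exact abs_cutArg_le z w
      · have := (((continuous_const (y := (1 : ℝ))).sub (continuous_bump z r)).abs.mul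
          (continuous_const (y := 2 * Real.pi))).tendsto z
        simpa [bump_self, Pi.mul_def] using this
    have e : softArg z r = fun w => (1 - bump z r w) * cutArg z w := rfl
    simpa [ContinuousAt, e, bump_self] using h0
  · have hs : -(z * (starRingEnd ℂ) c) ∈ slitPlane := by
      rw [mem_slitPlane_iff_arg]
      refine ⟨fun h => hzc ?_, by simp [← norm_ne_zero_iff, hz, hc]⟩
      have h1 := norm_mul_exp_arg_mul_I (-(z * (starRingEnd ℂ) c))
      simp only [norm_neg, norm_mul, hz, hc, RCLike.norm_conj, mul_one, ofReal_one, one_mul, h,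
        exp_pi_mul_I] at h1
      have h2 : z * (starRingEnd ℂ) c = 1 := neg_injective h1.symm
      calc z = z * (((starRingEnd ℂ) c) * c) := by
            rw [conj_mul', hc]; simp
        _ = c := by rw [← mul_assoc, h2, one_mul]
    have : ContinuousAt (cutArg c) z := by
      refine ContinuousAt.add ?_ continuousAt_const
      exact (continuousAt_arg hs).comp (f := fun w => -(w * (starRingEnd ℂ) c)) (by fun_prop)
    exact ((continuous_const.sub (continuous_bump c r)).continuousAt).mul this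

theorem norm_exp_softArg_sub_le {c z : ℂ} (hc : ‖c‖ = 1) (hz : ‖z‖ = 1) {r : ℝ} :
    ‖Complex.exp (I * (softArg c r z : ℂ)) - z‖ ≤ 2 * Real.pi * bump c r z := by
  conv_lhs => arg 1; arg 2; rw [← exp_cutArg hc hz]
  have e : I * (softArg c r z : ℂ)
      = I * (cutArg c z : ℂ) + I * ((-(bump c r z * cutArg c z) : ℝ) : ℂ) := by
    rw [softArg]; push_cast; ring
  rw [e, Complex.exp_add, ← mul_sub_one, norm_mul, norm_exp_I_mul_ofReal, one_mul]
  refine (Real.norm_exp_I_mul_ofReal_sub_one_le).trans ?_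
  rw [norm_neg, norm_mul, Real.norm_eq_abs, Real.norm_eq_abs, abs_of_nonneg (bump_nonneg ..),
    mul_comm (2 * Real.pi)]
  exact mul_le_mul_of_nonneg_left (abs_cutArg_le c z) (bump_nonneg ..)

/-- Points of the circle at distances at least `1 / n`. -/
noncomputable def circPt (n j : ℕ) : ℂ := ⟨j / n, Real.sqrt (1 - ((j : ℝ) / n) ^ 2)⟩

theorem norm_circPt {n j : ℕ} (h : j < n) : ‖circPt n j‖ = 1 := by
  have h1 : ((j : ℝ) / n) ^ 2 ≤ 1 := by
    refine pow_le_one₀ (by positivity) (div_le_one_of_le₀ ?_ (by positivity))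
    exact_mod_cast h.le
  rw [Complex.norm_def, circPt, normSq_mk, Real.mul_self_sqrt (by linarith)]
  norm_num [← sq]

theorem sum_bump_le (n : ℕ) (hn : 0 < n) (z : ℂ) :
    ∑ j ∈ Finset.range n, bump (circPt n j) (1 / (2 * n)) z ≤ 1 := by
  have hn' : (0 : ℝ) < n := by exact_mod_cast hn
  by_cases h : ∃ j ∈ Finset.range n, bump (circPt n j) (1 / (2 * n)) z ≠ 0
  · obtain ⟨j, hj, hne⟩ := h
    rw [Finset.sum_eq_single j ?_ (absurd hj)]
    · exact bump_le_one _ (by positivity) z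
    intro i _ hij
    by_contra hi
    have h1 := dist_lt_of_bump_ne_zero (by positivity) hi
    have h2 := dist_lt_of_bump_ne_zero (by positivity) hne
    have h3 : |(z - circPt n j).re - (z - circPt n i).re| < 1 / n := by
      refine (abs_sub _ _).trans_lt ?_
      calc |(z - circPt n j).re| + |(z - circPt n i).re| ≤ ‖z - circPt n j‖ + ‖z - circPt n i‖ :=
            add_le_add (abs_re_le_norm _) (abs_re_le_norm _)
        _ < 1 / (2 * n) + 1 / (2 * n) := add_lt_add h2 h1
        _ = 1 / n := by field_simp; ring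
    have h4 : (1 : ℝ) ≤ |(i : ℝ) - j| := by
      have : (1 : ℤ) ≤ |(i : ℤ) - j| := Int.one_le_abs (by omega)
      exact_mod_cast this
    simp only [sub_re, circPt, sub_sub_sub_cancel_left, ← sub_div, abs_div, Nat.abs_cast] at h3
    rw [div_lt_div_iff_of_pos_right hn'] at h3
    linarith
  · push Not at h
    rw [Finset.sum_eq_zero h]; exact zero_le_one

omit [CompleteSpace H] in
theorem re_inner_self (x : H) : (⟪x, x⟫_ℂ).re = ‖x‖ ^ 2 := inner_self_eq_norm_sq (𝕜 := ℂ) x

theorem inner_cfc_nonneg {w : H →L[ℂ] H} [IsStarNormal w] {F : ℂ → ℝ}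
    (hF : ContinuousOn F (spectrum ℂ w)) (h0 : ∀ z ∈ spectrum ℂ w, 0 ≤ F z) (v : H) :
    0 ≤ (⟪v, cfc (fun z => (F z : ℂ)) w v⟫_ℂ).re := by
  have hs : ContinuousOn (fun z => ((Real.sqrt (F z) : ℝ) : ℂ)) (spectrum ℂ w) :=
    continuous_ofReal.comp_continuousOn (Real.continuous_sqrt.comp_continuousOn hF)
  have e : cfc (fun z => (F z : ℂ)) w
      = star (cfc (fun z => ((Real.sqrt (F z) : ℝ) : ℂ)) w)
        * cfc (fun z => ((Real.sqrt (F z) : ℝ) : ℂ)) w := by
    rw [← cfc_star, ← cfc_mul _ _ w hs.star hs]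
    refine cfc_congr fun z hz => ?_
    simp [← ofReal_mul, Real.mul_self_sqrt (h0 z hz)]
  rw [e, apply_mul, ContinuousLinearMap.star_eq_adjoint, ContinuousLinearMap.adjoint_inner_right,
    re_inner_self]
  positivity

/-- On finitely many vectors a unitary is an exponential. -/
theorem exists_exp_approx {w : H →L[ℂ] H} (h1 : star w * w = 1) (h2 : w * star w = 1)
    {σ : Type} [Fintype σ] (v : σ → H) {ε : ℝ} (hε : 0 < ε) :
    ∃ h : H →L[ℂ] H, IsSelfAdjoint h ∧ (∀ b, Commute w b → Commute (star w) b → Commute h b) ∧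
      ∀ i, ‖NormedSpace.exp (I • h) (v i) - w (v i)‖ ≤ ε := by
  have hw : IsStarNormal w := ⟨by rw [commute_iff_eq, h1, h2]⟩
  have hu : w ∈ unitary (H →L[ℂ] H) := ⟨h1, h2⟩
  have hsp : ∀ z ∈ spectrum ℂ w, ‖z‖ = 1 := fun z hz =>
    mem_sphere_zero_iff_norm.1 (spectrum.subset_circle_of_unitary hu hz)
  obtain ⟨S, hS⟩ : ∃ S : ℝ, S = ∑ i, ‖v i‖ ^ 2 := ⟨_, rfl⟩
  obtain ⟨n, hn⟩ := exists_nat_gt ((2 * Real.pi) ^ 2 * S / ε ^ 2)
  have hn' : (0 : ℝ) < n := lt_of_le_of_lt (by subst hS; positivity) hn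
  have hn0 : 0 < n := by exact_mod_cast hn'
  let B : ℕ → ℝ := fun j => ∑ i,
    (⟪v i, cfc (fun z => (bump (circPt n j) (1 / (2 * n)) z : ℂ)) w (v i)⟫_ℂ).re
  have hB : ∑ j ∈ Finset.range n, B j ≤ S := by
    rw [Finset.sum_comm, hS]
    refine Finset.sum_le_sum fun i _ => ?_
    have hc : ∀ j ∈ Finset.range n, ContinuousOn
        (fun z => (bump (circPt n j) (1 / (2 * n)) z : ℂ)) (spectrum ℂ w) := fun j _ => by fun_prop
    have h := inner_cfc_nonneg (w := w)
      (F := fun z => 1 - ∑ j ∈ Finset.range n, bump (circPt n j) (1 / (2 * n)) z) (by fun_prop)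
      (fun z _ => sub_nonneg.2 (sum_bump_le n hn0 z)) (v i)
    have e : cfc (fun z => ((1 - ∑ j ∈ Finset.range n, bump (circPt n j) (1 / (2 * n)) z : ℝ) : ℂ)) w
        = 1 - ∑ j ∈ Finset.range n, cfc (fun z => (bump (circPt n j) (1 / (2 * n)) z : ℂ)) w := by
      rw [show (fun z => ((1 - ∑ j ∈ Finset.range n, bump (circPt n j) (1 / (2 * n)) z : ℝ) : ℂ))
        = fun z => (1 : ℂ) - ∑ j ∈ Finset.range n, (bump (circPt n j) (1 / (2 * n)) z : ℂ) from
          funext fun z => by push_cast; rfl, cfc_sub (fun _ => (1 : ℂ)) _ w (by fun_prop)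
          (continuousOn_finsetSum _ hc), cfc_const_one ℂ w]
      exact congrArg _ ((congrArg (fun f => cfc f w) (funext fun z => (Finset.sum_apply z (Finset.range n)
        fun j z => (bump (circPt n j) (1 / (2 * n)) z : ℂ)).symm)).trans
        (cfc_sum (fun j z => (bump (circPt n j) (1 / (2 * n)) z : ℂ)) w (Finset.range n) hc))
    rw [e, sub_apply, sum_apply, inner_sub_right, inner_sum, sub_re, re_sum,
      one_apply_eq_self, re_inner_self] at h
    linarith
  obtain ⟨j, hj, hjB⟩ : ∃ j ∈ Finset.range n, B j ≤ S / n := by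
    refine Finset.exists_le_of_sum_le (Finset.nonempty_range_iff.2 hn0.ne') (hB.trans ?_)
    simp [Finset.sum_const]; rw [mul_div_cancel₀ _ hn'.ne']
  rw [Finset.mem_range] at hj
  obtain ⟨g, hg⟩ : ∃ g : ℂ → ℂ, g = fun z => (softArg (circPt n j) (1 / (2 * n)) z : ℂ) := ⟨_, rfl⟩
  have hgc : ContinuousOn g (spectrum ℂ w) := hg ▸ continuous_ofReal.comp_continuousOn
    ((continuousOn_softArg (norm_circPt hj) _).mono fun z hz => mem_sphere_zero_iff_norm.2 (hsp z hz))
  refine ⟨cfc g w, ?_, fun b hb hb' => hb.cfc hb' g, fun i => ?_⟩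
  · rw [isSelfAdjoint_iff, ← cfc_star]
    exact cfc_congr fun z _ => by simp [hg]
  have hexp : NormedSpace.exp (I • cfc g w) = cfc (fun z => Complex.exp (I * g z)) w := by
    rw [← cfc_const_mul I g w hgc, ← CFC.complex_exp_eq_normedSpace_exp (a := cfc (fun z => I * g z) w),
      ← cfc_comp' Complex.exp (fun z => I * g z) w]
  obtain ⟨d, hd⟩ : ∃ d : ℂ → ℂ, d = fun z => Complex.exp (I * g z) - z := ⟨_, rfl⟩
  have hdc : ContinuousOn d (spectrum ℂ w) := by rw [hd]; fun_prop
  have e : NormedSpace.exp (I • cfc g w) (v i) - w (v i) = cfc d w (v i) := by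
    rw [hexp, hd, cfc_sub _ _ w, cfc_id' ℂ w, sub_apply]
  have hsq : ‖cfc d w (v i)‖ ^ 2 ≤ (2 * Real.pi) ^ 2
      * (⟪v i, cfc (fun z => (bump (circPt n j) (1 / (2 * n)) z : ℂ)) w (v i)⟫_ℂ).re := by
    have h := inner_cfc_nonneg (w := w)
      (F := fun z => (2 * Real.pi) ^ 2 * bump (circPt n j) (1 / (2 * n)) z - ‖d z‖ ^ 2)
      ((Continuous.continuousOn (by fun_prop)).sub (hdc.norm.pow 2)) (fun z hz => ?_) (v i)
    · have e : cfc (fun z => (((2 * Real.pi) ^ 2 * bump (circPt n j) (1 / (2 * n)) z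
            - ‖d z‖ ^ 2 : ℝ) : ℂ)) w
          = ((((2 * Real.pi) ^ 2 : ℝ)) : ℂ) • cfc (fun z => (bump (circPt n j) (1 / (2 * n)) z : ℂ)) w
            - star (cfc d w) * cfc d w := by
        rw [← cfc_smul _ _ w, ← cfc_star, ← cfc_mul _ _ w hdc.star hdc, ← cfc_sub _ _ w]
        refine cfc_congr fun z _ => ?_
        simp only [smul_eq_mul, RCLike.star_def, conj_mul']
        push_cast; ring
      rw [e, sub_apply, smul_apply, apply_mul, inner_sub_right, inner_smul_right,
        ContinuousLinearMap.star_eq_adjoint, ContinuousLinearMap.adjoint_inner_right,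
        sub_re, re_ofReal_mul, re_inner_self] at h
      linarith
    · have h1 := norm_exp_softArg_sub_le (norm_circPt hj) (hsp z hz) (r := 1 / (2 * n))
      have h0 := bump_nonneg (circPt n j) (1 / (2 * n)) z
      have h2 := bump_le_one (circPt n j) (r := 1 / (2 * n)) (by positivity) z
      have h3 := pow_le_pow_left₀ (norm_nonneg _) h1 2
      rw [mul_pow] at h3
      have h4 : bump (circPt n j) (1 / (2 * n)) z ^ 2 ≤ bump (circPt n j) (1 / (2 * n)) z := by
        nlinarith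
      have h5 := mul_le_mul_of_nonneg_left h4 (sq_nonneg (2 * Real.pi))
      simp only [sub_nonneg, hd, hg]
      linarith
  have hle : (⟪v i, cfc (fun z => (bump (circPt n j) (1 / (2 * n)) z : ℂ)) w (v i)⟫_ℂ).re ≤ B j :=
    Finset.single_le_sum (f := fun i =>
      (⟪v i, cfc (fun z => (bump (circPt n j) (1 / (2 * n)) z : ℂ)) w (v i)⟫_ℂ).re)
      (fun k _ => inner_cfc_nonneg (by fun_prop) (fun z _ => bump_nonneg ..) (v k)) (Finset.mem_univ i)
  have hfin : (2 * Real.pi) ^ 2 * (S / n) ≤ ε ^ 2 := by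
    rw [div_lt_iff₀ (by positivity)] at hn
    rw [mul_div_assoc', div_le_iff₀ hn']
    linarith
  rw [e]
  exact (pow_le_pow_iff_left₀ (norm_nonneg _) hε.le two_ne_zero).1
    (hsq.trans ((mul_le_mul_of_nonneg_left (hle.trans hjB) (sq_nonneg _)).trans hfin))

/-- Bounded strong convergence. -/
def SLim (a : ℕ → H →L[ℂ] H) (A : H →L[ℂ] H) : Prop :=
  (∃ C, ∀ n, ‖a n‖ ≤ C) ∧ ∀ v, Tendsto (fun n => a n v) atTop (𝓝 (A v))

omit [CompleteSpace H] in
theorem SLim.const (A : H →L[ℂ] H) : SLim (fun _ => A) A :=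
  ⟨⟨‖A‖, fun _ => le_rfl⟩, fun _ => tendsto_const_nhds⟩

omit [CompleteSpace H] in
theorem SLim.add {a b : ℕ → H →L[ℂ] H} {A B : H →L[ℂ] H} (ha : SLim a A) (hb : SLim b B) :
    SLim (fun n => a n + b n) (A + B) :=
  ⟨let ⟨C, hC⟩ := ha.1; let ⟨D, hD⟩ := hb.1
    ⟨C + D, fun n => (norm_add_le _ _).trans (add_le_add (hC n) (hD n))⟩,
    fun v => by simpa using (ha.2 v).add (hb.2 v)⟩

theorem SLim.smul {a : ℕ → H →L[ℂ] H} {A : H →L[ℂ] H} (ha : SLim a A) (c : ℂ) :
    SLim (fun n => c • a n) (c • A) :=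
  ⟨let ⟨C, hC⟩ := ha.1; ⟨‖c‖ * C, fun n => by rw [norm_smul]; gcongr; exact hC n⟩,
    fun v => by simpa using (ha.2 v).const_smul c⟩

theorem SLim.mul {a b : ℕ → H →L[ℂ] H} {A B : H →L[ℂ] H} (ha : SLim a A) (hb : SLim b B) :
    SLim (fun n => a n * b n) (A * B) := by
  obtain ⟨C, hC⟩ := ha.1
  obtain ⟨D, hD⟩ := hb.1
  refine ⟨⟨C * D, fun n => (norm_mul_le _ _).trans
    (mul_le_mul (hC n) (hD n) (norm_nonneg _) ((norm_nonneg _).trans (hC n)))⟩, fun v => ?_⟩
  have h0 : Tendsto (fun n => a n (b n v - B v)) atTop (𝓝 0) :=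
    squeeze_zero_norm (fun n => (a n).le_of_opNorm_le (hC n) _)
      (by simpa using ((tendsto_iff_norm_sub_tendsto_zero.1 (hb.2 v)).const_mul C))
  simpa [apply_mul] using h0.add (ha.2 (B v))

theorem SLim.finsetSum {ι : Type} (s : Finset ι) {a : ι → ℕ → H →L[ℂ] H} {A : ι → H →L[ℂ] H}
    (h : ∀ i ∈ s, SLim (a i) (A i)) : SLim (fun n => ∑ i ∈ s, a i n) (∑ i ∈ s, A i) := by
  induction s using Finset.cons_induction with
  | empty => simpa using SLim.const (0 : H →L[ℂ] H)
  | cons i s hi ih =>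
    simp only [Finset.sum_cons]
    exact (h i (Finset.mem_cons_self _ _)).add (ih fun j hj => h j (Finset.mem_cons_of_mem hj))

theorem SLim.pow {a : ℕ → H →L[ℂ] H} {A : H →L[ℂ] H} (ha : SLim a A) (k : ℕ) :
    SLim (fun n => a n ^ k) (A ^ k) := by
  induction k with
  | zero => simpa using SLim.const (1 : H →L[ℂ] H)
  | succ k ih => simpa [pow_succ] using ih.mul ha

theorem exp_apply_eq_tsum (a : H →L[ℂ] H) (v : H) :
    NormedSpace.exp a v = ∑' k : ℕ, (k.factorial : ℂ)⁻¹ • (a ^ k) v := by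
  have h := ((NormedSpace.exp_series_hasSum_exp' (𝕂 := ℂ) a).mapL
    (ContinuousLinearMap.apply ℂ H v)).tsum_eq
  simpa using h.symm

theorem SLim.exp {a : ℕ → H →L[ℂ] H} {A : H →L[ℂ] H} (ha : SLim a A) (v : H) :
    Tendsto (fun n => NormedSpace.exp (a n) v) atTop (𝓝 (NormedSpace.exp A v)) := by
  obtain ⟨C, hC⟩ := ha.1
  simp only [exp_apply_eq_tsum]
  have hC0 : 0 ≤ C := (norm_nonneg _).trans (hC 0)
  refine tendsto_tsum_of_dominated_convergence
    (bound := fun k : ℕ => C ^ k / k.factorial * ‖v‖)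
    ((Real.summable_pow_div_factorial C).mul_right _) (fun k => ((ha.pow k).2 v).const_smul _)
    (Eventually.of_forall fun n k => ?_)
  rw [norm_smul, norm_inv, norm_natCast, ← div_eq_inv_mul, div_mul_eq_mul_div]
  gcongr
  induction k with
  | zero => simp
  | succ k ih =>
    rw [pow_succ', pow_succ', apply_mul, mul_assoc]
    exact ((a n).le_of_opNorm_le (hC n) _).trans (mul_le_mul_of_nonneg_left ih hC0)

theorem exp_I_smul_unitary {h : H →L[ℂ] H} (hh : IsSelfAdjoint h) :
    star (NormedSpace.exp (I • h)) * NormedSpace.exp (I • h) = 1 ∧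
      NormedSpace.exp (I • h) * star (NormedSpace.exp (I • h)) = 1 :=
  (selfAdjoint.expUnitary ⟨h, hh⟩).2

theorem star_exp_I_smul {h : H →L[ℂ] H} (hh : IsSelfAdjoint h) :
    star (NormedSpace.exp (I • h)) = NormedSpace.exp ((-I) • h) := by
  rw [NormedSpace.star_exp, star_smul, hh.star_eq]
  simp

end Vale.Agent.P096.Cent
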