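import Vale.Agent.P096.Cent.Units
import Vale.Agent.P096.Cent.ExpApprox

/-!
P096, type III: blocks of tracial slots, their expectations, and their asymptotic centrality.
-/

open scoped InnerProductSpace
open Filter Topology
open Vale.Agent.P132.Tomita (conjBy Modular)
open VP132 (rho)
open VP132.Fixed (rho_apply rho_mul rho_comm rho_apply_le apply_le)

set_option linter.unusedSectionVars false

namespace Vale.Agent.P096.Cent

open Vale.Agent.P104.Continuous

variable {H : Type} [NormedAddCommGroup H] [InnerProductSpace ℂ H] [CompleteSpace H]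
variable {M : VonNeumannAlgebra H} {ξ : H} {R : H →L[ℂ] H} {J : H ≃ₗᵢ⋆[ℂ] H}
  {U : ℝ → H →L[ℂ] H}

/-- Asymptotically central two by two matrix units in the centralizer of `ξ`. -/
structure TraceSlots (M : VonNeumannAlgebra H) (ξ : H) (J : H ≃ₗᵢ⋆[ℂ] H)
    (f : ℕ → Fin 2 → Fin 2 → H →L[ℂ] H) : Prop where
  units : ∀ j, IsUnits M ξ J (f j)
  comm : ∀ i j a b c d, i ≠ j → Commute (f i a b) (f j c d)
  asymp : ∀ a b v, Tendsto (fun j => f j a b v - rho J (f j a b) v) atTop (𝓝 0)

variable (f : ℕ → Fin 2 → Fin 2 → H →L[ℂ] H)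

/-- The matrix units of the slots `a, …, a + K - 1`. -/
noncomputable def blk (a : ℕ) : (K : ℕ) → (Fin K → Fin 2) → (Fin K → Fin 2) → H →L[ℂ] H
  | 0, _, _ => 1
  | K + 1, p, q => blk a K (Fin.init p) (Fin.init q) * f (a + K) (p (Fin.last K)) (q (Fin.last K))

/-- The expectation onto the commutant of the slots `a, …, a + K - 1`. -/
noncomputable def psi (a : ℕ) : ℕ → (H →L[ℂ] H) → H →L[ℂ] H
  | 0, x => x
  | K + 1, x => phi (f (a + K)) (psi a K x)

theorem psi_add (a K L : ℕ) (x : H →L[ℂ] H) : psi f a (K + L) x = psi f (a + K) L (psi f a K x) := by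
  induction L with
  | zero => rfl
  | succ L ih => rw [← Nat.add_assoc, psi, psi, ih, Nat.add_assoc]

theorem psi_sub (a K : ℕ) (x y : H →L[ℂ] H) : psi f a K (x - y) = psi f a K x - psi f a K y := by
  induction K with
  | zero => rfl
  | succ K ih => rw [psi, psi, psi, ih, phi_sub]

variable {f}

namespace TraceSlots

variable (hf : TraceSlots M ξ J f)
include hf

theorem blk_commute_slot {a K j : ℕ} (hj : j < a ∨ a + K ≤ j) (p q : Fin K → Fin 2) (c d : Fin 2) :
    Commute (blk f a K p q) (f j c d) := by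
  induction K with
  | zero => exact Commute.one_left _
  | succ K ih => exact (ih (by omega) _ _).mul_left (hf.comm _ _ _ _ _ _ (by omega))

theorem blk_commute {a K b L : ℕ} (h : a + K ≤ b ∨ b + L ≤ a) (p q : Fin K → Fin 2)
    (r s : Fin L → Fin 2) : Commute (blk f a K p q) (blk f b L r s) := by
  induction L with
  | zero => exact Commute.one_right _
  | succ L ih => exact (ih (by omega) _ _).mul_right (hf.blk_commute_slot (by omega) _ _ _ _)

theorem blk_eq_prodU (a K : ℕ) : blk f a (K + 1) = fun p q => prodU (blk f a K) (f (a + K))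
    (Fin.init p, p (Fin.last K)) (Fin.init q, q (Fin.last K)) := rfl

theorem isUnits_blk (hm : Modular M ξ R J U) (a K : ℕ) : IsUnits M ξ J (blk f a K) := by
  induction K with
  | zero =>
    refine ⟨fun _ _ => one_mem M, fun p q r s => ?_, fun _ _ => star_one _, ?_, fun _ _ => ?_⟩
    · simp [blk, Subsingleton.elim q r]
    · simp [blk]
    · simp [blk, rho_one hm]
  | succ K ih =>
    have h := isUnits_prodU hm ih (hf.units (a + K))
      (fun p q c d => hf.blk_commute_slot (Or.inr le_rfl) p q c d)
    rw [blk_eq_prodU hf a K]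
    refine ⟨fun p q => h.mem _ _, fun p q r s => (h.mul (Fin.init p, p (Fin.last K))
      (Fin.init q, q (Fin.last K)) (Fin.init r, r (Fin.last K))
      (Fin.init s, s (Fin.last K))).trans ?_, fun p q => h.star_eq _ _, ?_, fun p q => h.cent _ _⟩
    · have e : (Fin.init q, q (Fin.last K)) = (Fin.init r, r (Fin.last K)) ↔ q = r := by
        refine ⟨fun hqr => ?_, fun hqr => by rw [hqr]⟩
        obtain ⟨h1, h2⟩ := Prod.ext_iff.1 hqr
        dsimp only at h1 h2
        rw [← Fin.snoc_init_self q, ← Fin.snoc_init_self r, h1, h2]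
      simp only [e]
    · rw [← h.sum_one]
      exact Fintype.sum_equiv ((Fin.snocEquiv fun _ => Fin 2).symm.trans (Equiv.prodComm _ _)) _ _
        fun p => rfl

theorem phi_blk (a K : ℕ) (x : H →L[ℂ] H) : phi (blk f a K) x = psi f a K x := by
  induction K generalizing x with
  | zero => simp [phi, blk, psi]
  | succ K ih =>
    have hc : ∀ p q c d, Commute (blk f a K p q) (f (a + K) c d) := fun p q c d =>
      hf.blk_commute_slot (Or.inr le_rfl) p q c d
    rw [psi, ← ih, ← phi_phi_comm hc, ← phi_prodU hc,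
      ← phi_congr (prodU (blk f a K) (f (a + K)))
        ((Fin.snocEquiv fun _ => Fin 2).symm.trans (Equiv.prodComm _ _))]
    rfl

theorem psi_mem (a K : ℕ) {x : H →L[ℂ] H} (hx : x ∈ M) : psi f a K x ∈ M := by
  induction K with
  | zero => exact hx
  | succ K ih => exact (hf.units _).phi_mem ih

theorem norm_psi_le (a K : ℕ) (x : H →L[ℂ] H) : ‖psi f a K x‖ ≤ ‖x‖ := by
  induction K with
  | zero => exact le_rfl
  | succ K ih => exact (norm_phi_le (hf.units (a + K)) _).trans ih

theorem psi_xi_le (hm : Modular M ξ R J U) (a K : ℕ) {x : H →L[ℂ] H} (hx : x ∈ M) :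
    ‖psi f a K x ξ‖ ≤ ‖x ξ‖ := by
  induction K with
  | zero => exact le_rfl
  | succ K ih => exact (phi_xi_le (hf.units (a + K)) hm (hf.psi_mem a K hx)).trans ih

theorem phi_psi_comm {a K j : ℕ} (hj : a + K ≤ j) (x : H →L[ℂ] H) :
    phi (f j) (psi f a K x) = psi f a K (phi (f j) x) := by
  induction K with
  | zero => rfl
  | succ K ih =>
    rw [psi, psi, ← ih (by omega), phi_phi_comm fun c d c' d' => hf.comm _ _ _ _ _ _ (by omega)]

theorem psi_psi_comm {a K b L : ℕ} (h : a + K ≤ b) (x : H →L[ℂ] H) :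
    psi f b L (psi f a K x) = psi f a K (psi f b L x) := by
  induction L with
  | zero => rfl
  | succ L ih => rw [psi, psi, ih, hf.phi_psi_comm (by omega)]

theorem psi_of_commute (a K : ℕ) {x : H →L[ℂ] H}
    (hx : ∀ j, a ≤ j → j < a + K → ∀ c d, Commute x (f j c d)) : psi f a K x = x := by
  induction K with
  | zero => rfl
  | succ K ih =>
    rw [psi, ih fun j h1 h2 => hx j h1 (by omega),
      (hf.units _).phi_of_commute (hx _ (by omega) (by omega))]

theorem psi_commute_slot {a K : ℕ} {x : H →L[ℂ] H} {j : ℕ}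
    (h : (a ≤ j ∧ j < a + K) ∨ ∀ c d, Commute x (f j c d)) (c d : Fin 2) :
    Commute (psi f a K x) (f j c d) := by
  induction K generalizing c d with
  | zero => exact h.elim (fun h' => absurd h'.2 (by omega)) fun h' => h' c d
  | succ K ih =>
    rcases eq_or_ne j (a + K) with rfl | hj
    · exact (hf.units _).phi_commute _ c d
    · exact phi_commute_other (fun p q => hf.comm _ _ _ _ _ _ hj.symm)
        (ih (h.imp_left fun h' => ⟨h'.1, by omega⟩) c d)

theorem commute_blk {x : H →L[ℂ] H} {a K : ℕ}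
    (hx : ∀ j, a ≤ j → j < a + K → ∀ c d, Commute x (f j c d)) (p q : Fin K → Fin 2) :
    Commute x (blk f a K p q) := by
  induction K with
  | zero => exact Commute.one_right _
  | succ K ih =>
    exact (ih (fun j h1 h2 => hx j h1 (by omega)) _ _).mul_right (hx _ (by omega) (by omega) _ _)

/-- Moving blocks are asymptotically central. -/
theorem asymp_blk (hm : Modular M ξ R J U) (K : ℕ) {s : ℕ → ℕ} (hs : Tendsto s atTop atTop)
    (p q : Fin K → Fin 2) (v : H) :
    Tendsto (fun n => blk f (s n) K p q v - rho J (blk f (s n) K p q) v) atTop (𝓝 0) := by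
  induction K generalizing v with
  | zero => simp [blk, rho_one hm]
  | succ K ih =>
    let g : ℕ → H →L[ℂ] H := fun n => f (s n + K) (p (Fin.last K)) (q (Fin.last K))
    let b : ℕ → H →L[ℂ] H := fun n => blk f (s n) K (Fin.init p) (Fin.init q)
    have hg : ∀ n, ‖g n‖ ≤ 1 := fun n => (hf.units _).norm_le _ _
    have hb : ∀ n, ‖b n‖ ≤ 1 := fun n => (hf.isUnits_blk hm _ _).norm_le _ _
    have e : ∀ n, blk f (s n) (K + 1) p q v - rho J (blk f (s n) (K + 1) p q) v
        = b n (g n v - rho J (g n) v) + rho J (g n) (b n v - rho J (b n) v) := fun n => by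
      show (b n * g n) v - rho J (b n * g n) v = _
      rw [rho_mul hm, apply_mul, apply_mul, map_sub, map_sub,
        rho_comm hm ((hf.units _).mem _ _) ((hf.isUnits_blk hm _ _).mem _ _)]
      abel
    simp only [e]
    have h1 : Tendsto (fun n => g n v - rho J (g n) v) atTop (𝓝 0) :=
      (hf.asymp _ _ v).comp (tendsto_atTop_mono (fun n => Nat.le_add_right _ _) hs)
    rw [← add_zero (0 : H)]
    exact Tendsto.add
      (squeeze_zero_norm (fun n => apply_le (hb n) _) (tendsto_zero_iff_norm_tendsto_zero.1 h1))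
      (squeeze_zero_norm (fun n => rho_apply_le (hg n) _)
        (tendsto_zero_iff_norm_tendsto_zero.1 (ih (Fin.init p) (Fin.init q) v)))

end TraceSlots

/-- An asymptotically central bounded sequence asymptotically commutes with strongly convergent
bounded sequences of `M`. -/
theorem tendsto_commutator (hm : Modular M ξ R J U) {c a : ℕ → H →L[ℂ] H} {A : H →L[ℂ] H}
    (hc : ∀ n, c n ∈ M) (hc1 : ∀ n, ‖c n‖ ≤ 1)
    (hcv : ∀ v, Tendsto (fun n => c n v - rho J (c n) v) atTop (𝓝 0))
    (ha : ∀ n, a n ∈ M) (hA : SLim a A) (v : H) :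
    Tendsto (fun n => a n (c n v) - c n (a n v)) atTop (𝓝 0) := by
  obtain ⟨C, hC⟩ := hA.1
  have hzero : ∀ {u : ℕ → H}, Tendsto u atTop (𝓝 0) → ∀ {T : ℕ → H → H} (D : ℝ),
      (∀ n, ‖T n (u n)‖ ≤ D * ‖u n‖) → Tendsto (fun n => T n (u n)) atTop (𝓝 0) :=
    fun {u} hu {T} D hT => squeeze_zero_norm hT
      (by simpa using (tendsto_zero_iff_norm_tendsto_zero.1 hu).const_mul D)
  have e : ∀ n, a n (c n v) - c n (a n v) = a n (c n v - rho J (c n) v)
      - (c n (a n v - A v) - rho J (c n) (a n v - A v)) - (c n (A v) - rho J (c n) (A v)) := fun n => by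
    simp only [map_sub, rho_comm hm (hc n) (ha n)]
    abel
  simp only [e]
  have h0 : Tendsto (fun n => a n v - A v) atTop (𝓝 0) := tendsto_sub_nhds_zero_iff.2 (hA.2 v)
  have h1 := hzero (hcv v) (T := fun n z => a n z) C fun n => (a n).le_of_opNorm_le (hC n) _
  have h2 := hzero h0 (T := fun n z => c n z - rho J (c n) z) 2 fun n => by
    rw [two_mul]
    exact (norm_sub_le _ _).trans (add_le_add (apply_le (hc1 n) _) (rho_apply_le (hc1 n) _))
  simpa using (h1.sub h2).sub (hcv (A v))

/-- The expectation onto the commutant of a moving block tends to the identity. -/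
theorem TraceSlots.slim_psi (hf : TraceSlots M ξ J f) (hm : Modular M ξ R J U) (K : ℕ) {s : ℕ → ℕ}
    (hs : Tendsto s atTop atTop) {a : ℕ → H →L[ℂ] H} {A : H →L[ℂ] H} (ha : ∀ n, a n ∈ M)
    (hA : SLim a A) : SLim (fun n => psi f (s n) K (a n)) A := by
  obtain ⟨C, hC⟩ := hA.1
  refine ⟨⟨C, fun n => (hf.norm_psi_le _ _ _).trans (hC n)⟩, fun v => ?_⟩
  obtain ⟨c₀, hc₀⟩ : ∃ c : ℂ, c = (Fintype.card (Fin K → Fin 2) : ℂ)⁻¹ := ⟨_, rfl⟩
  have e : ∀ n, psi f (s n) K (a n) v - a n v = c₀ • ∑ p, ∑ q,
      blk f (s n) K p q (a n (blk f (s n) K q p v) - blk f (s n) K q p (a n v)) := fun n => by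
    have hu := hf.isUnits_blk hm (s n) K
    have h1 : a n v = c₀ • ∑ p, ∑ q, blk f (s n) K p q (blk f (s n) K q p (a n v)) := by
      have h2 : ∀ p q z, blk f (s n) K p q (blk f (s n) K q p z) = blk f (s n) K p p z :=
        fun p q z => by rw [← apply_mul, hu.mul, if_pos rfl]
      simp only [h2, Finset.sum_const, Finset.card_univ, ← Finset.smul_sum, hu.apply_sum]
      rw [hc₀, ← Nat.cast_smul_eq_nsmul ℂ, smul_smul,
        inv_mul_cancel₀ (by exact_mod_cast Fintype.card_ne_zero), one_smul]
    conv_lhs => arg 2; rw [h1]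
    simp only [← hf.phi_blk, phi, hc₀, smul_apply, sum_apply, apply_mul, map_sub,
      Finset.sum_sub_distrib, smul_sub]
  refine tendsto_sub_nhds_zero_iff.1 ?_
  have h0 : Tendsto (fun n => psi f (s n) K (a n) v - a n v) atTop (𝓝 0) := by
    simp only [e]
    rw [← smul_zero c₀]
    refine Tendsto.const_smul ?_ c₀
    rw [← Finset.sum_const_zero (s := (Finset.univ : Finset (Fin K → Fin 2)))]
    refine tendsto_finsetSum _ fun p _ => ?_
    rw [← Finset.sum_const_zero (s := (Finset.univ : Finset (Fin K → Fin 2)))]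
    refine tendsto_finsetSum _ fun q _ => ?_
    exact squeeze_zero_norm (fun n => apply_le ((hf.isUnits_blk hm _ _).norm_le _ _) _)
      (tendsto_zero_iff_norm_tendsto_zero.1 (tendsto_commutator hm
        (fun n => (hf.isUnits_blk hm _ _).mem q p) (fun n => (hf.isUnits_blk hm _ _).norm_le q p)
        (fun z => hf.asymp_blk hm K hs q p z) ha hA v))
  simpa using h0.add (tendsto_sub_nhds_zero_iff.2 (hA.2 v))

/-- The exchange of two commuting systems on one index set. -/
noncomputable def flipU {I : Type} [Fintype I] (e e' : I → I → H →L[ℂ] H) : H →L[ℂ] H :=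
  ∑ a, ∑ b, e a b * e' b a

section Flip

variable {I : Type} [Fintype I] [DecidableEq I] {e e' : I → I → H →L[ℂ] H}
  (he : IsUnits M ξ J e) (he' : IsUnits M ξ J e') (h : ∀ a b c d, Commute (e a b) (e' c d))
include he he' h

theorem flipU_mem : flipU e e' ∈ M :=
  sum_mem fun a _ => sum_mem fun b _ => mul_mem (he.mem a b) (he'.mem b a)

theorem star_flipU : star (flipU e e') = flipU e e' := by
  simp only [flipU, star_sum, star_mul, he.star_eq, he'.star_eq, ← (h _ _ _ _).eq]
  exact Finset.sum_comm

theorem flipU_mul_self : flipU e e' * flipU e e' = 1 := by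
  have e1 : ∀ a b c d, e a b * e' b a * (e c d * e' d c)
      = if b = c then (if a = d then e a d * e' b c else 0) else 0 := fun a b c d => by
    calc e a b * e' b a * (e c d * e' d c) = e a b * (e' b a * e c d) * e' d c := by
          simp only [mul_assoc]
      _ = (e a b * e c d) * (e' b a * e' d c) := by
          rw [← (h c d b a).eq]; simp only [mul_assoc]
      _ = _ := by rw [he.mul, he'.mul]; split_ifs <;> simp
  simp only [flipU, Finset.sum_mul, Finset.mul_sum, e1]
  calc _ = ∑ a, ∑ b, e a a * e' b b := by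
        refine (Finset.sum_comm' (t' := Finset.univ) (s' := fun _ => Finset.univ) (by simp)).trans ?_
        refine Finset.sum_congr rfl fun a _ => ?_
        refine Finset.sum_congr rfl fun b _ => ?_
        simp
    _ = 1 := by simp only [← Finset.mul_sum, he'.sum_one, mul_one, he.sum_one]

theorem flipU_cent (hm : Modular M ξ R J U) : rho J (flipU e e') ξ = flipU e e' ξ := by
  simp only [flipU, rho_sum, sum_apply]
  refine Finset.sum_congr rfl fun a _ => Finset.sum_congr rfl fun b _ => ?_
  exact (isUnits_prodU hm he he' h).cent (a, b) (b, a)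

theorem flipU_intertwine (c d : I) : flipU e e' * e c d = e' c d * flipU e e' := by
  simp only [flipU, Finset.sum_mul, Finset.mul_sum]
  have h1 : ∀ a b, e a b * e' b a * e c d = if b = c then e a d * e' b a else 0 := fun a b => by
    rw [mul_assoc, ← (h c d b a).eq, ← mul_assoc, he.mul]; split_ifs <;> simp
  have h2 : ∀ a b, e' c d * (e a b * e' b a) = if d = b then e a b * e' c a else 0 := fun a b => by
    rw [← mul_assoc, ← (h a b c d).eq, mul_assoc, he'.mul]; split_ifs <;> simp
  simp [h1, h2]

end Flip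

end Vale.Agent.P096.Cent
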