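import Vale.Agent.P096.Cent.Step

/-!
P096, type III: a cyclic separating vector whose state is invariant under an increasing sequence of
finite unitary groups of `M`, the averages over which carry every element to the centre.
-/

open scoped InnerProductSpace
open Filter Topology Complex
open Vale.Agent.P132.Tomita (conjBy Modular)
open VP132 (rho)
open VP132.Fixed (rho_apply rho_mul rho_comm rho_apply_le apply_le norm_of_star_mul_self norm_rho_star)

set_option linter.unusedSectionVars false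

namespace Vale.Agent.P096.Cent

open Vale.Agent.P104.Continuous

variable {H : Type} [NormedAddCommGroup H] [InnerProductSpace ℂ H] [CompleteSpace H]
variable {M : VonNeumannAlgebra H} {ξ : H} {R : H →L[ℂ] H} {J : H ≃ₗᵢ⋆[ℂ] H}
  {U : ℝ → H →L[ℂ] H} {f : ℕ → Fin 2 → Fin 2 → H →L[ℂ] H}

/-- The vector of the state conjugated by `W`. -/
noncomputable def vec (ξ : H) (J : H ≃ₗᵢ⋆[ℂ] H) (W : H →L[ℂ] H) : H := W (rho J (star W) ξ)

section Vec

variable (hm : Modular M ξ R J U) {W : H →L[ℂ] H} (hW : W ∈ M) (h1 : star W * W = 1)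
  (h2 : W * star W = 1)

include hm hW h1

theorem norm_vec : ‖vec ξ J W‖ = ‖ξ‖ := by
  rw [vec, norm_of_star_mul_self h1, norm_rho_star h1]

theorem J_vec : J (vec ξ J W) = vec ξ J W := by
  have h := rho_comm hm (star_mem hW) hW ξ
  rw [rho_apply, rho_apply, hm.J_xi, star_star] at h
  rw [vec, rho_apply, hm.J_xi, star_star, h]

theorem apply_vec {x : H →L[ℂ] H} (hx : x ∈ M) :
    x (vec ξ J W) = W (rho J (star W) ((star W * x * W) ξ)) ∨ W * star W ≠ 1 := by
  by_cases h : W * star W = 1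
  · left
    rw [rho_comm hm (star_mem hW) (mul_mem (mul_mem (star_mem hW) hx) hW), vec, ← apply_mul x W,
      ← apply_mul W (star W * x * W)]
    congr 1
    rw [← mul_assoc, ← mul_assoc, h, one_mul]
  · exact Or.inr h

include h2

theorem norm_apply_vec {x : H →L[ℂ] H} (hx : x ∈ M) :
    ‖x (vec ξ J W)‖ = ‖(star W * x * W) ξ‖ := by
  rw [((apply_vec hm hW h1 hx).resolve_right fun h => h h2), norm_of_star_mul_self h1,
    norm_rho_star h1]

theorem dense_vec (hd : Dense {v : H | ∃ x ∈ M, x ξ = v}) :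
    Dense {v : H | ∃ x ∈ M, x (vec ξ J W) = v} := by
  refine Metric.dense_iff.2 fun v ε hε => ?_
  obtain ⟨_, hxv, x, hx, rfl⟩ := Metric.dense_iff.1 hd (rho J W v) ε hε
  refine ⟨x * star W |> fun y => y (vec ξ J W), ?_, x * star W, mul_mem hx (star_mem hW), rfl⟩
  have e : (x * star W) (vec ξ J W) = rho J (star W) (x ξ) := by
    rw [vec, apply_mul, ← apply_mul (star W) W, h1, one_apply_eq_self, ← rho_comm hm (star_mem hW) hx]
  have e2 : rho J (star W) (rho J W v) = v := by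
    rw [← apply_mul, ← rho_mul hm, h2, rho_one hm, one_apply_eq_self]
  rw [Metric.mem_ball, dist_eq_norm] at hxv ⊢
  show ‖(x * star W) (vec ξ J W) - v‖ < ε
  rwa [e, ← e2, ← map_sub, norm_rho_star h1]

theorem inner_vec {z : H →L[ℂ] H} (hz : z ∈ M) (hc : ∀ b ∈ M, z * b = b * z) :
    ⟪vec ξ J W, z (vec ξ J W)⟫_ℂ = ⟪ξ, z ξ⟫_ℂ := by
  rw [((apply_vec hm hW h1 hz).resolve_right fun h => h h2), vec, mul_assoc, hc W hW, ← mul_assoc,
    h1, one_mul]
  rw [← ContinuousLinearMap.adjoint_inner_right W, ← ContinuousLinearMap.star_eq_adjoint,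
    ← apply_mul (star W), h1, one_apply_eq_self, ← ContinuousLinearMap.adjoint_inner_right (rho J _),
    ← ContinuousLinearMap.star_eq_adjoint, rho, VP132.Row.star_conjBy J hm.J_J,
    ← apply_mul, ← VP132.Row.conjBy_mul J hm.J_J]
  simp only [star_star, h1, VP132.Row.conjBy_one J hm.J_J, one_apply_eq_self]

theorem fix_vec {I : Type} [Fintype I] [DecidableEq I] [AddCommGroup I] {e : I → I → H →L[ℂ] H}
    (he : IsUnits M ξ J e) (g : I × (I → Bool)) :
    rho J (W * mon e g * star W) (vec ξ J W) = (W * mon e g * star W) (vec ξ J W) := by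
  have hp := mon_mem he g
  have e : (W * mon e g * star W) (vec ξ J W) = rho J (star W) (W (mon e g ξ)) := by
    rw [rho_comm hm (star_mem hW) hW, rho_comm hm (star_mem hW) hp, vec, apply_mul, apply_mul,
      ← apply_mul (star W) W, h1, one_apply_eq_self]
  rw [e, vec, rho_mul hm, rho_mul hm, apply_mul, apply_mul, rho_comm hm hW hW (rho J (star W) ξ),
    ← apply_mul (rho J W), ← rho_mul hm, h1, rho_one hm, one_apply_eq_self, rho_comm hm hp hW,
    mon_cent he]

end Vec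

theorem vec_mul_sub (hm : Modular M ξ R J U) {W V : H →L[ℂ] H} (hW : W ∈ M) (hV : V ∈ M)
    (h1 : star W * W = 1) (hv1 : star V * V = 1) (hv2 : V * star V = 1) :
    ‖vec ξ J (W * V) - vec ξ J W‖ = ‖V ξ - rho J V ξ‖ := by
  have e : vec ξ J (W * V) = W (rho J (star W) (V (rho J (star V) ξ))) := by
    rw [vec, star_mul, rho_mul hm, apply_mul, apply_mul,
      ← rho_comm hm (star_mem hW) hV (rho J (star V) ξ)]
  rw [e, vec, ← map_sub, ← map_sub, norm_of_star_mul_self h1, norm_rho_star h1,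
    ← rho_comm hm (star_mem hV) hV]
  have e2 : ξ = rho J (star V) (rho J V ξ) := by
    rw [← apply_mul (rho J (star V)), ← rho_mul hm, hv2, rho_one hm, one_apply_eq_self]
  conv_lhs => arg 1; arg 2; rw [e2]
  rw [← map_sub, norm_rho_star hv1]

namespace TraceSlots

variable (hf : TraceSlots M ξ J f)
include hf

theorem blk_sum (m : ℕ) (g : (Fin m → Fin 2) × ((Fin m → Fin 2) → Bool)) :
    mon (blk f 0 (m + 1)) (Fin.snoc g.1 0, fun q => g.2 (Fin.init q)) = mon (blk f 0 m) g := by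
  simp only [mon]
  rw [← Fintype.sum_equiv (Fin.snocEquiv fun _ => Fin 2)
    (fun q : Fin 2 × (Fin m → Fin 2) => sg (g.2 q.2) •
      (blk f 0 m (q.2 + g.1) q.2 * f m q.1 q.1)) _ (fun q => ?_), Fintype.sum_prod_type,
    Finset.sum_comm]
  · refine Finset.sum_congr rfl fun q _ => ?_
    simp only [← Finset.smul_sum, ← Finset.mul_sum, (hf.units m).sum_one, mul_one]
  · have e1 : Fin.init (Fin.snoc q.2 q.1 + Fin.snoc g.1 0 : Fin (m + 1) → Fin 2) = q.2 + g.1 := by
      funext i; simp [Fin.init]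
    simp [blk, e1, Fin.snocEquiv]

/-- The monomial groups of the initial blocks increase. -/
theorem mon_mono {m m' : ℕ} (h : m ≤ m') (g : (Fin m → Fin 2) × ((Fin m → Fin 2) → Bool)) :
    ∃ g', mon (blk f 0 m') g' = mon (blk f 0 m) g := by
  induction m', h using Nat.le_induction with
  | base => exact ⟨g, rfl⟩
  | succ m' _ ih => obtain ⟨g', h'⟩ := ih; exact ⟨_, (hf.blk_sum m' g').trans h'⟩

end TraceSlots

/-- Data of a stage. -/
structure Stage (H : Type) [NormedAddCommGroup H] [InnerProductSpace ℂ H] where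
  /-- The number of used slots. -/
  m : ℕ
  /-- The unitary. -/
  W : H →L[ℂ] H
  /-- The budget. -/
  r : ℝ
  /-- A bound on the test elements. -/
  bd : ℝ
  /-- The test elements. -/
  P : Finset (H →L[ℂ] H)

/-- The invariant of stage `k`. -/
structure Stage.Good (M : VonNeumannAlgebra H) (ξ : H) (J : H ≃ₗᵢ⋆[ℂ] H) (e : ℕ → H) (k : ℕ)
    (s : Stage H) : Prop where
  mem : s.W ∈ M
  u1 : star s.W * s.W = 1
  u2 : s.W * star s.W = 1
  r_pos : 0 < s.r
  bd_le : 1 ≤ s.bd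
  r_le : s.r * s.bd ≤ 1 / (k + 1 : ℝ)
  P_mem : ∀ x ∈ s.P, x ∈ M ∧ ‖x‖ ≤ s.bd
  P_dense : ∀ j ≤ k, ∃ y ∈ s.P, ‖y (vec ξ J s.W) - e j‖ ≤ 1 / (k + 1 : ℝ)

/-- The relation between consecutive stages. -/
def Stage.Next (M : VonNeumannAlgebra H) (ξ : H) (J : H ≃ₗᵢ⋆[ℂ] H)
    (f : ℕ → Fin 2 → Fin 2 → H →L[ℂ] H) (k : ℕ) (s s' : Stage H) : Prop :=
  s.m ≤ s'.m ∧ s.P ⊆ s'.P ∧ s'.r ≤ s.r / 2 ∧ s.bd ≤ s'.bd ∧
    (∃ V, IsNearCen M ξ J (s.r / 2) V ∧ s'.W = s.W * V ∧ ∀ p q, Commute V (blk f 0 s.m p q)) ∧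
    ∀ x ∈ s.P, ∃ z ∈ M, (∀ b ∈ M, z * b = b * z) ∧ ‖z‖ ≤ ‖x‖ ∧
      ‖psi f 0 s'.m (star s'.W * x * s'.W) ξ - z ξ‖ ≤ 1 / (k + 1 : ℝ)

theorem Stage.exists_next (hm : Modular M ξ R J U) (hd : Dense {v : H | ∃ x ∈ M, x ξ = v})
    (hf : TraceSlots M ξ J f) (hA : ModCentral M ξ J) (e : ℕ → H) (k : ℕ) {s : Stage H}
    (hs : s.Good M ξ J e k) : ∃ s' : Stage H, s'.Good M ξ J e (k + 1) ∧ Stage.Next M ξ J f k s s' := by
  classical
  obtain ⟨m', V, hmm, hV, hVc, hz⟩ := hf.exists_step hm hd hA s.m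
    (fun x : s.P => star s.W * x.1 * s.W)
    (fun x => mul_mem (mul_mem (star_mem hs.mem) (hs.P_mem _ x.2).1) hs.mem)
    (ε := 1 / (k + 1 : ℝ)) (δ := s.r / 2) (by positivity) (half_pos hs.r_pos)
  obtain ⟨hVM, hv1, hv2, hVd⟩ := hV
  have hWM : s.W * V ∈ M := mul_mem hs.mem hVM
  have hu1 : star (s.W * V) * (s.W * V) = 1 := by
    rw [star_mul, mul_assoc, ← mul_assoc (star s.W), hs.u1, one_mul, hv1]
  have hu2 : s.W * V * star (s.W * V) = 1 := by
    rw [star_mul, mul_assoc, ← mul_assoc V, hv2, one_mul, hs.u2]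
  have hy : ∀ j : ℕ, ∃ y ∈ M, ‖y (vec ξ J (s.W * V)) - e j‖ < 1 / ((k : ℝ) + 1 + 1) := fun j => by
    obtain ⟨_, hxv, x, hx, rfl⟩ := Metric.dense_iff.1 (dense_vec hm hWM hu1 hu2 hd) (e j)
      (1 / ((k : ℝ) + 1 + 1)) (by positivity)
    exact ⟨x, hx, by rwa [Metric.mem_ball, dist_eq_norm] at hxv⟩
  choose y hyM hye using hy
  let P' : Finset (H →L[ℂ] H) := s.P ∪ (Finset.range (k + 2)).image y
  let B : ℝ := max s.bd (∑ x ∈ P', ‖x‖)
  have hB : 1 ≤ B := hs.bd_le.trans (le_max_left _ _)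
  refine ⟨⟨m', s.W * V, min (s.r / 2) (1 / (((k : ℝ) + 1 + 1) * B)), B, P'⟩,
    ⟨hWM, hu1, hu2, lt_min (half_pos hs.r_pos) (by positivity), hB, ?_, fun x hx => ⟨?_, ?_⟩,
      fun j hj => ⟨y j, Finset.mem_union_right _ (Finset.mem_image.2 ⟨j, ?_, rfl⟩), ?_⟩⟩,
    hmm.le, Finset.subset_union_left, min_le_left _ _, le_max_left _ _,
    ⟨V, ⟨hVM, hv1, hv2, hVd⟩, rfl, hVc⟩, fun x hx => ?_⟩
  · show min (s.r / 2) (1 / (((k : ℝ) + 1 + 1) * B)) * B ≤ 1 / (((k + 1 : ℕ) : ℝ) + 1)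
    refine (mul_le_mul_of_nonneg_right (min_le_right _ _) (by linarith)).trans_eq ?_
    push_cast
    field_simp
  · rcases Finset.mem_union.1 hx with h | h
    · exact (hs.P_mem _ h).1
    · obtain ⟨j, -, rfl⟩ := Finset.mem_image.1 h; exact hyM j
  · exact (Finset.single_le_sum (f := fun x : H →L[ℂ] H => ‖x‖) (fun _ _ => norm_nonneg _) hx).trans
      (le_max_right _ _)
  · exact Finset.mem_range.2 (by omega)
  · push_cast; exact (hye j).le
  · obtain ⟨z, hzM, hzc, hzn, hzb⟩ := hz ⟨x, hx⟩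
    refine ⟨z, hzM, hzc, hzn.trans ?_, ?_⟩
    · calc ‖star s.W * x * s.W‖ ≤ ‖star s.W‖ * ‖x‖ * ‖s.W‖ :=
            (norm_mul_le _ _).trans (mul_le_mul_of_nonneg_right (norm_mul_le _ _) (norm_nonneg _))
        _ ≤ 1 * ‖x‖ * 1 := by
            rw [norm_star]
            have := norm_le_one_of_unitary hs.u1
            gcongr
        _ = ‖x‖ := by ring
    simpa [star_mul, mul_assoc] using hzb

/-- There is a sequence of stages. -/
theorem Stage.exists_seq (hm : Modular M ξ R J U) (hd : Dense {v : H | ∃ x ∈ M, x ξ = v})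
    (hf : TraceSlots M ξ J f) (hA : ModCentral M ξ J) (e : ℕ → H) :
    ∃ s : ℕ → Stage H, (∀ k, (s k).Good M ξ J e k) ∧ ∀ k, Stage.Next M ξ J f k (s k) (s (k + 1)) := by
  classical
  obtain ⟨y, hy, hye⟩ : ∃ y ∈ M, ‖y ξ - e 0‖ < 1 := by
    obtain ⟨_, hxv, x, hx, rfl⟩ := Metric.dense_iff.1 hd (e 0) 1 one_pos
    exact ⟨x, hx, by rwa [Metric.mem_ball, dist_eq_norm] at hxv⟩
  have hv : vec ξ J (1 : H →L[ℂ] H) = ξ := by simp [vec, rho_one hm]
  have h0 : Stage.Good M ξ J e 0 ⟨0, 1, 1 / (‖y‖ + 1), ‖y‖ + 1, {y}⟩ := by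
    refine ⟨one_mem M, by simp, by simp, by positivity, le_add_of_nonneg_left (norm_nonneg _), ?_,
      fun x hx => ?_, fun j hj => ⟨y, by simp, ?_⟩⟩
    · simp only [Nat.cast_zero, zero_add, div_one]
      rw [div_mul_cancel₀ _ (by positivity)]
    · rw [Finset.mem_singleton] at hx; subst hx; exact ⟨hy, le_add_of_nonneg_right zero_le_one⟩
    · obtain rfl : j = 0 := by omega
      simpa [hv] using hye.le
  choose nx hnx hnx' using fun k (s : {s : Stage H // s.Good M ξ J e k}) =>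
    Stage.exists_next hm hd hf hA e k s.2
  let t : (k : ℕ) → {s : Stage H // s.Good M ξ J e k} := fun k =>
    Nat.rec (motive := fun k => {s : Stage H // s.Good M ξ J e k}) ⟨_, h0⟩
      (fun k s => ⟨nx k s, hnx k s⟩) k
  exact ⟨fun k => (t k).1, fun k => (t k).2, fun k => hnx' k (t k)⟩

/-- A cyclic separating vector with an irreducible centralizer, exhausted by finite groups. -/
structure CentralizerData (M : VonNeumannAlgebra H) (ξ : H) (J : H ≃ₗᵢ⋆[ℂ] H) (η : H)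
    (Γ : ℕ → Type) [∀ k, Fintype (Γ k)] (g : ∀ k, Γ k → H →L[ℂ] H) : Prop where
  norm_eq : ‖η‖ = ‖ξ‖
  J_eta : J η = η
  cyclic : Dense {v : H | ∃ x ∈ M, x η = v}
  separating : ∀ x ∈ M, x η = 0 → x = 0
  inner_center : ∀ z ∈ M, (∀ b ∈ M, z * b = b * z) → ⟪η, z η⟫_ℂ = ⟪ξ, z ξ⟫_ℂ
  mem : ∀ k i, g k i ∈ M
  unitary : ∀ k i, star (g k i) * g k i = 1 ∧ g k i * star (g k i) = 1
  cent : ∀ k i, rho J (g k i) η = g k i η
  one : ∀ k, ∃ i, g k i = 1
  mul : ∀ k i j, ∃ l, g k l = g k i * g k j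
  star_g : ∀ k i, ∃ l, g k l = star (g k i)
  mono : ∀ k l, k ≤ l → ∀ i, ∃ j, g l j = g k i
  avg_commute : ∀ k x i, Commute (conjAvg (fun i => star (g k i)) x) (g k i)
  avg : ∀ x ∈ M, ∀ ε : ℝ, 0 < ε → ∀ᶠ k in atTop, ∃ z ∈ M, (∀ b ∈ M, z * b = b * z) ∧
    ‖conjAvg (fun i => star (g k i)) x η - z η‖ ≤ ε

/-- The construction. -/
theorem exists_centralizerData [TopologicalSpace.SeparableSpace H] (hm : Modular M ξ R J U)
    (hd : Dense {v : H | ∃ x ∈ M, x ξ = v}) (hf : TraceSlots M ξ J f) (hA : ModCentral M ξ J) :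
    ∃ (η : H) (Γ : ℕ → Type) (_ : ∀ k, Fintype (Γ k)) (g : ∀ k, Γ k → H →L[ℂ] H),
      CentralizerData M ξ J η Γ g := by
  obtain ⟨e, he⟩ := TopologicalSpace.exists_dense_seq H
  obtain ⟨s, hg, hn⟩ := Stage.exists_seq hm hd hf hA e
  obtain ⟨v, hv⟩ : ∃ v : ℕ → H, v = fun k => vec ξ J (s k).W := ⟨_, rfl⟩
  -- the vectors converge
  have hstep : ∀ k, ‖v (k + 1) - v k‖ ≤ (s k).r - (s (k + 1)).r := fun k => by
    obtain ⟨-, -, hr, -, ⟨V, ⟨hVM, hv1, hv2, hVd⟩, hW, -⟩, -⟩ := hn k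
    rw [hv]
    simp only [hW, vec_mul_sub hm (hg k).mem hVM (hg k).u1 hv1 hv2]
    linarith
  have htel : ∀ k l, k ≤ l → ‖v l - v k‖ ≤ (s k).r - (s l).r := fun k l h => by
    induction l, h using Nat.le_induction with
    | base => simp
    | succ l _ ih => linarith [norm_sub_le_norm_sub_add_norm_sub (v (l + 1)) (v l) (v k), hstep l]
  have hrk : ∀ k, (s k).r ≤ 1 / (k + 1 : ℝ) := fun k =>
    (le_mul_of_one_le_right (hg k).r_pos.le (hg k).bd_le).trans (hg k).r_le
  have hr0 : Tendsto (fun k => (s k).r) atTop (𝓝 0) :=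
    squeeze_zero (fun k => (hg k).r_pos.le) hrk tendsto_one_div_add_atTop_nhds_zero_nat
  have hcau : CauchySeq v := by
    refine Metric.cauchySeq_iff'.2 fun ε hε => ?_
    obtain ⟨N, hN⟩ := (hr0.eventually (gt_mem_nhds hε)).exists
    exact ⟨N, fun l hl => by
      rw [dist_eq_norm]; exact (htel N l hl).trans_lt (by linarith [(hg l).r_pos])⟩
  obtain ⟨η, hη⟩ := cauchySeq_tendsto_of_complete hcau
  have herr : ∀ k, ‖η - v k‖ ≤ (s k).r := fun k =>
    le_of_tendsto ((hη.sub_const _).norm) (eventually_atTop.2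
      ⟨k, fun l hl => (htel k l hl).trans (by linarith [(hg l).r_pos])⟩)
  have hm_mono : Monotone fun k => (s k).m := monotone_nat_of_le_succ fun k => (hn k).1
  have hP_mono : ∀ k l, k ≤ l → (s k).P ⊆ (s l).P := fun k l h => by
    induction l, h using Nat.le_induction with
    | base => exact subset_rfl
    | succ l _ ih => exact ih.trans (hn l).2.1
  -- cyclic
  have hcyc : ∀ (u : H) (ε : ℝ), 0 < ε → ∃ k, ∃ y ∈ (s k).P, ‖y η - u‖ < ε := fun u ε hε => by
    obtain ⟨j, hj⟩ := Metric.mem_closure_range_iff.1 (he u) (ε / 2) (half_pos hε)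
    obtain ⟨k, hk, hjk⟩ := ((tendsto_one_div_add_atTop_nhds_zero_nat.const_mul (2 : ℝ)).eventually
      (gt_mem_nhds (show (2 : ℝ) * 0 < ε / 2 by linarith))).and (eventually_ge_atTop j) |>.exists
    obtain ⟨y, hy, hye⟩ := (hg k).P_dense j hjk
    refine ⟨k, y, hy, ?_⟩
    rw [dist_eq_norm] at hj
    have h1 : ‖y η - y (v k)‖ ≤ 1 / (k + 1 : ℝ) := by
      rw [← map_sub]
      refine ((y.le_of_opNorm_le ((hg k).P_mem y hy).2) _).trans ?_
      rw [mul_comm]
      exact (mul_le_mul_of_nonneg_right (herr k) (by linarith [(hg k).bd_le])).trans (hg k).r_le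
    simp only [hv] at h1
    linarith [norm_sub_le_norm_sub_add_norm_sub (y η) (e j) u, norm_sub_rev u (e j),
      norm_sub_le_norm_sub_add_norm_sub (y η) (y (vec ξ J (s k).W)) (e j)]
  have hdense : Dense {w : H | ∃ x ∈ M, x η = w} := Metric.dense_iff.2 fun u ε hε => by
    obtain ⟨k, y, hy, h⟩ := hcyc u ε hε
    exact ⟨y η, by rwa [Metric.mem_ball, dist_eq_norm], y, ((hg k).P_mem y hy).1, rfl⟩
  have hJη : J η = η := tendsto_nhds_unique ((J.continuous.tendsto η).comp hη)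
    (hη.congr fun k => by simp [hv, J_vec hm (hg k).mem (hg k).u1])
  have hsep : ∀ x ∈ M, x η = 0 → x = 0 := fun x hx h => by
    have h0 : ∀ y ∈ M, x (J (y η)) = 0 := fun y hy => by
      have : J (y η) = rho J (star y) η := by rw [rho_apply, star_star, hJη]
      rw [this, ← rho_comm hm (star_mem hy) hx, h, map_zero]
    ext u
    rw [← hm.J_J u]
    have hcl : IsClosed {w : H | x (J w) = 0} :=
      isClosed_eq (x.continuous.comp J.continuous) continuous_const
    have hsub : {w : H | ∃ y ∈ M, y η = w} ⊆ {w : H | x (J w) = 0} := by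
      rintro _ ⟨y, hy, rfl⟩; exact h0 y hy
    simpa using (hcl.closure_subset_iff.2 hsub) (hdense (J u))
  -- the groups
  let Γ : ℕ → Type := fun k => (Fin (s k).m → Fin 2) × ((Fin (s k).m → Fin 2) → Bool)
  let g : ∀ k, Γ k → H →L[ℂ] H := fun k i => (s k).W * mon (blk f 0 (s k).m) i * star (s k).W
  have hblk := fun k => hf.isUnits_blk hm 0 (s k).m
  have hgg : ∀ k i j, g k i * g k j
      = (s k).W * (mon (blk f 0 (s k).m) i * mon (blk f 0 (s k).m) j) * star (s k).W := fun k i j => by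
    calc _ = (s k).W * mon (blk f 0 (s k).m) i * (star (s k).W * (s k).W)
          * mon (blk f 0 (s k).m) j * star (s k).W := by simp only [g, mul_assoc]
      _ = _ := by rw [(hg k).u1]; simp only [mul_one, mul_assoc]
  have hgs : ∀ k i, star (g k i) = (s k).W * star (mon (blk f 0 (s k).m) i) * star (s k).W :=
    fun k i => by simp [g, star_mul, mul_assoc]
  have hmono1 : ∀ k i, ∃ j, g (k + 1) j = g k i := fun k i => by
    obtain ⟨hmk, -, -, -, ⟨V, ⟨-, -, hv2, -⟩, hW, hVc⟩, -⟩ := hn k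
    obtain ⟨j, hj⟩ := hf.mon_mono hmk i
    refine ⟨j, ?_⟩
    have hc : Commute V (mon (blk f 0 (s k).m) i) :=
      Commute.sum_right _ _ _ fun a _ => (hVc _ _).smul_right _
    calc g (k + 1) j = (s k).W * (V * mon (blk f 0 (s k).m) i * star V) * star (s k).W := by
          simp only [g, hj, hW, star_mul, mul_assoc]
      _ = g k i := by rw [hc.eq, mul_assoc _ V, hv2, mul_one]
  have hmono : ∀ k l, k ≤ l → ∀ i, ∃ j, g l j = g k i := fun k l h i => by
    induction l, h using Nat.le_induction with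
    | base => exact ⟨i, rfl⟩
    | succ l _ ih => obtain ⟨j, hj⟩ := ih; obtain ⟨j', hj'⟩ := hmono1 l j; exact ⟨j', hj'.trans hj⟩
  have hgM : ∀ k i, g k i ∈ M := fun k i =>
    mul_mem (mul_mem (hg k).mem (mon_mem (hblk k) i)) (star_mem (hg k).mem)
  have hgu : ∀ k i, star (g k i) * g k i = 1 ∧ g k i * star (g k i) = 1 := fun k i => by
    have h : ∀ p q : H →L[ℂ] H, (s k).W * p * star (s k).W * ((s k).W * q * star (s k).W)
        = (s k).W * (p * q) * star (s k).W := fun p q => by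
      calc _ = (s k).W * p * (star (s k).W * (s k).W) * q * star (s k).W := by simp only [mul_assoc]
        _ = _ := by rw [(hg k).u1]; simp only [mul_one, mul_assoc]
    rw [hgs]
    simp only [g, h, (mon_unitary (hblk k) i).1, (mon_unitary (hblk k) i).2, mul_one, (hg k).u2,
      and_self]
  have hcent : ∀ k i, rho J (g k i) η = g k i η := fun k i => by
    refine tendsto_nhds_unique (((rho J (g k i)).continuous.tendsto η).comp hη)
      (Tendsto.congr' ?_ (((g k i).continuous.tendsto η).comp hη))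
    refine eventually_atTop.2 ⟨k, fun l hl => ?_⟩
    obtain ⟨j, hj⟩ := hmono k l hl i
    simp only [Function.comp_apply, ← hj, hv]
    exact (fix_vec hm (hg l).mem (hg l).u1 (hg l).u2 (hblk l) j).symm
  have havg : ∀ k x, conjAvg (fun i => star (g k i)) x
      = (s k).W * psi f 0 (s k).m (star (s k).W * x * (s k).W) * star (s k).W := fun k x => by
    rw [← hf.phi_blk, ← conjAvg_mon (hblk k)]
    simp only [conjAvg, star_star]
    simp only [hgs]
    simp only [g, mul_smul_comm, smul_mul_assoc, Finset.mul_sum,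
      Finset.sum_mul, mul_assoc]
    rfl
  refine ⟨η, Γ, fun k => inferInstance, g, ?_, hJη, hdense, hsep, fun z hz hzc => ?_, hgM, hgu,
    hcent, fun k => ⟨(0, fun _ => true), ?_⟩, fun k i j => ⟨(i.1 + j.1, fun a => i.2 (a + j.1) == j.2 a), ?_⟩,
    fun k i => ⟨(-i.1, fun a => i.2 (a - i.1)), ?_⟩, hmono,
    fun k x i => ?_, fun x hx ε hε => ?_⟩
  · exact tendsto_nhds_unique hη.norm
      (tendsto_const_nhds.congr fun k => by simp [hv, norm_vec hm (hg k).mem (hg k).u1])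
  · exact tendsto_nhds_unique (hη.inner ((z.continuous.tendsto η).comp hη))
      (tendsto_const_nhds.congr fun k => by
        simp [hv, inner_vec hm (hg k).mem (hg k).u1 (hg k).u2 hz hzc])
  · simp only [g, mon_zero (hblk k), mul_one, (hg k).u2]
  · rw [hgg, mon_mul (hblk k)]
  · rw [hgs, star_mon (hblk k)]
  · have hc : Commute (psi f 0 (s k).m (star (s k).W * x * (s k).W)) (mon (blk f 0 (s k).m) i) := by
      rw [← hf.phi_blk]
      exact Commute.sum_right _ _ _ fun a _ => ((hblk k).phi_commute _ _ _).smul_right _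
    have h : ∀ p q : H →L[ℂ] H, (s k).W * p * star (s k).W * ((s k).W * q * star (s k).W)
        = (s k).W * (p * q) * star (s k).W := fun p q => by
      calc _ = (s k).W * p * (star (s k).W * (s k).W) * q * star (s k).W := by simp only [mul_assoc]
        _ = _ := by rw [(hg k).u1]; simp only [mul_one, mul_assoc]
    rw [commute_iff_eq, havg]
    simp only [g, h, hc.eq]
  -- the averages
  obtain ⟨k₀, y, hy, hyx⟩ := hcyc (x η) (ε / 2) (half_pos hε)
  have hsmall : ∀ᶠ l : ℕ in atTop, 3 * (1 / (l + 1 : ℝ)) < ε / 2 := by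
    have := tendsto_one_div_add_atTop_nhds_zero_nat.const_mul (3 : ℝ)
    exact this.eventually (gt_mem_nhds (by linarith))
  obtain ⟨L, hL⟩ := eventually_atTop.1 hsmall
  refine eventually_atTop.2 ⟨max L k₀ + 1, fun k hk => ?_⟩
  obtain ⟨l, rfl⟩ : ∃ l, k = l + 1 := ⟨k - 1, by omega⟩
  obtain ⟨z, hzM, hzc, hzn, hzb⟩ := (hn l).2.2.2.2.2 y (hP_mono k₀ l (by omega) hy)
  refine ⟨z, hzM, hzc, ?_⟩
  have hyM := ((hg k₀).P_mem y hy).1
  have hG := hg (l + 1)
  have hyb : ‖y‖ ≤ (s (l + 1)).bd := (hG.P_mem y (hP_mono k₀ (l + 1) (by omega) hy)).2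
  let E : (H →L[ℂ] H) → H →L[ℂ] H := fun t => conjAvg (fun i => star (g (l + 1) i)) t
  have hEle : ∀ t ∈ M, ‖E t η‖ ≤ ‖t η‖ := fun t ht => by
    simp only [E, conjAvg, smul_apply, norm_smul, norm_inv, Complex.norm_natCast, sum_apply]
    rw [inv_mul_le_iff₀ (by exact_mod_cast Fintype.card_pos)]
    refine (norm_sum_le _ _).trans ((Finset.sum_le_sum fun i _ => show _ ≤ ‖t η‖ from ?_).trans_eq
      (by simp))
    obtain ⟨j, hj⟩ : ∃ j, g (l + 1) j = star (g (l + 1) i) :=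
      ⟨_, by rw [hgs, star_mon (hblk (l + 1))]⟩
    rw [star_star, apply_mul, apply_mul, norm_of_star_mul_self (hgu _ i).1, ← hj, ← hcent,
      ← rho_comm hm (hgM _ j) ht, hj, norm_rho_star (hgu _ i).1]
  have hsub : E x η = E (x - y) η + E y η := by
    simp only [E, conjAvg, mul_sub, sub_mul, Finset.sum_sub_distrib, smul_sub, sub_apply,
      sub_add_cancel]
  have h1 : ‖E (x - y) η‖ ≤ ε / 2 := (hEle _ (sub_mem hx hyM)).trans (by
    rw [sub_apply, norm_sub_rev]; exact hyx.le)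
  have hEM : E y ∈ M := conjAvg_mem (fun i => star_mem (hgM _ i)) hyM
  have hEn : ‖E y‖ ≤ ‖y‖ := norm_conjAvg_le (fun i => by rw [star_star]; exact (hgu _ i).2) y
  have h2 : ‖(E y - z) (v (l + 1))‖ ≤ 1 / (l + 1 : ℝ) := by
    rw [hv, norm_apply_vec hm hG.mem hG.u1 hG.u2 (sub_mem hEM hzM)]
    refine le_of_eq_of_le ?_ hzb
    rw [← sub_apply]
    congr 2
    simp only [E, havg, mul_sub, sub_mul]
    congr 1
    · simp only [mul_assoc]
      rw [hG.u1, mul_one, ← mul_assoc, hG.u1, one_mul]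
    · rw [mul_assoc, hzc _ hG.mem, ← mul_assoc, hG.u1, one_mul]
  have h3 : ‖E y η - E y (v (l + 1))‖ ≤ 1 / (l + 1 : ℝ) := by
    rw [← map_sub]
    refine ((E y).le_of_opNorm_le (hEn.trans hyb) _).trans ?_
    rw [mul_comm]
    refine (mul_le_mul_of_nonneg_right (herr (l + 1)) (by linarith [hG.bd_le])).trans
      (hG.r_le.trans ?_)
    push_cast
    exact one_div_le_one_div_of_le (by positivity) (by linarith)
  have h4 : ‖z (v (l + 1)) - z η‖ ≤ ‖z‖ * (s (l + 1)).r := by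
    rw [← map_sub]
    refine (z.le_opNorm _).trans ?_
    rw [norm_sub_rev]; gcongr; exact herr _
  have h5 : ‖z‖ * (s (l + 1)).r ≤ 1 / (l + 1 : ℝ) := by
    rw [mul_comm]
    refine (mul_le_mul_of_nonneg_left (hzn.trans hyb) hG.r_pos.le).trans (hG.r_le.trans ?_)
    push_cast
    exact one_div_le_one_div_of_le (by positivity) (by linarith)
  rw [sub_apply] at h2
  show ‖E x η - z η‖ ≤ ε
  linarith [hL l (by omega), norm_sub_le_norm_sub_add_norm_sub (E y η) (E y (v (l + 1))) (z η),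
    norm_sub_le_norm_sub_add_norm_sub (E y (v (l + 1))) (z (v (l + 1))) (z η),
    norm_sub_le_norm_sub_add_norm_sub (E x η) (E y η) (z η),
    show ‖E x η - E y η‖ ≤ ε / 2 by rwa [hsub, add_sub_cancel_right]]

/-- An element of `M` commuting with all the groups is central. -/
theorem CentralizerData.central_of_commute {η : H} {Γ : ℕ → Type} [∀ k, Fintype (Γ k)]
    {g : ∀ k, Γ k → H →L[ℂ] H} (D : CentralizerData M ξ J η Γ g) (hm : Modular M ξ R J U)
    {x : H →L[ℂ] H} (hx : x ∈ M) (hc : ∀ k i, Commute x (g k i)) :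
    ∀ b ∈ M, x * b = b * x := by
  have hz : ∀ n : ℕ, ∃ z ∈ M, (∀ b ∈ M, z * b = b * z) ∧ ‖x η - z η‖ ≤ 1 / (n + 1 : ℝ) := fun n => by
    obtain ⟨k, hk⟩ := (D.avg x hx (1 / (n + 1 : ℝ)) (by positivity)).exists
    obtain ⟨z, hzM, hzc, hz⟩ := hk
    obtain ⟨i, -⟩ := D.one k
    have : Nonempty (Γ k) := ⟨i⟩
    have e : conjAvg (fun i => star (g k i)) x = x := by
      have h : ∀ i, g k i * x * star (g k i) = x := fun i => by
        rw [← (hc k i).eq, mul_assoc, (D.unitary k i).2, mul_one]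
      simp only [conjAvg, star_star, h, Finset.sum_const, Finset.card_univ]
      rw [← Nat.cast_smul_eq_nsmul ℂ, smul_smul,
        inv_mul_cancel₀ (by exact_mod_cast Fintype.card_ne_zero), one_smul]
    exact ⟨z, hzM, hzc, by rwa [e] at hz⟩
  choose z hzM hzc hzb using hz
  have hlim : Tendsto (fun n => z n η) atTop (𝓝 (x η)) :=
    tendsto_iff_norm_sub_tendsto_zero.2 (squeeze_zero (fun n => norm_nonneg _)
      (fun n => by rw [norm_sub_rev]; exact hzb n) tendsto_one_div_add_atTop_nhds_zero_nat)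
  intro b hb
  refine sub_eq_zero.1 (D.separating _ (sub_mem (mul_mem hx hb) (mul_mem hb hx)) ?_)
  have hJ : ∀ m ∈ M, ∀ w : H, ∀ y ∈ M, ⟪rho J m w, y (b η)⟫_ℂ = ⟪w, y (rho J (star m) (b η))⟫_ℂ :=
    fun m hmM w y hy => by
      rw [← ContinuousLinearMap.adjoint_inner_right (rho J m), ← ContinuousLinearMap.star_eq_adjoint,
        rho, VP132.Row.star_conjBy J hm.J_J]
      exact congrArg _ (rho_comm hm (star_mem hmM) hy (b η))
  refine ext_inner_left ℂ fun u => ?_
  rw [inner_zero_right]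
  revert u
  have hd2 : Dense {w : H | ∃ m ∈ M, rho J m η = w} := by
    refine ((Function.Surjective.denseRange (fun v => ⟨J v, hm.J_J v⟩)).dense_image J.continuous D.cyclic).mono ?_
    rintro _ ⟨_, ⟨m, hmM, rfl⟩, rfl⟩
    exact ⟨star m, star_mem hmM, by rw [rho_apply, star_star, D.J_eta]⟩
  refine fun u => congrFun (Continuous.ext_on hd2
    (f := fun u => ⟪u, (x * b - b * x) η⟫_ℂ) (g := fun _ => 0) (by fun_prop) continuous_const ?_) u
  rintro _ ⟨m, hmM, rfl⟩
  have hout : ∀ y ∈ M, rho J m (y η) = y (rho J m η) := fun y hy => rho_comm hm hmM hy η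
  -- both sides are the limit of `z n`
  have h1 : Tendsto (fun n => ⟪rho J m η, b (z n η)⟫_ℂ) atTop (𝓝 ⟪rho J m η, b (x η)⟫_ℂ) :=
    tendsto_const_nhds.inner ((b.continuous.tendsto _).comp hlim)
  have h2 : Tendsto (fun n => ⟪rho J m η, z n (b η)⟫_ℂ) atTop (𝓝 ⟪rho J m η, x (b η)⟫_ℂ) := by
    have hadj : ∀ y ∈ M, ⟪rho J m η, y (b η)⟫_ℂ = ⟪η, y (rho J (star m) (b η))⟫_ℂ :=
      hJ m hmM η
    have hs : ∀ y : H →L[ℂ] H, ∀ w, ⟪η, y w⟫_ℂ = ⟪star y η, w⟫_ℂ := fun y w => by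
      rw [ContinuousLinearMap.star_eq_adjoint, ContinuousLinearMap.adjoint_inner_left]
    rw [hadj x hx, hs]
    refine Tendsto.congr (fun n => ((hadj _ (hzM n)).trans (hs _ _)).symm) ?_
    suffices hw : ∀ w, Tendsto (fun n => ⟪star (z n) η, w⟫_ℂ) atTop (𝓝 ⟪star x η, w⟫_ℂ) from hw _
    have hbd : ∀ n, ‖star (z n) η‖ = ‖z n η‖ := fun n => by
      have hn : star (z n) * z n = z n * star (z n) := (hzc n _ (star_mem (hzM n))).symm
      have e : ∀ y : H →L[ℂ] H, ‖y η‖ ^ 2 = (⟪η, (star y * y) η⟫_ℂ).re := fun y => by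
        rw [apply_mul, hs, star_star, re_inner_self]
      rw [← sq_eq_sq₀ (norm_nonneg _) (norm_nonneg _), e, e, star_star, hn]
    obtain ⟨C, hC⟩ : ∃ C, ∀ n, ‖z n η‖ ≤ C := ⟨‖x η‖ + 1, fun n => by
      refine (norm_le_insert (x η) (z n η)).trans (add_le_add le_rfl ((hzb n).trans ?_))
      rw [div_le_one (by positivity)]; linarith [(Nat.cast_nonneg n : (0 : ℝ) ≤ n)]⟩
    intro w
    refine Metric.tendsto_atTop.2 fun ε hε => ?_
    obtain ⟨w', hw', hd'⟩ := Metric.mem_closure_iff.1 (hd2 w) (ε / (3 * (|C| + ‖star x η‖ + 1)))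
      (by positivity)
    obtain ⟨m', hm', rfl⟩ := hw'
    have hweak : Tendsto (fun n => ⟪star (z n) η, rho J m' η⟫_ℂ) atTop
        (𝓝 ⟪star x η, rho J m' η⟫_ℂ) := by
      have hy : ∀ y ∈ M, ⟪star y η, rho J m' η⟫_ℂ = ⟪rho J (star m') η, y η⟫_ℂ := fun y hy => by
        rw [← hs, ← rho_comm hm hm' hy, ← ContinuousLinearMap.adjoint_inner_left (rho J m'),
          ← ContinuousLinearMap.star_eq_adjoint, rho, VP132.Row.star_conjBy J hm.J_J]
        rfl
      rw [hy x hx]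
      exact (tendsto_const_nhds.inner hlim).congr fun n => (hy _ (hzM n)).symm
    obtain ⟨N, hN⟩ := Metric.tendsto_atTop.1 hweak (ε / 3) (by positivity)
    refine ⟨N, fun n hn => ?_⟩
    have h3 := hN n hn
    rw [dist_eq_norm] at h3 hd' ⊢
    have hbound : ∀ v : H, ‖v‖ ≤ |C| + ‖star x η‖ + 1 →
        ‖⟪v, w⟫_ℂ - ⟪v, rho J m' η⟫_ℂ‖ ≤ ε / 3 := fun v hv => by
      rw [← inner_sub_right]
      refine (norm_inner_le_norm _ _).trans
        ((mul_le_mul hv hd'.le (norm_nonneg _) (by positivity)).trans_eq ?_)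
      field_simp
    have h4 := hbound (star (z n) η) (by
      linarith [hbd n, hC n, le_abs_self C, norm_nonneg (star x η)])
    have h5 := hbound (star x η) (by linarith [abs_nonneg C])
    have e : ⟪star (z n) η, w⟫_ℂ - ⟪star x η, w⟫_ℂ
        = (⟪star (z n) η, w⟫_ℂ - ⟪star (z n) η, rho J m' η⟫_ℂ)
          + (⟪star (z n) η, rho J m' η⟫_ℂ - ⟪star x η, rho J m' η⟫_ℂ)
          - (⟪star x η, w⟫_ℂ - ⟪star x η, rho J m' η⟫_ℂ) := by ring
    rw [e]
    linarith [norm_sub_le ((⟪star (z n) η, w⟫_ℂ - ⟪star (z n) η, rho J m' η⟫_ℂ)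
          + (⟪star (z n) η, rho J m' η⟫_ℂ - ⟪star x η, rho J m' η⟫_ℂ))
          (⟪star x η, w⟫_ℂ - ⟪star x η, rho J m' η⟫_ℂ),
      norm_add_le (⟪star (z n) η, w⟫_ℂ - ⟪star (z n) η, rho J m' η⟫_ℂ)
        (⟪star (z n) η, rho J m' η⟫_ℂ - ⟪star x η, rho J m' η⟫_ℂ)]
  have h := tendsto_nhds_unique (h2.congr fun n => by
    rw [← apply_mul (z n), hzc n b hb, apply_mul]) h1
  show ⟪rho J m η, (x * b - b * x) η⟫_ℂ = 0
  rw [sub_apply, inner_sub_right, apply_mul, apply_mul, h, sub_self]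

end Vale.Agent.P096.Cent
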