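import Vale.Agent.P132.BandAux

/-!
P096: the averaged bands of an element form a bounded frame, and vectors with vanishing bands are
zero.
-/

open scoped InnerProductSpace ComplexConjugate
open Filter Topology MeasureTheory
open Vale.Agent.P132.Tomita (conjBy Modular fT opT)
open VP132 (rho band gp lam bandKernel)

namespace Vale.Agent.P096.Cent

variable {H : Type} [NormedAddCommGroup H] [InnerProductSpace ℂ H] [CompleteSpace H]
variable {M : VonNeumannAlgebra H} {ξ : H} {R : H →L[ℂ] H} {J : H ≃ₗᵢ⋆[ℂ] H}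
variable {U : ℝ → H →L[ℂ] H}

/-- The averaged bands of `u` form a frame bounded by `‖u‖`. -/
theorem sum_avgOp_sq_le (hm : Modular M ξ R J U) (u : H →L[ℂ] H) {h : ℝ} (hh : 0 < h)
    (K : Finset ℤ) (v : H) :
    ∑ k ∈ K, ‖VP132.Bands.avgOp hm u (k * h) hh v‖ ^ 2
      ≤ VP132.Bands.gaussTot * ‖u‖ ^ 2 * ‖v‖ ^ 2 := by
  set z : ℤ → H := fun k => VP132.Bands.avgOp hm u (k * h) hh v with hz
  set T := ∑ k ∈ K, ‖z k‖ ^ 2
  have hT0 : 0 ≤ T := Finset.sum_nonneg fun k _ => sq_nonneg _
  set w : ℝ → H := fun t => (U t * u * U (-t)) v with hw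
  have hwb : ∀ t, ‖w t‖ ≤ ‖u‖ * ‖v‖ := fun t => by
    simp only [hw, mul_apply_eq_comp, VP132.Bands.norm_U hm]
    exact (u.le_opNorm _).trans_eq (by rw [VP132.Bands.norm_U hm])
  set S : ℝ → H := fun t => ∑ k ∈ K, conj (VP132.Bands.phase (k * h) t) • z k with hS
  have hint : ∀ k : ℤ, Integrable fun t => ⟪z k, bandKernel (k * h) h t • w t⟫_ℂ := fun k =>
    (VP132.Bands.integrable_conj hm u (k * h) hh v).const_inner (z k)
  have e1 : (T : ℂ) = ∫ t, (‖bandKernel 0 h t‖ : ℂ) * ⟪S t, w t⟫_ℂ := by
    have e2 : ∀ k : ℤ, ((‖z k‖ ^ 2 : ℝ) : ℂ) = ∫ t, ⟪z k, bandKernel (k * h) h t • w t⟫_ℂ :=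
      fun k => by
        rw [integral_inner (VP132.Bands.integrable_conj hm u (k * h) hh v) (z k),
          ← VP132.Bands.avgOp_apply hm u (k * h) hh v]
        rw [show VP132.Bands.avgOp hm u (k * h) hh v = z k from rfl, inner_self_eq_norm_sq_to_K]
        simp
    rw [Complex.ofReal_sum, Finset.sum_congr rfl fun k _ => e2 k,
      ← integral_finsetSum _ fun k _ => hint k]
    refine integral_congr_ae (Eventually.of_forall fun t => ?_)
    simp only [hS, sum_inner, Finset.mul_sum, inner_smul_left, inner_smul_right, Complex.conj_conj]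
    refine Finset.sum_congr rfl fun k _ => ?_
    rw [VP132.Bands.bandKernel_eq (k * h) hh.le t]
    ring
  have hb : T ≤ Real.sqrt (VP132.Bands.gaussTot * T) * (‖u‖ * ‖v‖) := by
    calc T = ‖(T : ℂ)‖ := by rw [Complex.norm_real, Real.norm_of_nonneg hT0]
      _ ≤ ∫ t, ‖bandKernel 0 h t‖ * ‖S t‖ * (‖u‖ * ‖v‖) := by
        rw [e1]
        refine norm_integral_le_of_norm_le ?_ (Eventually.of_forall fun t => ?_)
        · refine ((VP132.integrable_norm_bandKernel hh 0).mul_bdd (g := fun t => ‖S t‖)
            (c := ∑ k ∈ K, ‖z k‖) ?_ (Eventually.of_forall fun t => ?_)).mul_const _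
          · exact (continuous_finsetSum K fun k _ =>
              ((VP132.Bands.continuous_phase _).star).smul continuous_const).norm.aestronglyMeasurable
          · rw [norm_norm]
            refine (norm_sum_le _ _).trans_eq (Finset.sum_congr rfl fun k _ => ?_)
            rw [norm_smul, RCLike.norm_conj, VP132.Bands.norm_phase, one_mul]
        · rw [norm_mul, Complex.norm_real, norm_norm, mul_assoc]
          exact mul_le_mul_of_nonneg_left ((norm_inner_le_norm _ _).trans
            (mul_le_mul_of_nonneg_left (hwb t) (norm_nonneg _))) (norm_nonneg _)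
      _ ≤ _ := by
        rw [integral_mul_const]
        exact mul_le_mul_of_nonneg_right (VP132.Bands.schur hh K z) (by positivity)
  have hG := VP132.Bands.gaussTot_nonneg
  have hs := Real.sq_sqrt (mul_nonneg hG hT0)
  have h2 := pow_le_pow_left₀ hT0 hb 2
  rw [mul_pow, hs, mul_pow] at h2
  rcases hT0.eq_or_lt with h0 | h0
  · rw [← h0]; positivity
  · nlinarith

/-- The same for the adjoints. -/
theorem sum_star_avgOp_sq_le (hm : Modular M ξ R J U) (u : H →L[ℂ] H) {h : ℝ} (hh : 0 < h)
    (K : Finset ℤ) (v : H) :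
    ∑ k ∈ K, ‖star (VP132.Bands.avgOp hm u (k * h) hh) v‖ ^ 2
      ≤ VP132.Bands.gaussTot * ‖u‖ ^ 2 * ‖v‖ ^ 2 := by
  have e := sum_avgOp_sq_le hm (star u) hh (K.image fun k => -k) v
  rw [Finset.sum_image (fun a _ b _ hab => by simpa using hab), norm_star] at e
  refine le_of_eq_of_le (Finset.sum_congr rfl fun k _ => ?_) e
  rw [VP132.Bands.star_avgOp]
  simp

/-- The band of the mirrored adjoint. -/
theorem J_star_avgOp (hm : Modular M ξ R J U) (u : H →L[ℂ] H) (l : ℝ) {h : ℝ} (hh : 0 < h) :
    J (star (VP132.Bands.avgOp hm u l hh) ξ) = band R l h (J (star u ξ)) := by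
  have hi := VP132.integralSpec hm
  rw [VP132.Bands.star_avgOp, VP132.Bands.avgOp_xi hm hi, VP132.Bands.J_band hm hi l hh]

/-- An operator commuting with the modular group commutes with the bands. -/
theorem band_commute (hm : Modular M ξ R J U) {T : H →L[ℂ] H}
    (hT : ∀ t v, T (U t v) = U t (T v)) (l : ℝ) {h : ℝ} (hh : 0 < h) (v : H) :
    T (band R l h v) = band R l h (T v) := by
  have hi := VP132.integralSpec hm
  rw [← hi l h hh v, ← hi l h hh (T v),
    ← T.integral_comp_comm (VP132.integrable_kernel_smul hm hh l v)]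
  simp only [map_smul, hT]

/-- The wide cut of `R` at height `e`. -/
noncomputable def cutT (e r : ℝ) : ℝ := max (fT r - e) 0

/-- A vector with vanishing bands is zero. -/
theorem eq_zero_of_bands (hm : Modular M ξ R J U) {w : H}
    (hw : ∀ W : ℝ, 0 < W → ∀ ε : ℝ, 0 < ε → ∃ h : ℝ, 0 < h ∧ h ≤ 1 ∧
      ∃ K : Finset ℤ, (∀ k : ℤ, |(k : ℝ) * h| ≤ W + 1 → k ∈ K) ∧
        ∑ k ∈ K, ‖band R (k * h) h w‖ ^ 2 ≤ ε) : w = 0 := by
  have hcont := VP132.continuous_fT'
  have cut : ∀ e : ℝ, 0 < e → cfc (cutT e) R w = 0 := fun e he => by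
    refine norm_le_zero_iff.1 (le_of_forall_pos_le_add fun η hη => ?_)
    rw [zero_add]
    set W := |Real.log (4 / e ^ 2)| + 1
    obtain ⟨h, hh, hh1, K, hK, hsum⟩ :=
      hw W (by positivity) (η ^ 2 / Real.exp (1 / 2)) (by positivity)
    refine (pow_le_pow_iff_left₀ (norm_nonneg _) hη.le two_ne_zero).1 ?_
    have hc : Continuous (cutT e) := by unfold cutT; exact (hcont.sub continuous_const).max continuous_const
    refine (VP132.Bands.norm_sq_cfc_le_sum hm.R_sa hm.R_spec hc K (fun k => gp (k * h) h)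
      (fun k => VP132.continuous_gp hh _) (Real.exp (1 / 2)) (fun r hr => ?_) w).trans ?_
    · have hs0 : 0 ≤ Real.exp (1 / 2) * ∑ k ∈ K, gp (k * h) h r ^ 2 := by positivity
      rcases le_or_gt (fT r) e with hc | hc
      · simpa [cutT, max_eq_right (sub_nonpos.2 hc)] using hs0
      have hin : 0 < r ∧ r < 2 := by
        by_contra hno
        rw [VP132.fT_eq_zero hno] at hc
        linarith
      have hc1 : cutT e r ^ 2 ≤ 1 := by
        rw [cutT, max_eq_left (sub_nonneg.2 hc.le)]
        exact pow_le_one₀ (sub_nonneg.2 hc.le) (by linarith [VP132.fT_le_one r])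
      have hp : e ^ 2 < r * (2 - r) := by
        have := pow_lt_pow_left₀ hc he.le two_ne_zero
        rwa [fT, Real.sq_sqrt (mul_nonneg hr.1 (by linarith [hr.2]))] at this
      have hr2 : 0 < 2 - r := by linarith [hin.2]
      have hl : |lam r| ≤ Real.log (4 / e ^ 2) := by
        rw [lam, abs_le, neg_le_sub_iff_le_add, sub_le_iff_le_add,
          add_comm (Real.log (2 - r)),
          ← Real.log_mul (by positivity) hr2.ne', ← Real.log_mul (by positivity) hin.1.ne']
        constructor
        · refine Real.log_le_log hin.1 ?_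
          rw [div_mul_eq_mul_div, le_div_iff₀ (by positivity)]
          nlinarith
        · refine Real.log_le_log hr2 ?_
          rw [div_mul_eq_mul_div, le_div_iff₀ (by positivity)]
          nlinarith
      set k := round (lam r / h)
      have hk : |lam r / h - k| ≤ 1 / 2 := abs_sub_round _
      have hkm : k ∈ K := by
        refine hK k ?_
        have h1 : |lam r - k * h| ≤ h / 2 := by
          rw [show lam r - k * h = (lam r / h - k) * h by field_simp, abs_mul, abs_of_pos hh]
          nlinarith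
        have h2 := abs_sub_abs_le_abs_sub ((k : ℝ) * h) (lam r)
        rw [abs_sub_comm] at h2
        have := le_abs_self (Real.log (4 / e ^ 2))
        linarith
      refine hc1.trans (le_trans ?_ (mul_le_mul_of_nonneg_left
        (Finset.single_le_sum (f := fun j : ℤ => gp (j * h) h r ^ 2) (fun j _ => sq_nonneg _) hkm)
        (Real.exp_pos _).le))
      rw [gp, if_pos hin, ← Real.exp_nat_mul, ← Real.exp_add]
      refine Real.one_le_exp ?_
      rw [show (lam r - k * h) / h = lam r / h - k by field_simp]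
      push_cast
      nlinarith [sq_abs (lam r / h - k), abs_nonneg (lam r / h - k)]
    · show Real.exp (1 / 2) * ∑ k ∈ K, ‖band R (k * h) h w‖ ^ 2 ≤ η ^ 2
      calc _ ≤ Real.exp (1 / 2) * (η ^ 2 / Real.exp (1 / 2)) := by gcongr
        _ = _ := by field_simp
  have hT0 : opT R w = 0 := norm_le_zero_iff.1 (le_of_forall_pos_le_add fun η hη => by
    rw [zero_add]
    set e := η / (‖w‖ + 1) with he
    have he0 : 0 < e := by positivity
    have hc : Continuous (cutT e) := by unfold cutT; exact (hcont.sub continuous_const).max continuous_const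
    have h1 : ‖cfc fT R - cfc (cutT e) R‖ ≤ e := by
      rw [← cfc_sub fT (cutT e) R hcont.continuousOn hc.continuousOn]
      refine norm_cfc_le he0.le fun r _ => ?_
      rw [Real.norm_eq_abs, cutT, abs_le]
      rcases max_cases (fT r - e) 0 with ⟨p, _⟩ | ⟨p, _⟩ <;> rw [p] <;>
        constructor <;> linarith [VP132.fT_nonneg' r]
    have h2 := ContinuousLinearMap.le_of_opNorm_le _ h1 w
    rw [sub_apply, cut e he0, sub_zero] at h2
    refine h2.trans ?_
    rw [he, div_mul_eq_mul_div, div_le_iff₀ (by positivity)]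
    nlinarith [norm_nonneg w])
  have hz : ∀ x, ⟪w, opT R x⟫_ℂ = 0 := fun x => by
    have hs : star (opT R) = opT R := (cfc_predicate fT R).star_eq
    rw [← ContinuousLinearMap.adjoint_inner_left, ← ContinuousLinearMap.star_eq_adjoint, hs, hT0,
      inner_zero_left]
  exact inner_self_eq_zero.1 (DenseRange.induction_on (p := fun x => ⟪w, x⟫_ℂ = 0) hm.dense_T w
    (isClosed_eq (continuous_const.inner continuous_id) continuous_const) hz)

end Vale.Agent.P096.Cent
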