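import Vale.Agent.P096.Cent.Slots
import Vale.Agent.P132.Fixed

/-!
P096: slots are asymptotically central, and the expectations onto their commutants tend to the
identity.
-/

open scoped InnerProductSpace
open Filter Topology
open Vale.Agent.P132.Tomita (conjBy Modular)
open VP132 (rho IsStandardVector)

namespace Vale.Agent.P096.Cent

variable {H : Type} [NormedAddCommGroup H] [InnerProductSpace ℂ H] [CompleteSpace H]
variable {M : VonNeumannAlgebra H} {ξ : H} {R : H →L[ℂ] H} {J : H ≃ₗᵢ⋆[ℂ] H}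
variable {U : ℝ → H →L[ℂ] H}

omit [CompleteSpace H] in
/-- Bounded operators tending to zero on a dense set tend to zero at every convergent sequence. -/
theorem tendsto_zero_of_dense {T : ℕ → H →L[ℂ] H} {C : ℝ} (hT : ∀ j v, ‖T j v‖ ≤ C * ‖v‖)
    {s : Set H} (hs : Dense s) (h : ∀ v ∈ s, Tendsto (fun j => T j v) atTop (𝓝 0)) {u : ℕ → H}
    {v : H} (hu : Tendsto u atTop (𝓝 v)) : Tendsto (fun j => T j (u j)) atTop (𝓝 0) := by
  rw [Metric.tendsto_atTop]
  intro ε hε
  set D := |C| + 1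
  have hD : 0 < D := by positivity
  have hT' : ∀ j z, ‖T j z‖ ≤ D * ‖z‖ := fun j z => (hT j z).trans
    (mul_le_mul_of_nonneg_right ((le_abs_self C).trans (le_add_of_nonneg_right zero_le_one))
      (norm_nonneg _))
  obtain ⟨z, hz, hzv⟩ := Metric.mem_closure_iff.1 (hs v) (ε / (4 * D)) (by positivity)
  rw [dist_eq_norm] at hzv
  obtain ⟨N₁, hN₁⟩ := Metric.tendsto_atTop.1 (h z hz) (ε / 4) (by positivity)
  obtain ⟨N₂, hN₂⟩ := Metric.tendsto_atTop.1 hu (ε / (4 * D)) (by positivity)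
  refine ⟨max N₁ N₂, fun j hj => ?_⟩
  have h1 := hN₁ j ((le_max_left _ _).trans hj)
  have h2 := hN₂ j ((le_max_right _ _).trans hj)
  rw [dist_zero_right] at h1 ⊢
  rw [dist_eq_norm] at h2
  have h3 : ‖u j - z‖ < ε / (2 * D) := by
    have := norm_sub_le_norm_sub_add_norm_sub (u j) v z
    have e : ε / (2 * D) = ε / (4 * D) + ε / (4 * D) := by ring
    linarith
  calc ‖T j (u j)‖ = ‖T j z + T j (u j - z)‖ := by rw [← map_add, add_sub_cancel]
    _ ≤ ‖T j z‖ + D * ‖u j - z‖ := (norm_add_le _ _).trans (add_le_add le_rfl (hT' _ _))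
    _ < ε / 4 + D * (ε / (2 * D)) := add_lt_add h1 (mul_lt_mul_of_pos_left h3 hD)
    _ = ε * (3 / 4) := by field_simp; norm_num
    _ < ε := by linarith

/-- The commutant moves `ξ` to a dense set. -/
theorem dense_commutant (hm : Modular M ξ R J U) (hs : IsStandardVector H M ξ) :
    Dense {v : H | ∃ m ∈ M.commutant, m ξ = v} := by
  have hJ : Function.Surjective J := fun v => ⟨J v, hm.J_J v⟩
  refine (hJ.denseRange.dense_image J.continuous hs.2.1).mono ?_
  rintro _ ⟨_, ⟨x, hx, rfl⟩, rfl⟩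
  exact ⟨conjBy J x, hm.conj_mem x hx, by simp [conjBy, hm.J_xi]⟩

theorem commutant_apply {x m : H →L[ℂ] H} (hx : x ∈ M) (hm' : m ∈ M.commutant) (v : H) :
    x (m v) = m (x v) :=
  congrArg (fun T : H →L[ℂ] H => T v) (VonNeumannAlgebra.mem_commutant_iff.1 hm' x hx)

namespace Slots

variable (S : Slots M ξ J)

/-- The factor of an eigen operator. -/
noncomputable def kap (i : ℕ) (a b : Fin 2) : ℝ := S.w i a / S.w i b

theorem kap_pos (i : ℕ) (a b : Fin 2) : 0 < S.kap i a b := div_pos (S.w_pos i a) (S.w_pos i b)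

theorem diag_proj (i j : ℕ) (a : Fin 2) :
    star (S.e i j a a) = S.e i j a a ∧ S.e i j a a * S.e i j a a = S.e i j a a :=
  ⟨S.star_e i j a a, by rw [S.e_mul, if_pos rfl]⟩

theorem norm_e_le (i j : ℕ) (a b : Fin 2) : ‖S.e i j a b‖ ≤ 1 := by
  have h : ‖S.e i j a b‖ * ‖S.e i j a b‖ = ‖S.e i j b b‖ := by
    rw [← CStarRing.norm_star_mul_self, S.star_e, S.e_mul, if_pos rfl]
  have h2 := VP132.Fixed.le_one_of_proj (S.diag_proj i j b).1 (S.diag_proj i j b).2
  nlinarith [norm_nonneg (S.e i j a b)]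

theorem e_apply_le (i j : ℕ) (a b : Fin 2) (v : H) : ‖S.e i j a b v‖ ≤ ‖v‖ :=
  VP132.Fixed.apply_le (S.norm_e_le i j a b) v

theorem rho_e_le (i j : ℕ) (a b : Fin 2) (v : H) : ‖rho J (S.e i j a b) v‖ ≤ ‖v‖ :=
  VP132.Fixed.rho_apply_le (S.norm_e_le i j a b) v

theorem eigen_apply (i j : ℕ) (a b : Fin 2) :
    S.e i j a b ξ = ((S.kap i a b : ℝ) : ℂ)⁻¹ • rho J (S.e i j a b) ξ := by
  rw [S.eigen, ← kap, smul_smul, inv_mul_cancel₀ (Complex.ofReal_ne_zero.2 (S.kap_pos i a b).ne'),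
    one_smul]

/-- An element of `M` moves across an eigen operator at `ξ`. -/
theorem mem_eigen_apply (hm : Modular M ξ R J U) {x : H →L[ℂ] H} (hx : x ∈ M) (i j : ℕ)
    (a b : Fin 2) :
    x (S.e i j a b ξ) = ((S.kap i a b : ℝ) : ℂ)⁻¹ • rho J (S.e i j a b) (x ξ) := by
  rw [S.eigen_apply, map_smul, VP132.Fixed.rho_comm hm (S.mem i j a b) hx]

theorem central_seq (i : ℕ) (a b : Fin 2) {u : ℕ → H} {v : H} (hu : Tendsto u atTop (𝓝 v)) :
    Tendsto (fun j => ((S.kap i a b : ℝ) : ℂ) • S.e i j a b (u j) - rho J (S.e i j a b) (u j))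
      atTop (𝓝 0) := by
  refine tendsto_zero_of_dense (C := S.kap i a b + 1)
    (T := fun j => ((S.kap i a b : ℝ) : ℂ) • S.e i j a b - rho J (S.e i j a b)) (fun j z => ?_)
    dense_univ (fun z _ => S.central i a b z) hu
  rw [sub_apply, smul_apply, add_one_mul]
  refine (norm_sub_le _ _).trans (add_le_add ?_ (S.rho_e_le i j a b z))
  rw [norm_smul, Complex.norm_real, Real.norm_of_nonneg (S.kap_pos i a b).le]
  exact mul_le_mul_of_nonneg_left (S.e_apply_le i j a b z) (S.kap_pos i a b).le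

/-- Slots asymptotically commute with `M`. -/
theorem commutator (hm : Modular M ξ R J U) (hs : IsStandardVector H M ξ) {x : H →L[ℂ] H}
    (hx : x ∈ M) (i : ℕ) (a b : Fin 2) (v : H) :
    Tendsto (fun j => (x * S.e i j a b - S.e i j a b * x) v) atTop (𝓝 0) := by
  refine tendsto_zero_of_dense (C := 2 * ‖x‖) (T := fun j => x * S.e i j a b - S.e i j a b * x)
    (fun j z => ?_) (dense_commutant hm hs) ?_ (tendsto_const_nhds (x := v))
  · rw [sub_apply, mul_apply_eq_comp, mul_apply_eq_comp, two_mul, add_mul]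
    refine (norm_sub_le _ _).trans (add_le_add ?_ ((S.e_apply_le i j a b _).trans (x.le_opNorm z)))
    exact (x.le_opNorm _).trans (mul_le_mul_of_nonneg_left (S.e_apply_le i j a b z) (norm_nonneg _))
  rintro _ ⟨m, hm', rfl⟩
  have e : ∀ j, (x * S.e i j a b - S.e i j a b * x) (m ξ) = -(((S.kap i a b : ℝ) : ℂ)⁻¹ •
      m (((S.kap i a b : ℝ) : ℂ) • S.e i j a b (x ξ) - rho J (S.e i j a b) (x ξ))) := fun j => by
    rw [sub_apply, mul_apply_eq_comp, mul_apply_eq_comp, commutant_apply (S.mem i j a b) hm',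
      commutant_apply hx hm' (S.e i j a b ξ), commutant_apply hx hm',
      commutant_apply (S.mem i j a b) hm', S.mem_eigen_apply hm hx, map_sub, map_smul, map_smul,
      smul_sub, smul_smul, inv_mul_cancel₀ (Complex.ofReal_ne_zero.2 (S.kap_pos i a b).ne'),
      one_smul]
    abel
  simp only [e]
  simpa only [Function.comp_def, map_zero, smul_zero, neg_zero, kap] using
    (((m.continuous.tendsto _).comp (S.central i a b (x ξ))).const_smul
      (((S.kap i a b : ℝ) : ℂ)⁻¹)).neg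

/-- The weight, seen from the right. -/
theorem weight_rho (i : ℕ) (a b : Fin 2) (v : H) :
    Tendsto (fun j => ‖rho J (S.e i j a b) v‖) atTop (𝓝 (S.w i a * ‖v‖)) := by
  have h : ∀ j, ‖rho J (S.e i j a b) v‖ = ‖S.e i j a a (J v)‖ := fun j => by
    rw [VP132.Fixed.rho_apply, J.norm_map, S.star_e]
    have h1 : ∀ (c d : Fin 2) (z : H), ‖S.e i j c d z‖ ^ 2 = RCLike.re ⟪S.e i j d d z, z⟫_ℂ := by
      intro c d z
      rw [ContinuousLinearMap.apply_norm_sq_eq_inner_adjoint_left,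
        ← ContinuousLinearMap.star_eq_adjoint]
      show RCLike.re ⟪(star (S.e i j c d) * S.e i j c d) z, z⟫_ℂ = _
      rw [S.star_e, S.e_mul, if_pos rfl]
    rw [← sq_eq_sq₀ (norm_nonneg _) (norm_nonneg _), h1, h1]
  simp only [h]
  simpa [J.norm_map] using S.weight i a (J v)

/-- The expectation onto the commutant of one slot. -/
noncomputable def cond (i j : ℕ) (u : H →L[ℂ] H) : H →L[ℂ] H :=
  ∑ a, S.e i j a 0 * u * S.e i j 0 a

theorem cond_mem {u : H →L[ℂ] H} (hu : u ∈ M) (i j : ℕ) : S.cond i j u ∈ M :=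
  sum_mem fun a _ => mul_mem (mul_mem (S.mem i j a 0) hu) (S.mem i j 0 a)

theorem cond_star (i j : ℕ) (u : H →L[ℂ] H) : star (S.cond i j u) = S.cond i j (star u) := by
  simp [cond, star_mul, S.star_e, mul_assoc]

theorem cond_commute (i j : ℕ) (u : H →L[ℂ] H) (c d : Fin 2) :
    Commute (S.cond i j u) (S.e i j c d) := by
  rw [commute_iff_eq, cond, Finset.sum_mul, Finset.mul_sum]
  have h1 : ∀ a, S.e i j a 0 * u * S.e i j 0 a * S.e i j c d
      = if a = c then S.e i j a 0 * u * S.e i j 0 d else 0 := fun a => by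
    rw [mul_assoc, S.e_mul]; split_ifs <;> simp
  have h2 : ∀ a, S.e i j c d * (S.e i j a 0 * u * S.e i j 0 a)
      = if d = a then S.e i j c 0 * u * S.e i j 0 a else 0 := fun a => by
    rw [← mul_assoc, ← mul_assoc, S.e_mul]; split_ifs <;> simp
  simp only [h1, h2, Finset.sum_ite_eq, Finset.sum_ite_eq', Finset.mem_univ, if_true]

theorem cond_commute_other {i j : ℕ} {u y : H →L[ℂ] H}
    (hy : ∀ a b, Commute (S.e i j a b) y) (hu : Commute u y) : Commute (S.cond i j u) y :=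
  Commute.sum_left _ _ _ fun a _ => ((hy a 0).mul_left hu).mul_left (hy 0 a)

theorem cond_apply_le (i j : ℕ) (u : H →L[ℂ] H) (v : H) : ‖S.cond i j u v‖ ≤ ‖u‖ * ‖v‖ := by
  have he : ∀ a : Fin 2, ‖(S.e i j a 0 * u * S.e i j 0 a) v‖ ^ 2
      ≤ ‖u‖ ^ 2 * ‖S.e i j 0 a v‖ ^ 2 := fun a => by
    rw [← mul_pow]
    exact pow_le_pow_left₀ (norm_nonneg _) ((S.e_apply_le i j a 0 _).trans (u.le_opNorm _)) 2
  have horth : ∀ z z' : H, ⟪S.e i j 0 0 z, S.e i j 1 0 z'⟫_ℂ = 0 := fun z z' => by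
    rw [← ContinuousLinearMap.adjoint_inner_right, ← ContinuousLinearMap.star_eq_adjoint,
      ← mul_apply_eq_comp, S.star_e, S.e_mul, if_neg (by decide)]
    simp
  have hsum : ‖S.e i j 0 0 v‖ ^ 2 + ‖S.e i j 0 1 v‖ ^ 2 = ‖v‖ ^ 2 := by
    have h1 : ∀ a : Fin 2, ‖S.e i j 0 a v‖ ^ 2 = RCLike.re ⟪S.e i j a a v, v⟫_ℂ := fun a => by
      rw [ContinuousLinearMap.apply_norm_sq_eq_inner_adjoint_left,
        ← ContinuousLinearMap.star_eq_adjoint]
      show RCLike.re ⟪(star (S.e i j 0 a) * S.e i j 0 a) v, v⟫_ℂ = _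
      rw [S.star_e, S.e_mul, if_pos rfl]
    rw [h1, h1, ← map_add, ← inner_add_left, ← add_apply, S.e_sum, one_apply_eq_self,
      inner_self_eq_norm_sq]
  have h : ‖S.cond i j u v‖ ^ 2 ≤ (‖u‖ * ‖v‖) ^ 2 := by
    rw [cond, Fin.sum_univ_two, add_apply, sq ‖_ + _‖, mul_assoc (S.e i j 0 0) u,
      mul_assoc (S.e i j 1 0) u, mul_apply_eq_comp (S.e i j 0 0),
      mul_apply_eq_comp (S.e i j 1 0), norm_add_sq_eq_norm_sq_add_norm_sq_of_inner_eq_zero _ _
      (horth _ _), ← sq, ← sq, mul_pow, ← hsum, mul_add, ← mul_apply_eq_comp,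
      ← mul_apply_eq_comp, ← mul_assoc, ← mul_assoc]
    exact add_le_add (he 0) (he 1)
  exact le_of_pow_le_pow_left₀ two_ne_zero (by positivity) h

theorem norm_cond_le (i j : ℕ) (u : H →L[ℂ] H) : ‖S.cond i j u‖ ≤ ‖u‖ :=
  ContinuousLinearMap.opNorm_le_bound _ (norm_nonneg _) (S.cond_apply_le i j u)

theorem tendsto_cond_xi (hm : Modular M ξ R J U) (i : ℕ) {u : ℕ → H →L[ℂ] H} (hu : ∀ j, u j ∈ M)
    {v : H} (h : Tendsto (fun j => u j ξ) atTop (𝓝 v)) :
    Tendsto (fun j => S.cond i j (u j) ξ) atTop (𝓝 v) := by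
  have key : ∀ j, S.cond i j (u j) ξ - u j ξ = -∑ a, ((S.kap i 0 a : ℝ) : ℂ)⁻¹ • S.e i j a 0
      (((S.kap i 0 a : ℝ) : ℂ) • S.e i j 0 a (u j ξ) - rho J (S.e i j 0 a) (u j ξ)) := fun j => by
    have h1 : u j ξ = ∑ a, S.e i j a 0 (S.e i j 0 a (u j ξ)) := by
      rw [Fin.sum_univ_two, ← mul_apply_eq_comp, ← mul_apply_eq_comp (S.e i j 1 0), S.e_mul,
        S.e_mul, if_pos rfl, if_pos rfl, ← add_apply, S.e_sum, one_apply_eq_self]
    conv_lhs => arg 2; rw [h1]
    rw [cond, sum_apply, ← Finset.sum_sub_distrib, ← Finset.sum_neg_distrib]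
    refine Finset.sum_congr rfl fun a _ => ?_
    rw [mul_apply_eq_comp, mul_apply_eq_comp, S.mem_eigen_apply hm (hu j), map_smul, map_sub,
      map_smul, smul_sub, smul_smul, inv_mul_cancel₀ (Complex.ofReal_ne_zero.2 (S.kap_pos i 0 a).ne'),
      one_smul, neg_sub]
  have hz : ∀ a, Tendsto (fun j => S.e i j a 0
      (((S.kap i 0 a : ℝ) : ℂ) • S.e i j 0 a (u j ξ) - rho J (S.e i j 0 a) (u j ξ)))
      atTop (𝓝 0) := fun a =>
    squeeze_zero_norm (fun j => S.e_apply_le i j a 0 _)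
      (tendsto_zero_iff_norm_tendsto_zero.1 (S.central_seq i 0 a h))
  have h2 : Tendsto (fun j => S.cond i j (u j) ξ - u j ξ) atTop (𝓝 0) := by
    simp only [key]
    simpa using (tendsto_finsetSum Finset.univ fun a _ =>
      (hz a).const_smul (((S.kap i 0 a : ℝ) : ℂ)⁻¹)).neg
  simpa using h2.add h

/-- The iterated expectation over a list of families, at one index. -/
noncomputable def condList : List ℕ → ℕ → (H →L[ℂ] H) → H →L[ℂ] H
  | [], _, u => u
  | i :: l, j, u => S.cond i j (condList l j u)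

theorem condList_mem {u : H →L[ℂ] H} (hu : u ∈ M) (l : List ℕ) (j : ℕ) : S.condList l j u ∈ M := by
  induction l with
  | nil => exact hu
  | cons i l ih => exact S.cond_mem ih i j

theorem norm_condList_le (u : H →L[ℂ] H) (l : List ℕ) (j : ℕ) : ‖S.condList l j u‖ ≤ ‖u‖ := by
  induction l with
  | nil => exact le_rfl
  | cons i l ih => exact (S.norm_cond_le i j _).trans ih

theorem condList_commute (u : H →L[ℂ] H) {l : List ℕ} (j : ℕ) {i : ℕ} (hi : i ∈ l) (c d : Fin 2) :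
    Commute (S.condList l j u) (S.e i j c d) := by
  induction l with
  | nil => simp at hi
  | cons k l ih =>
    rcases eq_or_ne i k with rfl | hne
    · exact S.cond_commute i j _ c d
    · refine S.cond_commute_other (fun a b => S.comm k j i j a b c d ?_)
        (ih ((List.mem_cons.1 hi).resolve_left hne))
      simpa using hne.symm

theorem tendsto_condList_xi (hm : Modular M ξ R J U) {u : H →L[ℂ] H} (hu : u ∈ M) (l : List ℕ) :
    Tendsto (fun j => S.condList l j u ξ) atTop (𝓝 (u ξ)) := by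
  induction l with
  | nil => exact tendsto_const_nhds
  | cons i l ih => exact S.tendsto_cond_xi hm i (fun j => S.condList_mem hu l j) ih

end Slots

end Vale.Agent.P096.Cent
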