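import Vale.Agent.P096.Cent.Eigen
import Vale.Agent.P096.Cent.Tools
import Vale.Agent.P096.Cent.Frame
import Vale.Agent.P132.Sigma
import Vale.Agent.P132.Row

/-!
P096: with slots, an element with moduli is central.  No factor hypothesis is needed.
-/

open scoped InnerProductSpace
open Filter Topology
open Vale.Agent.P132.Tomita (conjBy Modular)
open VP132 (rho band bandKernel lam IsStandardVector HasMod)

namespace Vale.Agent.P096.Cent

variable {H : Type} [NormedAddCommGroup H] [InnerProductSpace ℂ H] [CompleteSpace H]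
variable {M : VonNeumannAlgebra H} {ξ : H} {R : H →L[ℂ] H} {J : H ≃ₗᵢ⋆[ℂ] H}
variable {U : ℝ → H →L[ℂ] H}

/-- The derivation of `a` at `ξ`. -/
noncomputable def der (J : H ≃ₗᵢ⋆[ℂ] H) (a : H →L[ℂ] H) : H →L[ℂ] H := a - rho J a

theorem rho_apply_xi (hm : Modular M ξ R J U) {a : H →L[ℂ] H} (ha : a ∈ M)
    (h1 : R (a ξ) = a ξ) (h2 : R (star a ξ) = star a ξ) : rho J a ξ = a ξ := by
  rw [VP132.Fixed.rho_xi hm, ← VP132.Fixed.fix_of_R hm ha h1 h2, hm.J_J]

/-- At `ξ` the derivation is the commutator. -/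
theorem der_apply_xi (hm : Modular M ξ R J U) {a y : H →L[ℂ] H} (ha : a ∈ M) (hy : y ∈ M)
    (h : rho J a ξ = a ξ) : der J a (y ξ) = (a * y - y * a) ξ := by
  rw [der, sub_apply, sub_apply, mul_apply_eq_comp, mul_apply_eq_comp,
    VP132.Fixed.rho_comm hm ha hy, h]

/-- A fixed element is fixed by the modular automorphisms. -/
theorem U_conj_fixed (hm : Modular M ξ R J U) (hs : IsStandardVector H M ξ) {a : H →L[ℂ] H}
    (ha : a ∈ M) (h : R (a ξ) = a ξ) (t : ℝ) : U t * a * U (-t) = a := by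
  have e := U_eigen hm (r := 1) one_pos one_lt_two (w := a ξ) (by rw [h]; simp) t
  refine sub_eq_zero.1 (hs.2.2 _ (sub_mem (hm.U_mem t a ha) ha) ?_)
  norm_num [mul_apply_eq_comp, hm.U_xi, e, lam]

theorem der_U (hm : Modular M ξ R J U) (hs : IsStandardVector H M ξ) {a : H →L[ℂ] H}
    (ha : a ∈ M) (h : R (a ξ) = a ξ) (h' : R (star a ξ) = star a ξ) (t : ℝ) (v : H) :
    der J a (U t v) = U t (der J a v) := by
  have key : ∀ b : H →L[ℂ] H, U t * b * U (-t) = b → ∀ w, b (U t w) = U t (b w) := by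
    intro b hb w
    conv_lhs => rw [← hb]
    simp only [mul_apply_eq_comp]
    rw [← mul_apply_eq_comp (U (-t)), ← hm.U_add, neg_add_cancel, hm.U_zero, one_apply_eq_self]
  simp only [der, sub_apply, map_sub, VP132.Fixed.rho_apply, hm.U_J,
    key a (U_conj_fixed hm hs ha h t),
    key (star a) (U_conj_fixed hm hs (star_mem ha) h' t)]

/-- A bound for a weight from the ratio of the weights. -/
theorem weight_lower {w0 w1 κ₀ : ℝ} (h0 : 0 < w0) (hsum : w0 ^ 2 + w1 ^ 2 = 1) (hκ₀ : 0 ≤ κ₀)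
    (h : κ₀ ≤ w1 / w0) : κ₀ ^ 2 ≤ (1 + κ₀ ^ 2) * w1 ^ 2 := by
  have h1 : κ₀ * w0 ≤ w1 := (le_div_iff₀ h0).1 h
  nlinarith [pow_le_pow_left₀ (mul_nonneg hκ₀ h0.le) h1 2]

namespace Slots

variable (S : Slots M ξ J)

/-- The averaged bands of an element commuting with a slot commute with it. -/
theorem avgOp_commute (hm : Modular M ξ R J U) (hs : IsStandardVector H M ξ) (i j : ℕ)
    (a b : Fin 2) {u : H →L[ℂ] H} (hu : Commute u (S.e i j a b)) (l : ℝ) {h : ℝ} (hh : 0 < h) :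
    Commute (VP132.Bands.avgOp hm u l hh) (S.e i j a b) := by
  set s := S.e i j a b with hsdef
  have hconj : ∀ t, Commute (U t * u * U (-t)) s := by
    intro t
    obtain ⟨c, hc⟩ := U_conj_eigen hm hs (S.mem i j a b)
      (div_ne_zero (S.w_pos i a).ne' (S.w_pos i b).ne') (S.eigen i j a b) (-t)
    rw [neg_neg] at hc
    have e1 : U (-t) * s = c • (s * U (-t)) := by
      rw [← smul_mul_assoc, ← hc, mul_assoc, ← hm.U_add, add_neg_cancel, hm.U_zero, mul_one]
    have e2 : s * U t = c • (U t * s) := by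
      rw [← mul_smul_comm, ← hc, ← mul_assoc, ← mul_assoc, ← hm.U_add, add_neg_cancel, hm.U_zero,
        one_mul]
    rw [commute_iff_eq, mul_assoc (U t * u) _ s, e1, mul_smul_comm, mul_assoc (U t) u,
      ← mul_assoc u, hu.eq, mul_assoc (U t) u (U (-t)), ← mul_assoc s (U t), e2, smul_mul_assoc]
    simp only [mul_assoc]
  rw [commute_iff_eq]
  ext v
  rw [mul_apply_eq_comp, mul_apply_eq_comp, VP132.Bands.avgOp_apply, VP132.Bands.avgOp_apply,
    ← s.integral_comp_comm (VP132.Bands.integrable_conj hm u l hh v)]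
  refine MeasureTheory.integral_congr_ae (Eventually.of_forall fun t => ?_)
  show _ = s (bandKernel l h t • (U t * u * U (-t)) v)
  dsimp only
  rw [map_smul, ← mul_apply_eq_comp (U t * u * U (-t)) s, (hconj t).eq, mul_apply_eq_comp]

/-- The tests of the main estimate: the bands of `u`, each shifted by a slot of matching level. -/
theorem exists_test (hm : Modular M ξ R J U) (hs : IsStandardVector H M ξ) {u : H →L[ℂ] H}
    (hu : u ∈ M) {h : ℝ} (hh : 0 < h) (h1 : h ≤ 1) {W Cd : ℝ}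
    (hCd : ∀ u ∈ M, ∀ h : ℝ, 0 < h → h ≤ 1 → ∀ K : Finset ℤ,
      (∀ k ∈ K, |(k : ℝ) * h| ≤ W) →
      ∑ k ∈ K, ‖band R (k * h) h (J (star u ξ))
          - ((Real.exp (k * h / 2) : ℝ) : ℂ) • band R (k * h) h (u ξ)‖ ^ 2
        ≤ Cd * h ^ 2 * ‖u ξ‖ ^ 2)
    (K : Finset ℤ) (hK : ∀ k ∈ K, |(k : ℝ) * h| ≤ W) (fam : ℤ → ℕ)
    (hfam : ∀ k ∈ K, |S.kap (fam k) 1 0 - Real.exp (k * h / 2)| ≤ h) (j : ℕ) :
    ∃ x y : ℤ → H →L[ℂ] H, (∀ k, y k ∈ M) ∧
      (∀ k, x k ξ = band R (k * h) h (S.condList (K.image fam).toList j u ξ)) ∧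
      (∀ k, y k ξ = (((Real.sqrt (VP132.Bands.gaussTot * ‖u‖ ^ 2 + 1))⁻¹
        * S.kap (fam k) 1 0 : ℝ) : ℂ) • rho J (S.e (fam k) j 0 1) (x k ξ)) ∧
      (∀ v, ∑ k ∈ K, ‖y k v‖ ^ 2 ≤ ‖v‖ ^ 2) ∧ (∀ v, ∑ k ∈ K, ‖star (y k) v‖ ^ 2 ≤ ‖v‖ ^ 2) ∧
      ∑ k ∈ K, ‖y k ξ - rho J (y k) ξ‖ ^ 2
        ≤ 2 * (VP132.Bands.gaussTot + |Cd|) * ‖u‖ ^ 2 * h ^ 2 := by
  set l := (K.image fam).toList
  set uj := S.condList l j u with huj
  have hujM : uj ∈ M := S.condList_mem hu l j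
  have hujn : ‖uj‖ ≤ ‖u‖ := S.norm_condList_le u l j
  have hG := VP132.Bands.gaussTot_nonneg
  set c := (Real.sqrt (VP132.Bands.gaussTot * ‖u‖ ^ 2 + 1))⁻¹ with hc
  have hc0 : 0 < c := inv_pos.2 (Real.sqrt_pos.2 (by positivity))
  have hc2 : c ^ 2 * (VP132.Bands.gaussTot * ‖u‖ ^ 2) ≤ 1 := by
    rw [hc, inv_pow, Real.sq_sqrt (by positivity), inv_mul_le_iff₀ (by positivity), mul_one]
    linarith
  have hc1 : c ≤ 1 := inv_le_one_of_one_le₀ (Real.one_le_sqrt.2 (by
    have : 0 ≤ VP132.Bands.gaussTot * ‖u‖ ^ 2 := by positivity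
    linarith))
  set x : ℤ → H →L[ℂ] H := fun k => VP132.Bands.avgOp hm uj (k * h) hh with hx
  set y : ℤ → H →L[ℂ] H := fun k => ((c : ℝ) : ℂ) • (x k * S.e (fam k) j 0 1) with hy
  have hxM : ∀ k, x k ∈ M := fun k => VP132.Bands.avgOp_mem hm hujM _ hh
  have hkap : ∀ i, ((S.kap i 1 0 : ℝ) : ℂ) = ((S.kap i 0 1 : ℝ) : ℂ)⁻¹ := fun i => by
    rw [← Complex.ofReal_inv, kap, kap, inv_div]
  have hxξ : ∀ k, x k ξ = band R (k * h) h (uj ξ) := fun k =>
    VP132.Bands.avgOp_xi hm (VP132.integralSpec hm) uj _ hh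
  have hyξ : ∀ k, y k ξ
      = ((c * S.kap (fam k) 1 0 : ℝ) : ℂ) • rho J (S.e (fam k) j 0 1) (x k ξ) := fun k => by
    rw [hy]
    simp only [smul_apply, mul_apply_eq_comp]
    rw [S.mem_eigen_apply hm (hxM k), smul_smul, Complex.ofReal_mul, hkap]
  have hfr := fun v => sum_avgOp_sq_le hm uj hh K v
  have hfr' := fun v => sum_star_avgOp_sq_le hm uj hh K v
  have hbound : ∀ v : H, c ^ 2 * (VP132.Bands.gaussTot * ‖uj‖ ^ 2 * ‖v‖ ^ 2) ≤ ‖v‖ ^ 2 := by
    intro v
    calc _ ≤ c ^ 2 * (VP132.Bands.gaussTot * ‖u‖ ^ 2) * ‖v‖ ^ 2 := by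
          rw [mul_assoc (c ^ 2) (VP132.Bands.gaussTot * ‖u‖ ^ 2)]; gcongr
      _ ≤ 1 * ‖v‖ ^ 2 := mul_le_mul_of_nonneg_right hc2 (sq_nonneg _)
      _ = _ := one_mul _
  refine ⟨x, y, fun k => VP132.Fixed.smul_mem_vn _ (mul_mem (hxM k) (S.mem _ _ _ _)),
    hxξ, hyξ, fun v => ?_, fun v => ?_, ?_⟩
  · refine le_trans (Finset.sum_le_sum fun k hk => ?_)
      ((Finset.mul_sum K _ (c ^ 2)).symm.trans_le
        ((mul_le_mul_of_nonneg_left (hfr v) (sq_nonneg c)).trans (hbound v)))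
    have hcom : Commute (x k) (S.e (fam k) j 0 1) := S.avgOp_commute hm hs _ _ _ _
      (S.condList_commute u j (Finset.mem_toList.2 (Finset.mem_image_of_mem fam hk)) 0 1) _ hh
    simp only [hy, smul_apply, hcom.eq, mul_apply_eq_comp, norm_smul, Complex.norm_real,
      Real.norm_of_nonneg hc0.le, mul_pow]
    gcongr
    exact S.e_apply_le _ _ _ _ _
  · refine le_trans (Finset.sum_le_sum fun k _ => ?_)
      ((Finset.mul_sum K _ (c ^ 2)).symm.trans_le
        ((mul_le_mul_of_nonneg_left (hfr' v) (sq_nonneg c)).trans (hbound v)))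
    simp only [hy, star_smul, star_mul, smul_apply, mul_apply_eq_comp, norm_smul, norm_star,
      Complex.norm_real, Real.norm_of_nonneg hc0.le, mul_pow, S.star_e]
    gcongr
    exact S.e_apply_le _ _ _ _ _
  · have hd : ∀ k ∈ K, ‖y k ξ - rho J (y k) ξ‖ ^ 2
        ≤ 2 * (h ^ 2 * ‖x k ξ‖ ^ 2) + 2 * ‖band R (k * h) h (J (star uj ξ))
          - ((Real.exp (k * h / 2) : ℝ) : ℂ) • band R (k * h) h (uj ξ)‖ ^ 2 := by
      intro k hk
      set κ := S.kap (fam k) 1 0
      set ex := Real.exp (k * h / 2)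
      have e : rho J (y k) ξ = ((c : ℝ) : ℂ) •
          rho J (S.e (fam k) j 0 1) (band R (k * h) h (J (star uj ξ))) := by
        rw [← J_star_avgOp hm uj (k * h) hh, VP132.Fixed.rho_xi hm, VP132.Fixed.rho_apply, hm.J_J]
        simp only [hy, hx, star_smul, star_mul, smul_apply, mul_apply_eq_comp,
          LinearIsometryEquiv.map_smulₛₗ, Complex.star_def, Complex.conj_conj]
      have hn : ‖y k ξ - rho J (y k) ξ‖
          ≤ |κ - ex| * ‖x k ξ‖ + ‖band R (k * h) h (J (star uj ξ))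
            - ((ex : ℝ) : ℂ) • band R (k * h) h (uj ξ)‖ := by
        rw [hyξ, e, Complex.ofReal_mul, ← smul_smul, ← smul_sub, ← map_smul, ← map_sub, norm_smul,
          Complex.norm_real, Real.norm_of_nonneg hc0.le]
        refine (mul_le_of_le_one_left (norm_nonneg _) hc1).trans ((S.rho_e_le _ _ _ _ _).trans ?_)
        rw [← hxξ]
        rw [show ((κ : ℝ) : ℂ) • x k ξ - band R (k * h) h (J (star uj ξ))
            = ((κ - ex : ℝ) : ℂ) • x k ξ
              - (band R (k * h) h (J (star uj ξ)) - ((ex : ℝ) : ℂ) • x k ξ) by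
          rw [Complex.ofReal_sub, sub_smul]; abel]
        refine (norm_sub_le _ _).trans_eq ?_
        rw [norm_smul, Complex.norm_real, Real.norm_eq_abs]
      refine (pow_le_pow_left₀ (norm_nonneg _) hn 2).trans ((add_sq_le).trans (le_of_eq_of_le
        (mul_add _ _ _) (add_le_add ?_ le_rfl)))
      rw [mul_pow]
      exact mul_le_mul_of_nonneg_left (mul_le_mul_of_nonneg_right
        (pow_le_pow_left₀ (abs_nonneg _) (hfam k hk) 2) (sq_nonneg _)) zero_le_two
    refine (Finset.sum_le_sum hd).trans ?_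
    rw [Finset.sum_add_distrib, ← Finset.mul_sum, ← Finset.mul_sum, ← Finset.mul_sum]
    have a1 : ∑ k ∈ K, ‖x k ξ‖ ^ 2 ≤ VP132.Bands.gaussTot * ‖u‖ ^ 2 := by
      refine (hfr ξ).trans ?_
      rw [hs.1, one_pow, mul_one]
      gcongr
    have a2 := hCd uj hujM h hh h1 K hK
    have a3 : ‖uj ξ‖ ^ 2 ≤ ‖u‖ ^ 2 := by
      refine pow_le_pow_left₀ (norm_nonneg _) ((uj.le_opNorm ξ).trans ?_) 2
      rw [hs.1, mul_one]
      exact hujn
    have a4 : Cd * h ^ 2 * ‖uj ξ‖ ^ 2 ≤ |Cd| * h ^ 2 * ‖u‖ ^ 2 := by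
      gcongr
      exact le_abs_self _
    nlinarith [mul_le_mul_of_nonneg_left a1 (sq_nonneg h)]

/-- The derivation moves past the right action of a slot. -/
theorem tendsto_der_rho (hm : Modular M ξ R J U) (hs : IsStandardVector H M ξ) {a : H →L[ℂ] H}
    (ha : a ∈ M) (i : ℕ) {v : ℕ → H} {v₀ : H} (hv : Tendsto v atTop (𝓝 v₀)) :
    Tendsto (fun j => ‖der J a (rho J (S.e i j 0 1) (v j))‖) atTop
      (𝓝 (S.w i 0 * ‖der J a v₀‖)) := by
  have key : ∀ j z, der J a (rho J (S.e i j 0 1) z) = rho J (S.e i j 0 1) (der J a z)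
      - J ((star a * S.e i j 1 0 - S.e i j 1 0 * star a) (J z)) := by
    intro j z
    have hc := VP132.Fixed.rho_comm hm (S.mem i j 0 1) ha z
    rw [der, sub_apply, sub_apply, map_sub, hc]
    simp only [VP132.Fixed.rho_apply, hm.J_J, sub_apply, mul_apply_eq_comp, map_sub, S.star_e]
    abel
  have h0 : Tendsto (fun j => (star a * S.e i j 1 0 - S.e i j 1 0 * star a) (J (v j)))
      atTop (𝓝 0) := by
    refine tendsto_zero_of_dense (C := 2 * ‖a‖)
      (T := fun j => star a * S.e i j 1 0 - S.e i j 1 0 * star a) (fun j z => ?_) dense_univ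
      (fun z _ => S.commutator hm hs (star_mem ha) i 1 0 z) ((J.continuous.tendsto v₀).comp hv)
    have h2 := (star a).le_opNorm (S.e i j 1 0 z)
    have h3 := (S.e_apply_le i j 1 0 (star a z)).trans ((star a).le_opNorm z)
    rw [norm_star] at h2 h3
    have h4 := mul_le_mul_of_nonneg_left (S.e_apply_le i j 1 0 z) (norm_nonneg a)
    rw [sub_apply, mul_apply_eq_comp, mul_apply_eq_comp]
    refine (norm_sub_le _ _).trans ?_
    linarith
  have h1 : Tendsto (fun j => rho J (S.e i j 0 1) (der J a (v j) - der J a v₀)) atTop (𝓝 0) := by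
    refine squeeze_zero_norm (fun j => S.rho_e_le i j 0 1 _) ?_
    exact tendsto_iff_norm_sub_tendsto_zero.1 (((der J a).continuous.tendsto v₀).comp hv)
  have h2 : Tendsto (fun j => ‖rho J (S.e i j 0 1) (der J a v₀)‖) atTop
      (𝓝 (S.w i 0 * ‖der J a v₀‖)) := S.weight_rho i 0 1 _
  have h3 : Tendsto (fun j => der J a (rho J (S.e i j 0 1) (v j))
      - rho J (S.e i j 0 1) (der J a v₀)) atTop (𝓝 0) := by
    have e : (fun j => der J a (rho J (S.e i j 0 1) (v j))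
        - rho J (S.e i j 0 1) (der J a v₀))
        = fun j => rho J (S.e i j 0 1) (der J a (v j) - der J a v₀)
          - J ((star a * S.e i j 1 0 - S.e i j 1 0 * star a) (J (v j))) := by
      funext j
      rw [key, map_sub]
      abel
    rw [e]
    simpa using h1.sub ((J.continuous.tendsto 0).comp h0)
  refine (tendsto_congr' ?_).1 (h2.add (squeeze_zero_norm (fun j => ?_)
    (tendsto_iff_norm_sub_tendsto_zero.1 h3) (a := fun j => ‖der J a (rho J (S.e i j 0 1) (v j))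
      - rho J (S.e i j 0 1) (der J a v₀) - 0‖) (f := fun j =>
        ‖der J a (rho J (S.e i j 0 1) (v j))‖ - ‖rho J (S.e i j 0 1) (der J a v₀)‖)))
    |>.trans (by rw [add_zero])
  · exact Eventually.of_forall fun j => add_sub_cancel _ _
  · rw [sub_zero, Real.norm_eq_abs]
    exact abs_norm_sub_norm_le _ _

include S in
/-- With slots, an element which has moduli together with its adjoint is central. -/
theorem central_of_hasMod (hm : Modular M ξ R J U) (hs : IsStandardVector H M ξ)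
    {a : H →L[ℂ] H} (ha : HasMod M ξ J a) (ha' : HasMod M ξ J (star a)) :
    a ∈ M.commutant := by
  have haM : a ∈ M := ha.1
  have hRa : R (a ξ) = a ξ := VP132.sigmaSpec hm a ha ha'
  have hRa' : R (star a ξ) = star a ξ :=
    VP132.sigmaSpec hm (star a) ha' (by rwa [star_star])
  have hfix := rho_apply_xi hm haM hRa hRa'
  have hrow := VP132.rowSpec hm a ha
  rw [VonNeumannAlgebra.mem_commutant_iff]
  intro u hu
  suffices hz : der J a (u ξ) = 0 by
    rw [der_apply_xi hm haM hu hfix] at hz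
    exact (sub_eq_zero.1 (hs.2.2 _ (sub_mem (mul_mem haM hu) (mul_mem hu haM)) hz)).symm
  refine eq_zero_of_bands hm fun W hW ε hε => ?_
  obtain ⟨Cd, hCd⟩ := (VP132.bandSpec hm (VP132.integralSpec hm)).defect (W + 1)
  set κ₀ := Real.exp (-(W + 1) / 2) / 2 with hκ₀
  have hκ₀0 : 0 < κ₀ := by positivity
  set c := (Real.sqrt (VP132.Bands.gaussTot * ‖u‖ ^ 2 + 1))⁻¹ with hc
  have hG := VP132.Bands.gaussTot_nonneg
  have hc0 : 0 < c := inv_pos.2 (Real.sqrt_pos.2 (by positivity))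
  obtain ⟨δ, hδ, hmod⟩ := hrow.2 (Real.sqrt (ε * (c * κ₀) ^ 2 / (1 + κ₀ ^ 2))) (by positivity)
  set B := 2 * (VP132.Bands.gaussTot + |Cd|) * ‖u‖ ^ 2 + 1 with hB
  set h := min 1 (min κ₀ (δ / Real.sqrt B)) with hhdef
  have hB0 : 0 < B := by positivity
  have hh : 0 < h := by positivity
  have hh1 : h ≤ 1 := min_le_left _ _
  have hhκ : h ≤ κ₀ := (min_le_right _ _).trans (min_le_left _ _)
  have hhB : B * h ^ 2 ≤ δ ^ 2 := by
    have h3 : h ≤ δ / Real.sqrt B := (min_le_right _ _).trans (min_le_right _ _)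
    rw [le_div_iff₀ (Real.sqrt_pos.2 hB0)] at h3
    have := pow_le_pow_left₀ (by positivity) h3 2
    rw [mul_pow, Real.sq_sqrt hB0.le] at this
    linarith
  set K := Finset.Icc ⌈-(W + 1) / h⌉ ⌊(W + 1) / h⌋ with hK
  have hKmem : ∀ k : ℤ, k ∈ K ↔ |(k : ℝ) * h| ≤ W + 1 := fun k => by
    rw [hK, Finset.mem_Icc, Int.ceil_le, Int.le_floor, div_le_iff₀ hh, le_div_iff₀ hh, abs_le]
  refine ⟨h, hh, hh1, K, fun k hk => (hKmem k).2 hk, ?_⟩
  choose fam hfam using fun k : ℤ => S.levels (Real.exp (k * h / 2)) (Real.exp_pos _) h hh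
  set l := (K.image fam).toList
  choose x y hyM hxξ hyξ hrowb hcolb hdef using fun j => S.exists_test hm hs hu hh hh1 hCd K
    (fun k hk => (hKmem k).1 hk) fam (fun k _ => (hfam k).le) j
  have hest : ∀ j, ∑ k ∈ K, (c * S.kap (fam k) 1 0) ^ 2
      * ‖der J a (rho J (S.e (fam k) j 0 1) (x j k ξ))‖ ^ 2
      ≤ ε * (c * κ₀) ^ 2 / (1 + κ₀ ^ 2) := by
    intro j
    have h4 := hmod K (fun k => y j k.1) (fun k => hyM j k.1)
      (fun v => (Finset.sum_coe_sort K fun k => ‖y j k v‖ ^ 2).trans_le (hrowb j v))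
      (fun v => (Finset.sum_coe_sort K fun k => ‖star (y j k) v‖ ^ 2).trans_le (hcolb j v))
      ((Finset.sum_coe_sort K fun k => ‖y j k ξ - rho J (y j k) ξ‖ ^ 2).trans_le
        ((hdef j).trans (le_trans ?_ hhB)))
    · rw [Real.sq_sqrt (by positivity),
        Finset.sum_coe_sort K fun k => ‖(y j k * a - a * y j k) ξ‖ ^ 2] at h4
      refine le_of_eq_of_le (Finset.sum_congr rfl fun k _ => ?_) h4
      have e : (y j k * a - a * y j k) ξ = -der J a (y j k ξ) := by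
        rw [der_apply_xi hm haM (hyM j k) hfix, sub_apply, sub_apply]
        abel
      rw [e, norm_neg, hyξ, map_smul, norm_smul, Complex.norm_real, Real.norm_eq_abs,
        mul_pow |_|, sq_abs]
    · rw [hB]
      nlinarith [sq_nonneg h]
  have hlim : Tendsto (fun j => ∑ k ∈ K, (c * S.kap (fam k) 1 0) ^ 2
      * ‖der J a (rho J (S.e (fam k) j 0 1) (x j k ξ))‖ ^ 2) atTop
      (𝓝 (∑ k ∈ K, (c * S.kap (fam k) 1 0) ^ 2
        * (S.w (fam k) 0 * ‖der J a (band R (k * h) h (u ξ))‖) ^ 2)) := by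
    refine tendsto_finsetSum _ fun k _ => ((S.tendsto_der_rho hm hs haM (fam k) ?_).pow 2).const_mul _
    simp only [hxξ]
    exact ((band R (k * h) h).continuous.tendsto _).comp (S.tendsto_condList_xi hm hu _)
  have hle := le_of_tendsto hlim (Eventually.of_forall hest)
  have hterm : ∀ k ∈ K, (c * κ₀) ^ 2 / (1 + κ₀ ^ 2) * ‖band R (k * h) h (der J a (u ξ))‖ ^ 2
      ≤ (c * S.kap (fam k) 1 0) ^ 2
        * (S.w (fam k) 0 * ‖der J a (band R (k * h) h (u ξ))‖) ^ 2 := by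
    intro k hk
    rw [band_commute hm (der_U hm hs haM hRa hRa') _ hh, mul_pow c, mul_pow c, mul_pow,
      ← mul_assoc (c ^ 2 * _), mul_assoc (c ^ 2) ((S.kap (fam k) 1 0) ^ 2), ← mul_pow (S.kap _ 1 0),
      mul_div_assoc]
    have hk0 : S.kap (fam k) 1 0 * S.w (fam k) 0 = S.w (fam k) 1 := by
      rw [kap, div_mul_cancel₀ _ (S.w_pos _ _).ne']
    rw [hk0]
    gcongr
    rw [div_le_iff₀ (by positivity), mul_comm]
    refine weight_lower (S.w_pos _ 0) (S.w_sq _) hκ₀0.le ?_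
    have h5 : Real.exp (-(W + 1) / 2) ≤ Real.exp (k * h / 2) :=
      Real.exp_le_exp.2 (by linarith [(abs_le.1 ((hKmem k).1 hk)).1])
    have h6 := (abs_lt.1 (hfam k)).1
    show κ₀ ≤ S.w (fam k) 1 / S.w (fam k) 0
    linarith
  have h7 := (Finset.sum_le_sum hterm).trans hle
  rw [← Finset.mul_sum, mul_div_assoc ε, mul_comm ε] at h7
  exact le_of_mul_le_mul_left h7 (by positivity)

end Slots

end Vale.Agent.P096.Cent
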