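import Vale.Agent.P132.Integral
import Vale.Agent.P132.Fixed

/-!
P096: eigenvectors of the modular operator.
-/

open scoped InnerProductSpace
open Filter Topology
open Vale.Agent.P132.Tomita (conjBy Modular opT fT fU)
open VP132 (rho lam)

namespace Vale.Agent.P096.Cent

variable {H : Type} [NormedAddCommGroup H] [InnerProductSpace ℂ H] [CompleteSpace H]
variable {M : VonNeumannAlgebra H} {ξ : H} {R : H →L[ℂ] H} {J : H ≃ₗᵢ⋆[ℂ] H}
variable {U : ℝ → H →L[ℂ] H}

theorem aeval_eigen {w : H} {r : ℝ} (hw : R w = (r : ℂ) • w) (p : Polynomial ℝ) :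
    Polynomial.aeval R p w = ((p.eval r : ℝ) : ℂ) • w := by
  induction p using Polynomial.induction_on with
  | C a => simp [Algebra.algebraMap_eq_smul_one, Complex.coe_smul]
  | add p q hp hq =>
    simp only [map_add, add_apply, Polynomial.eval_add, Complex.ofReal_add, add_smul, hp, hq]
  | monomial n a ih =>
    rw [pow_succ, ← mul_assoc, map_mul, mul_apply_eq_comp, Polynomial.aeval_X, hw, map_smul, ih,
      smul_smul]
    congr 1
    simp only [Polynomial.eval_mul, Polynomial.eval_C, Polynomial.eval_pow, Polynomial.eval_X]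
    push_cast
    ring

theorem cfc_eigen (hm : Modular M ξ R J U) {f : ℝ → ℝ} (hf : Continuous f) {w : H} {r : ℝ}
    (hr : r ∈ Set.Icc (0 : ℝ) 2) (hw : R w = (r : ℂ) • w) : cfc f R w = ((f r : ℝ) : ℂ) • w := by
  refine eq_of_forall_dist_le fun ε hε => ?_
  set δ := ε / (2 * ‖w‖ + 1) with hδ
  have hδ0 : 0 < δ := by positivity
  obtain ⟨p, hp⟩ := exists_polynomial_near_of_continuousOn 0 2 f hf.continuousOn δ hδ0
  have h1 : ‖cfc f R - Polynomial.aeval R p‖ ≤ δ := by
    rw [← cfc_polynomial p R hm.R_sa, ← cfc_sub f (fun x => p.eval x) R hf.continuousOn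
      (by fun_prop)]
    refine norm_cfc_le hδ0.le fun x hx => ?_
    rw [Real.norm_eq_abs, abs_sub_comm]
    exact (hp x (hm.R_spec hx)).le
  have h2 := ContinuousLinearMap.le_of_opNorm_le _ h1 w
  rw [sub_apply, aeval_eigen hw] at h2
  have h3 : ‖((p.eval r : ℝ) : ℂ) • w - ((f r : ℝ) : ℂ) • w‖ ≤ δ * ‖w‖ := by
    rw [← sub_smul, norm_smul, ← Complex.ofReal_sub, Complex.norm_real, Real.norm_eq_abs]
    exact mul_le_mul_of_nonneg_right (hp r hr).le (norm_nonneg _)
  rw [dist_eq_norm]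
  calc _ ≤ δ * ‖w‖ + δ * ‖w‖ := (norm_sub_le_norm_sub_add_norm_sub _ _ _).trans (add_le_add h2 h3)
    _ ≤ δ * (2 * ‖w‖ + 1) := by nlinarith
    _ = ε := div_mul_cancel₀ ε (by positivity)

theorem cfc_eigen_complex (hm : Modular M ξ R J U) {g : ℝ → ℂ} (hg : Continuous g) {w : H} {r : ℝ}
    (hr : r ∈ Set.Icc (0 : ℝ) 2) (hw : R w = (r : ℂ) • w) :
    cfc (fun z : ℂ => g z.re) R w = g r • w := by
  have : IsStarNormal R := hm.R_sa.isStarNormal
  set φ : ℂ → ℂ := fun z => g z.re - g r with hφ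
  have hgc : Continuous fun z : ℂ => g z.re := hg.comp Complex.continuous_re
  have hφc : Continuous φ := hgc.sub continuous_const
  have e : cfc φ R = cfc (fun z : ℂ => g z.re) R - g r • 1 := by
    rw [hφ, cfc_sub (fun z : ℂ => g z.re) (fun _ => g r) R hgc.continuousOn (by fun_prop),
      cfc_const (g r) R, Algebra.algebraMap_eq_smul_one]
  set q : ℝ → ℝ := fun x => Complex.normSq (g x - g r) with hq
  have hqc : Continuous q := Complex.continuous_normSq.comp (hg.sub continuous_const)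
  have e2 : star (cfc φ R) * cfc φ R = cfc q R := by
    rw [← cfc_star φ R, ← cfc_mul _ φ R (hφc.star).continuousOn hφc.continuousOn,
      cfc_real_eq_complex q hm.R_sa]
    refine cfc_congr fun z _ => ?_
    simp only [hq, hφ, Complex.star_def, Complex.normSq_eq_conj_mul_self]
  have h0 : ‖cfc φ R w‖ ^ 2 = 0 := by
    rw [ContinuousLinearMap.apply_norm_sq_eq_inner_adjoint_left,
      ← ContinuousLinearMap.star_eq_adjoint]
    show RCLike.re ⟪(star (cfc φ R) * cfc φ R) w, w⟫_ℂ = 0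
    rw [e2, cfc_eigen hm hqc hr hw]
    simp [hq]
  rw [sq_eq_zero_iff, norm_eq_zero, e, sub_apply, sub_eq_zero] at h0
  simpa using h0

theorem U_eigen (hm : Modular M ξ R J U) {w : H} {r : ℝ} (h0 : 0 < r) (h2 : r < 2)
    (hw : R w = (r : ℂ) • w) (t : ℝ) :
    U t w = Complex.exp (((t * lam r : ℝ) : ℂ) * Complex.I) • w := by
  have hr : r ∈ Set.Icc (0 : ℝ) 2 := ⟨h0.le, h2.le⟩
  have hT : opT R w = ((fT r : ℝ) : ℂ) • w := cfc_eigen hm VP132.continuous_fT' hr hw
  have hfc : Continuous fun x : ℝ => fU t x :=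
    VP132.continuous_fU.comp (continuous_const.prodMk continuous_id)
  have h : U t (opT R w) = fU t r • w := by
    rw [← mul_apply_eq_comp, hm.U_T]; exact cfc_eigen_complex hm hfc hr hw
  rw [hT, map_smul] at h
  have hpos : (fT r : ℂ) ≠ 0 := by
    rw [Ne, Complex.ofReal_eq_zero, fT]
    exact (Real.sqrt_pos.2 (mul_pos h0 (by linarith))).ne'
  refine smul_right_injective H hpos ?_
  show (fT r : ℂ) • U t w = (fT r : ℂ) • _
  rw [h, smul_smul, fU, lam]

/-- A vector of `M ξ` whose adjoint vector is proportional to its mirror is an eigenvector. -/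
theorem R_eigen (hm : Modular M ξ R J U) {x : H →L[ℂ] H} (hx : x ∈ M) {μ : ℝ}
    (h : rho J x ξ = (μ : ℂ) • x ξ) :
    R (x ξ) = ((2 / (1 + μ ^ 2) : ℝ) : ℂ) • x ξ := by
  set w := x ξ
  have hs : star x ξ = (μ : ℂ) • J w := by
    have := congrArg J (VP132.Fixed.rho_xi hm x ▸ h)
    rwa [hm.J_J, LinearIsometryEquiv.map_smulₛₗ, Complex.conj_ofReal] at this
  have h1 : (2 : ℂ) • w - R w = (μ : ℂ) • opT R w := by
    have := congrArg J (hm.S_eq x hx)
    rw [hm.J_J, hs, map_smul, LinearIsometryEquiv.map_smulₛₗ, Complex.conj_ofReal, hm.J_T,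
      hm.J_J] at this
    exact this
  have hc : ∀ v, opT R (R v) = R (opT R v) := fun v => by
    have hcm : Commute (opT R) R := (Commute.refl R).cfc_real fT
    exact congrArg (fun T : H →L[ℂ] H => T v) hcm.eq
  have hTT : ∀ v, opT R (opT R v) = (2 : ℂ) • R v - R (R v) := fun v => by
    have e : opT R * opT R = cfc (fun s : ℝ => 2 * s - s * s) R := by
      rw [opT, ← cfc_mul fT fT R VP132.continuous_fT'.continuousOn VP132.continuous_fT'.continuousOn]
      refine cfc_congr fun s hs => ?_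
      obtain ⟨a, b⟩ := hm.R_spec hs
      rw [fT, Real.mul_self_sqrt (mul_nonneg a (by linarith))]
      ring
    have hp : cfc (fun s : ℝ => 2 * s - s * s) R = (2 : ℝ) • R - R * R := by
      have hR := hm.R_sa
      rw [cfc_sub (fun s : ℝ => 2 * s) (fun s => s * s) R, cfc_const_mul (2 : ℝ) (fun s => s) R,
        cfc_mul (fun s : ℝ => s) (fun s => s) R, cfc_id' ℝ R]
    have := congrArg (fun T : H →L[ℂ] H => T v) (e.trans hp)
    simpa [← Complex.coe_smul] using this
  set g := (2 : ℂ) • w - ((1 + μ ^ 2 : ℝ) : ℂ) • R w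
  have hg : R g = (2 : ℂ) • g := by
    have h2 := congrArg (opT R) h1
    rw [map_sub, map_smul, map_smul, hc, hTT] at h2
    have h3 : (μ : ℂ) • R (opT R w) = R ((μ : ℂ) • opT R w) := (map_smul R _ _).symm
    have h4 := congrArg (fun z => (μ : ℂ) • z) h2
    simp only [smul_sub, smul_comm (μ : ℂ) (2 : ℂ), h3] at h4
    rw [← h1] at h4
    simp only [g, map_sub, map_smul, smul_sub, smul_smul] at h4 ⊢
    push_cast at *
    rw [← sub_eq_zero] at h4 ⊢
    rw [← neg_eq_zero]
    refine Eq.trans ?_ h4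
    module
  have h5 := hm.R_inj' g hg
  have hd : ((1 + μ ^ 2 : ℝ) : ℂ) ≠ 0 := Complex.ofReal_ne_zero.2 (by positivity)
  rw [sub_eq_zero] at h5
  refine smul_right_injective H hd ?_
  show ((1 + μ ^ 2 : ℝ) : ℂ) • R w =
    ((1 + μ ^ 2 : ℝ) : ℂ) • ((2 / (1 + μ ^ 2) : ℝ) : ℂ) • w
  rw [← h5, smul_smul, ← Complex.ofReal_mul, mul_div_cancel₀ _ (by positivity)]
  norm_num

theorem U_conj_eigen (hm : Modular M ξ R J U) (hs : VP132.IsStandardVector H M ξ)
    {x : H →L[ℂ] H} (hx : x ∈ M) {μ : ℝ} (hμ : μ ≠ 0) (h : rho J x ξ = (μ : ℂ) • x ξ) (t : ℝ) :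
    ∃ c : ℂ, U t * x * U (-t) = c • x := by
  set r := 2 / (1 + μ ^ 2)
  have hμ2 : 0 < μ ^ 2 := by positivity
  refine ⟨Complex.exp (((t * lam r : ℝ) : ℂ) * Complex.I), ?_⟩
  have he := U_eigen hm (r := r) (by positivity) (by rw [div_lt_iff₀ (by positivity)]; linarith)
    (R_eigen hm hx h) t
  have h0 := hs.2.2 _ (sub_mem (hm.U_mem t x hx) (VP132.Fixed.smul_mem_vn
    (Complex.exp (((t * lam r : ℝ) : ℂ) * Complex.I)) hx)) (by
      simp [mul_apply_eq_comp, hm.U_xi, he])
  exact sub_eq_zero.1 h0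

end Vale.Agent.P096.Cent
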