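import Mathlib

/-!
P096: the auxiliary infinite tensor product of two by two matrices in product vectors, on square
summable families over finitely supported sequences of site states.  A site has four states, its
state `0` is the vector of the site.  (The design follows helper8's ambient space.)
-/

open scoped InnerProductSpace Matrix
open Filter Topology

namespace Vale.Agent.P096.Cent

/-- Basis states: finitely many sites are away from the site vector `0`. -/
abbrev Idx : Type := ℕ →₀ Fin 4

/-- The space of the stabilised algebra. -/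
abbrev AmbH (H : Type) [NormedAddCommGroup H] : Type := lp (fun _ : Idx => H) 2

variable {H : Type} [NormedAddCommGroup H] [InnerProductSpace ℂ H] [CompleteSpace H]

/-- An operator acting on every component. -/
noncomputable def ten (x : H →L[ℂ] H) : AmbH H →L[ℂ] AmbH H :=
  lp.mapCLM 2 (fun _ => x) x.opNorm_nonneg fun _ => le_rfl

/-- The product with the vector of the sites. -/
noncomputable def put0 : H →L[ℂ] AmbH H :=
  lp.singleContinuousLinearMap ℂ (fun _ : Idx => H) 2 0

/-- Multiplication by a bounded function of the basis state. -/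
noncomputable def diagOp (c : Idx → ℂ) (K : ℝ) (hK : 0 ≤ K) (hc : ∀ i, ‖c i‖ ≤ K) :
    AmbH H →L[ℂ] AmbH H :=
  lp.mapCLM 2 (fun i => c i • ContinuousLinearMap.id ℂ H) hK fun i => by
    refine (norm_smul_le (c i) (ContinuousLinearMap.id ℂ H)).trans ?_
    calc ‖c i‖ * ‖ContinuousLinearMap.id ℂ H‖ ≤ ‖c i‖ * 1 :=
          mul_le_mul_of_nonneg_left ContinuousLinearMap.norm_id_le (norm_nonneg _)
      _ ≤ K := (mul_one _).trans_le (hc i)

theorem summable_reidx (σ : Idx ≃ Idx) (f : AmbH H) :
    Summable fun i => ‖f (σ i)‖ ^ (2 : ENNReal).toReal :=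
  ((lp.memℓp f).summable (by norm_num)).comp_injective σ.injective

/-- Relabelling of the basis states. -/
noncomputable def reidx (σ : Idx ≃ Idx) : AmbH H →L[ℂ] AmbH H :=
  LinearMap.mkContinuous
    { toFun := fun f => ⟨fun i => f (σ i), memℓp_gen (summable_reidx σ f)⟩
      map_add' := fun f g => lp.ext (funext fun i => rfl)
      map_smul' := fun c f => lp.ext (funext fun i => rfl) } 1 fun f => by
    have h2 : 0 < (2 : ENNReal).toReal := by norm_num
    refine le_of_eq ?_
    rw [one_mul, lp.norm_eq_tsum_rpow h2, lp.norm_eq_tsum_rpow h2]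
    congr 1
    exact σ.tsum_eq fun i => ‖f i‖ ^ (2 : ENNReal).toReal

/-- Shift of the state of site `n` by `d`. -/
noncomputable def shiftSite (n : ℕ) (d : Fin 4) : Idx ≃ Idx := Equiv.addRight (Finsupp.single n d)

theorem bound_entry (A : Matrix (Fin 4) (Fin 4) ℂ) (a b : Fin 4) : ‖A a b‖ ≤ ∑ j, ∑ k, ‖A j k‖ :=
  (Finset.single_le_sum (f := fun k => ‖A a k‖) (fun _ _ => norm_nonneg _)
    (Finset.mem_univ b)).trans (Finset.single_le_sum (f := fun j => ∑ k, ‖A j k‖)
    (fun _ _ => Finset.sum_nonneg fun _ _ => norm_nonneg _) (Finset.mem_univ a))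

/-- A matrix acting at the site `n`. -/
noncomputable def siteOp (n : ℕ) (A : Matrix (Fin 4) (Fin 4) ℂ) : AmbH H →L[ℂ] AmbH H :=
  ∑ d : Fin 4, diagOp (fun i => A (i n) (i n + d)) (∑ j, ∑ k, ‖A j k‖)
    (Finset.sum_nonneg fun _ _ => Finset.sum_nonneg fun _ _ => norm_nonneg _)
    (fun _ => bound_entry A _ _) * reidx (shiftSite n d)

@[simp] theorem ten_apply (x : H →L[ℂ] H) (f : AmbH H) (i : Idx) : ten x f i = x (f i) := rfl

@[simp] theorem reidx_apply (σ : Idx ≃ Idx) (f : AmbH H) (i : Idx) :
    reidx σ f i = f (σ i) := rfl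

@[simp] theorem diagOp_apply (c : Idx → ℂ) {K : ℝ} (hK : 0 ≤ K) (hc : ∀ i, ‖c i‖ ≤ K) (f : AmbH H)
    (i : Idx) : diagOp c K hK hc f i = c i • f i := rfl

theorem shiftSite_apply (n : ℕ) (d : Fin 4) (i : Idx) :
    shiftSite n d i = i.update n (i n + d) := by
  refine Finsupp.ext fun m => ?_
  rcases eq_or_ne m n with rfl | h <;> simp [shiftSite, *]

theorem siteOp_apply (n : ℕ) (A : Matrix (Fin 4) (Fin 4) ℂ) (f : AmbH H) (i : Idx) :
    siteOp n A f i = ∑ k, A (i n) k • f (i.update n k) := by
  rw [siteOp, sum_apply, lp.coeFn_sum, Finset.sum_apply]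
  simp only [mul_apply_eq_comp, diagOp_apply, reidx_apply, shiftSite_apply]
  exact Equiv.sum_comp (Equiv.addLeft (i n)) fun k => A (i n) k • f (i.update n k)

theorem siteOp_mul (n : ℕ) (A B : Matrix (Fin 4) (Fin 4) ℂ) :
    siteOp (H := H) n A * siteOp n B = siteOp n (A * B) := by
  refine ContinuousLinearMap.ext fun f => lp.ext (funext fun i => ?_)
  rw [mul_apply_eq_comp, siteOp_apply, siteOp_apply]
  simp only [siteOp_apply, Matrix.mul_apply, Finset.smul_sum, Finset.sum_smul, smul_smul]
  rw [Finset.sum_comm]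
  refine Finset.sum_congr rfl fun l _ => Finset.sum_congr rfl fun k _ => ?_
  have e1 : (i.update n k) n = k := by simp
  have e2 : (i.update n k).update n l = i.update n l := Finsupp.ext fun p => by
    rcases eq_or_ne p n with rfl | hn <;> simp [*]
  rw [e1, e2]

theorem siteOp_one (n : ℕ) : siteOp (H := H) n 1 = 1 := by
  refine ContinuousLinearMap.ext fun f => lp.ext (funext fun i => ?_)
  simp [siteOp_apply, Matrix.one_apply, ite_smul]

theorem siteOp_zero (n : ℕ) : siteOp (H := H) n 0 = 0 := by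
  refine ContinuousLinearMap.ext fun f => lp.ext (funext fun i => ?_)
  simp [siteOp_apply]

theorem siteOp_add (n : ℕ) (A B : Matrix (Fin 4) (Fin 4) ℂ) :
    siteOp (H := H) n (A + B) = siteOp n A + siteOp n B := by
  refine ContinuousLinearMap.ext fun f => lp.ext (funext fun i => ?_)
  simp [siteOp_apply, add_smul, Finset.sum_add_distrib]

theorem siteOp_smul (n : ℕ) (c : ℂ) (A : Matrix (Fin 4) (Fin 4) ℂ) :
    siteOp (H := H) n (c • A) = c • siteOp n A := by
  refine ContinuousLinearMap.ext fun f => lp.ext (funext fun i => ?_)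
  simp [siteOp_apply, Finset.smul_sum, smul_smul]

theorem siteOp_comm {n m : ℕ} (h : n ≠ m) (A B : Matrix (Fin 4) (Fin 4) ℂ) :
    Commute (siteOp (H := H) n A) (siteOp m B) := by
  refine ContinuousLinearMap.ext fun f => lp.ext (funext fun i => ?_)
  simp only [mul_apply_eq_comp, siteOp_apply, Finset.smul_sum, smul_smul]
  rw [Finset.sum_comm]
  refine Finset.sum_congr rfl fun l _ => Finset.sum_congr rfl fun k _ => ?_
  have e : (i.update n k).update m l = (i.update m l).update n k := by
    refine Finsupp.ext fun p => ?_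
    rcases eq_or_ne p n with rfl | hn <;> rcases eq_or_ne p m with hm | hm <;> simp_all
  rw [e, Finsupp.update_apply, if_neg h.symm, Finsupp.update_apply, if_neg h, mul_comm]

theorem star_reidx (σ : Idx ≃ Idx) : star (reidx (H := H) σ) = reidx σ.symm := by
  rw [ContinuousLinearMap.star_eq_adjoint]
  refine ((ContinuousLinearMap.eq_adjoint_iff _ _).2 fun f g => ?_).symm
  rw [lp.inner_eq_tsum, lp.inner_eq_tsum, ← σ.tsum_eq]
  simp

theorem star_diagOp (c : Idx → ℂ) {K : ℝ} (hK : 0 ≤ K) (hc : ∀ i, ‖c i‖ ≤ K) :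
    star (diagOp (H := H) c K hK hc)
      = diagOp (fun i => starRingEnd ℂ (c i)) K hK (fun i => by simpa using hc i) := by
  rw [ContinuousLinearMap.star_eq_adjoint]
  refine ((ContinuousLinearMap.eq_adjoint_iff _ _).2 fun f g => ?_).symm
  rw [lp.inner_eq_tsum, lp.inner_eq_tsum]
  simp [inner_smul_left, inner_smul_right]

theorem star_siteOp (n : ℕ) (A : Matrix (Fin 4) (Fin 4) ℂ) :
    star (siteOp (H := H) n A) = siteOp n Aᴴ := by
  refine ContinuousLinearMap.ext fun f => lp.ext (funext fun i => ?_)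
  rw [siteOp_apply, siteOp, star_sum]
  simp only [star_mul, star_reidx, star_diagOp]
  rw [sum_apply, lp.coeFn_sum, Finset.sum_apply]
  simp only [mul_apply_eq_comp, reidx_apply, diagOp_apply]
  rw [← Equiv.sum_comp (Equiv.subLeft (i n)) fun k => Aᴴ (i n) k • f (i.update n k)]
  refine Finset.sum_congr rfl fun d _ => ?_
  have hσ : (shiftSite n d).symm i = i.update n (i n - d) := by
    rw [Equiv.symm_apply_eq, shiftSite_apply]
    simp
  simp [hσ, Matrix.conjTranspose_apply]

theorem star_ten (x : H →L[ℂ] H) : star (ten x) = ten (star x) := by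
  rw [ContinuousLinearMap.star_eq_adjoint]
  refine ((ContinuousLinearMap.eq_adjoint_iff _ _).2 fun f g => ?_).symm
  rw [lp.inner_eq_tsum, lp.inner_eq_tsum]
  simp [ContinuousLinearMap.star_eq_adjoint, ContinuousLinearMap.adjoint_inner_left]

theorem ten_mul (x y : H →L[ℂ] H) : ten x * ten y = ten (x * y) :=
  ContinuousLinearMap.ext fun f => lp.ext (funext fun i => rfl)

theorem ten_siteOp (x : H →L[ℂ] H) (n : ℕ) (A : Matrix (Fin 4) (Fin 4) ℂ) :
    Commute (ten x) (siteOp n A) := by
  refine ContinuousLinearMap.ext fun f => lp.ext (funext fun i => ?_)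
  simp [mul_apply_eq_comp, siteOp_apply]

theorem put0_apply (v : H) : put0 v = lp.single 2 (0 : Idx) v := rfl

theorem ten_single (x : H →L[ℂ] H) (i : Idx) (v : H) :
    ten x (lp.single 2 i v) = lp.single 2 i (x v) := by
  refine lp.ext (funext fun j => ?_)
  rcases eq_or_ne j i with rfl | h <;> simp [lp.single_apply, *]

theorem siteOp_single (n : ℕ) (A : Matrix (Fin 4) (Fin 4) ℂ) (i : Idx) (v : H) :
    siteOp n A (lp.single 2 i v) = ∑ l, A l (i n) • lp.single 2 (i.update n l) v := by
  refine lp.ext (funext fun j => ?_)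
  rw [siteOp_apply, lp.coeFn_sum, Finset.sum_apply]
  simp only [lp.coeFn_smul, Pi.smul_apply, lp.single_apply]
  by_cases h : ∀ m, m ≠ n → j m = i m
  · have h1 : ∀ k, j.update n k = i ↔ k = i n := fun k =>
      ⟨fun e => by rw [← e]; simp, fun e => Finsupp.ext fun m => by
        rcases eq_or_ne m n with rfl | hm
        · simpa using e
        · simp [hm, h m hm]⟩
    have h2 : ∀ l, j = i.update n l ↔ l = j n := fun l =>
      ⟨fun e => by rw [e]; simp, fun e => Finsupp.ext fun m => by
        rcases eq_or_ne m n with rfl | hm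
        · simpa using e.symm
        · simp [hm, h m hm]⟩
    simp [Pi.single_apply, h1, h2, smul_ite]
  · have h1 : ∀ k, j.update n k ≠ i := fun k e => h fun m hm => by rw [← e]; simp [hm]
    have h2 : ∀ l, j ≠ i.update n l := fun l e => h fun m hm => by rw [e]; simp [hm]
    simp [Pi.single_apply, h1, h2]

/-- The vectors supported in the states in which the site `n` is at its vector. -/
def AtRest (n : ℕ) (v : AmbH H) : Prop := ∀ i : Idx, i n ≠ 0 → v i = 0

/-- The vectors at rest at all late sites. -/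
def locVecs : Submodule ℂ (AmbH H) where
  carrier := {v | ∀ᶠ n in atTop, AtRest n v}
  add_mem' {u v} hu hv := by
    filter_upwards [hu, hv] with n h1 h2 i hi
    simp [h1 i hi, h2 i hi]
  zero_mem' := Eventually.of_forall fun n i _ => rfl
  smul_mem' c {v} hv := by
    filter_upwards [hv] with n h1 i hi
    simp [h1 i hi]

theorem single_mem_locVecs (i : Idx) (v : H) : lp.single 2 i v ∈ locVecs (H := H) := by
  refine eventually_atTop.2 ⟨i.support.sup id + 1, fun n hn j hj => ?_⟩
  have h : i n = 0 := by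
    by_contra hne
    have := Finset.le_sup (f := id) (Finsupp.mem_support_iff.2 hne)
    simp only [id] at this
    omega
  rw [lp.single_apply, Pi.single_apply, if_neg fun e => hj (by rw [e, h])]

/-- A submodule containing every single vector is dense. -/
theorem dense_of_single (W : Submodule ℂ (AmbH H))
    (h : ∀ i v, lp.single 2 i v ∈ W.topologicalClosure) : Dense (W : Set (AmbH H)) := by
  intro f
  rw [← Submodule.topologicalClosure_coe]
  exact W.isClosed_topologicalClosure.mem_of_tendsto (lp.hasSum_single (by simp) f)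
    (Eventually.of_forall fun F => sum_mem fun i _ => h i _)

theorem dense_locVecs : Dense (locVecs (H := H) : Set (AmbH H)) :=
  dense_of_single _ fun i v => Submodule.le_topologicalClosure _ (single_mem_locVecs i v)

/-- At rest only the first column of a site matrix counts. -/
theorem siteOp_atRest {n : ℕ} {v : AmbH H} (hv : AtRest n v) (A : Matrix (Fin 4) (Fin 4) ℂ)
    (i : Idx) : siteOp n A v i = A (i n) 0 • v (i.update n 0) := by
  rw [siteOp_apply]
  exact Finset.sum_eq_single 0 (fun k _ hk => by rw [hv _ (by simpa using hk), smul_zero]) (by simp)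

theorem inner_siteOp_atRest {n : ℕ} {v : AmbH H} (hv : AtRest n v)
    (A : Matrix (Fin 4) (Fin 4) ℂ) : ⟪v, siteOp n A v⟫_ℂ = A 0 0 * ⟪v, v⟫_ℂ := by
  rw [lp.inner_eq_tsum, lp.inner_eq_tsum, ← tsum_mul_left]
  refine tsum_congr fun i => ?_
  rw [siteOp_atRest hv]
  by_cases h : i n = 0
  · have e : i.update n 0 = i := Finsupp.ext fun m => by
      rcases eq_or_ne m n with rfl | hm <;> simp [*]
    rw [h, e, inner_smul_right]
  · simp [hv i h]

/-! ### The two factors of a site -/

/-- A two by two matrix on the first factor of a site, in the product basis `00, 01, 10, 11`. -/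
def leftMat (a : Matrix (Fin 2) (Fin 2) ℂ) : Matrix (Fin 4) (Fin 4) ℂ :=
  !![a 0 0, 0, a 0 1, 0; 0, a 0 0, 0, a 0 1; a 1 0, 0, a 1 1, 0; 0, a 1 0, 0, a 1 1]

/-- A two by two matrix on the second factor of a site. -/
def rightMat (a : Matrix (Fin 2) (Fin 2) ℂ) : Matrix (Fin 4) (Fin 4) ℂ :=
  !![a 0 0, a 0 1, 0, 0; a 1 0, a 1 1, 0, 0; 0, 0, a 0 0, a 0 1; 0, 0, a 1 0, a 1 1]

/-- The site basis in product coordinates; the first vector has the coordinates `w 0, w 1` on the
diagonal states. -/
noncomputable def siteBasis (w : Fin 2 → ℝ) : Matrix (Fin 4) (Fin 4) ℂ :=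
  !![(w 0 : ℂ), 0, 0, (w 1 : ℂ); 0, 1, 0, 0; 0, 0, 1, 0; (w 1 : ℂ), 0, 0, -(w 0 : ℂ)]

theorem siteBasis_sq {w : Fin 2 → ℝ} (hw : w 0 ^ 2 + w 1 ^ 2 = 1) :
    siteBasis w * siteBasis w = 1 := by
  have h : (w 0 : ℂ) ^ 2 + (w 1 : ℂ) ^ 2 = 1 := by exact_mod_cast hw
  ext i j
  fin_cases i <;> fin_cases j <;>
    simp [siteBasis, Matrix.mul_apply, Fin.sum_univ_four, ← sq] <;>
    first | linear_combination h | ring

theorem siteBasis_star (w : Fin 2 → ℝ) : (siteBasis w)ᴴ = siteBasis w := by
  ext i j
  fin_cases i <;> fin_cases j <;> simp [siteBasis, Matrix.conjTranspose_apply]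

theorem leftMat_mul (a b : Matrix (Fin 2) (Fin 2) ℂ) :
    leftMat a * leftMat b = leftMat (a * b) := by
  ext i j
  fin_cases i <;> fin_cases j <;> simp [leftMat, Matrix.mul_apply, Fin.sum_univ_four]

theorem rightMat_mul (a b : Matrix (Fin 2) (Fin 2) ℂ) :
    rightMat a * rightMat b = rightMat (a * b) := by
  ext i j
  fin_cases i <;> fin_cases j <;> simp [rightMat, Matrix.mul_apply, Fin.sum_univ_four]

theorem leftMat_rightMat (a b : Matrix (Fin 2) (Fin 2) ℂ) :
    Commute (leftMat a) (rightMat b) := by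
  ext i j
  fin_cases i <;> fin_cases j <;>
    simp [leftMat, rightMat, Matrix.mul_apply, Fin.sum_univ_four] <;> ring

theorem leftMat_one : leftMat 1 = 1 := by
  ext i j
  fin_cases i <;> fin_cases j <;> simp [leftMat]

theorem leftMat_add (a b : Matrix (Fin 2) (Fin 2) ℂ) :
    leftMat (a + b) = leftMat a + leftMat b := by
  ext i j
  fin_cases i <;> fin_cases j <;> simp [leftMat]

theorem leftMat_zero : leftMat 0 = 0 := by
  ext i j
  fin_cases i <;> fin_cases j <;> simp [leftMat]

theorem leftMat_star (a : Matrix (Fin 2) (Fin 2) ℂ) : (leftMat a)ᴴ = leftMat aᴴ := by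
  ext i j
  fin_cases i <;> fin_cases j <;> simp [leftMat, Matrix.conjTranspose_apply]

theorem rightMat_star (a : Matrix (Fin 2) (Fin 2) ℂ) : (rightMat a)ᴴ = rightMat aᴴ := by
  ext i j
  fin_cases i <;> fin_cases j <;> simp [rightMat, Matrix.conjTranspose_apply]

/-- The matrix `a` in the algebra of a site with weights `w`, at the site `n`. -/
noncomputable def leftSite (w : Fin 2 → ℝ) (n : ℕ) (a : Matrix (Fin 2) (Fin 2) ℂ) :
    AmbH H →L[ℂ] AmbH H :=
  siteOp n (siteBasis w * leftMat a * siteBasis w)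

/-- The matrix `a` in the commutant of the algebra of the site. -/
noncomputable def rightSite (w : Fin 2 → ℝ) (n : ℕ) (a : Matrix (Fin 2) (Fin 2) ℂ) :
    AmbH H →L[ℂ] AmbH H :=
  siteOp n (siteBasis w * rightMat a * siteBasis w)

theorem conj_mul {w : Fin 2 → ℝ} (hw : w 0 ^ 2 + w 1 ^ 2 = 1) (X Y : Matrix (Fin 4) (Fin 4) ℂ) :
    siteBasis w * X * siteBasis w * (siteBasis w * Y * siteBasis w)
      = siteBasis w * (X * Y) * siteBasis w := by
  simp only [Matrix.mul_assoc]
  rw [← Matrix.mul_assoc (siteBasis w) (siteBasis w), siteBasis_sq hw, Matrix.one_mul]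

theorem leftSite_mul {w : Fin 2 → ℝ} (hw : w 0 ^ 2 + w 1 ^ 2 = 1) (n : ℕ)
    (a b : Matrix (Fin 2) (Fin 2) ℂ) :
    leftSite (H := H) w n a * leftSite w n b = leftSite w n (a * b) := by
  rw [leftSite, leftSite, siteOp_mul, conj_mul hw, leftMat_mul, leftSite]

theorem star_leftSite (w : Fin 2 → ℝ) (n : ℕ) (a : Matrix (Fin 2) (Fin 2) ℂ) :
    star (leftSite (H := H) w n a) = leftSite w n aᴴ := by
  rw [leftSite, star_siteOp, leftSite, Matrix.conjTranspose_mul, Matrix.conjTranspose_mul,
    siteBasis_star, leftMat_star, Matrix.mul_assoc]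

theorem star_rightSite (w : Fin 2 → ℝ) (n : ℕ) (a : Matrix (Fin 2) (Fin 2) ℂ) :
    star (rightSite (H := H) w n a) = rightSite w n aᴴ := by
  rw [rightSite, star_siteOp, rightSite, Matrix.conjTranspose_mul, Matrix.conjTranspose_mul,
    siteBasis_star, rightMat_star, Matrix.mul_assoc]

theorem leftSite_rightSite {w : ℕ → Fin 2 → ℝ} (hw : ∀ n, w n 0 ^ 2 + w n 1 ^ 2 = 1) (n m : ℕ)
    (a b : Matrix (Fin 2) (Fin 2) ℂ) :
    Commute (leftSite (H := H) (w n) n a) (rightSite (w m) m b) := by
  rcases eq_or_ne n m with rfl | h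
  · rw [commute_iff_eq, leftSite, rightSite, siteOp_mul, siteOp_mul, conj_mul (hw n),
      conj_mul (hw n), (leftMat_rightMat a b).eq]
  · exact siteOp_comm h _ _

/-! ### The stabilisation -/

/-- The ratio of the family `i`: family `0` is tracial, the others run over the positive
rationals. -/
noncomputable def famRatio : ℕ → ℝ
  | 0 => 1
  | i + 1 => if 0 < ((Encodable.decode (α := ℚ) i).getD 1) then
      (((Encodable.decode (α := ℚ) i).getD 1 : ℚ) : ℝ) else 1

theorem famRatio_pos : ∀ i, 0 < famRatio i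
  | 0 => one_pos
  | i + 1 => by
    simp only [famRatio]
    split_ifs with h
    · exact_mod_cast h
    · exact one_pos

/-- The weights of the family `i`. -/
noncomputable def famW (i : ℕ) : Fin 2 → ℝ :=
  ![(Real.sqrt (1 + famRatio i ^ 2))⁻¹, famRatio i * (Real.sqrt (1 + famRatio i ^ 2))⁻¹]

theorem famW_pos (i : ℕ) (a : Fin 2) : 0 < famW i a := by
  have h1 := famRatio_pos i
  have h2 : 0 < (Real.sqrt (1 + famRatio i ^ 2))⁻¹ := by positivity
  fin_cases a <;> simp [famW] <;> positivity

theorem famW_sq (i : ℕ) : famW i 0 ^ 2 + famW i 1 ^ 2 = 1 := by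
  have h : (0 : ℝ) < 1 + famRatio i ^ 2 := by positivity
  simp only [famW, Matrix.cons_val_zero, Matrix.cons_val_one, Matrix.cons_val_fin_one]
  rw [mul_pow, inv_pow, Real.sq_sqrt h.le]
  field_simp

theorem famW_zero : famW 0 0 = famW 0 1 := by simp [famW, famRatio]

theorem famW_ratio (i : ℕ) : famW i 1 / famW i 0 = famRatio i := by
  have h : 0 < (Real.sqrt (1 + famRatio i ^ 2))⁻¹ := by positivity
  simp only [famW, Matrix.cons_val_zero, Matrix.cons_val_one, Matrix.cons_val_fin_one]
  field_simp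

theorem famW_levels (κ : ℝ) (hκ : 0 < κ) (ε : ℝ) (hε : 0 < ε) :
    ∃ i, |famW i 1 / famW i 0 - κ| < ε := by
  obtain ⟨q, h1, h2⟩ := exists_rat_btwn (show max 0 (κ - ε) < κ + ε by
    rw [max_lt_iff]; constructor <;> linarith)
  rw [max_lt_iff] at h1
  refine ⟨Encodable.encode q + 1, ?_⟩
  have hq : (0 : ℚ) < q := by exact_mod_cast h1.1
  rw [famW_ratio, famRatio, Encodable.encodek, Option.getD_some, if_pos hq, abs_lt]
  constructor <;> linarith [h1.2]

/-- The weights of the site `n`, which is slot `n.unpair.2` of the family `n.unpair.1`. -/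
noncomputable def siteW (n : ℕ) : Fin 2 → ℝ := famW n.unpair.1

/-- The stabilised algebra. -/
noncomputable def amb (M : VonNeumannAlgebra H) : VonNeumannAlgebra (AmbH H) where
  toStarSubalgebra := StarSubalgebra.centralizer ℂ
    (ten '' (M.commutant : Set (H →L[ℂ] H)) ∪
      Set.range fun p : ℕ × Matrix (Fin 2) (Fin 2) ℂ => rightSite (siteW p.1) p.1 p.2)
  centralizer_centralizer' := by simp

end Vale.Agent.P096.Cent
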