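import Vale.Agent.P096.Cent.Central
import Vale.Agent.P096.Cent.Site
import Vale.Agent.P096.Cent.Blocks
import Vale.Agent.P132.Tomita.Main

/-!
P096: the stabilised algebra has slots: every element with moduli is central there and it has
tracial slots in the centralizer.
-/

open scoped InnerProductSpace
open Filter Topology
open Vale.Agent.P132.Tomita (conjBy Modular CycSep opT fT)
open VP132 (rho IsStandardVector)

namespace Vale.Agent.P096.Cent

variable {H : Type} [NormedAddCommGroup H] [InnerProductSpace ℂ H] [CompleteSpace H]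
variable {M : VonNeumannAlgebra H} {ξ : H}

/-! ### Recognising the mirror of an eigen operator -/

theorem opT_inj {R : H →L[ℂ] H} {J : H ≃ₗᵢ⋆[ℂ] H} {U : ℝ → H →L[ℂ] H} (hm : Modular M ξ R J U)
    {v : H} (hv : opT R v = 0) : v = 0 := by
  have hz : ∀ x, ⟪v, opT R x⟫_ℂ = 0 := fun x => by
    have hs : star (opT R) = opT R := (cfc_predicate fT R).star_eq
    rw [← ContinuousLinearMap.adjoint_inner_left, ← ContinuousLinearMap.star_eq_adjoint, hs, hv,
      inner_zero_left]
  exact inner_self_eq_zero.1 (DenseRange.induction_on (p := fun x => ⟪v, x⟫_ℂ = 0) hm.dense_T v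
    (isClosed_eq (continuous_const.inner continuous_id) continuous_const) hz)

/-- An element of the commutant that acts at `ξ` as a multiple of `e`, with adjoint acting as the
inverse multiple of `star e`, is the mirror of `e`. -/
theorem rho_eq_of_mirror {R : H →L[ℂ] H} {J : H ≃ₗᵢ⋆[ℂ] H} {U : ℝ → H →L[ℂ] H}
    (hm : Modular M ξ R J U) (hd : Dense {v : H | ∃ x ∈ M, x ξ = v}) {e y : H →L[ℂ] H}
    (he : e ∈ M) (hy : y ∈ M.commutant) {μ : ℝ} (hμ : 0 < μ) (h1 : y ξ = (μ : ℂ) • e ξ)
    (h2 : star y ξ = ((μ⁻¹ : ℝ) : ℂ) • star e ξ) :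
    rho J e = y ∧ rho J e ξ = (μ : ℂ) • e ξ := by
  have hμ0 : (μ : ℂ) ≠ 0 := Complex.ofReal_ne_zero.2 hμ.ne'
  set w := e ξ with hw
  set v := star e ξ with hv
  have hxM : conjBy J y ∈ M := hm.conj_mem' y hy
  have e1 : conjBy J y ξ = J (y ξ) := by rw [VP132.Row.conjBy_apply, hm.J_xi]
  have e2 : star (conjBy J y) ξ = J (star y ξ) := by
    rw [VP132.Row.star_conjBy J hm.J_J, VP132.Row.conjBy_apply, hm.J_xi]
  have hS := hm.S_eq _ hxM
  rw [e1, e2, ← hm.J_R, hm.J_J, h1, h2, LinearIsometryEquiv.map_smulₛₗ, Complex.conj_ofReal,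
    map_smul, map_smul] at hS
  have hTJ : opT R (J v) = (2 : ℂ) • w - R w := by
    rw [← hm.J_T, ← hm.S_eq e he, hm.J_J]
  have h3 : opT R (J v) = ((μ ^ 2 : ℝ) : ℂ) • R w := by
    have := congrArg (fun z => (μ : ℂ) • z) hS
    simp only [smul_smul, ← Complex.ofReal_mul, mul_inv_cancel₀ hμ.ne', Complex.ofReal_one,
      one_smul] at this
    rw [← this, ← sq]
  set r := 2 / (1 + μ ^ 2) with hr
  have hR : R w = (r : ℂ) • w := by
    have h4 : ((1 + μ ^ 2 : ℝ) : ℂ) • R w = (2 : ℂ) • w := by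
      rw [Complex.ofReal_add, Complex.ofReal_one, add_smul, one_smul, ← h3, hTJ]
      abel
    have hd0 : (1 + μ ^ 2 : ℝ) ≠ 0 := by positivity
    refine smul_right_injective H (Complex.ofReal_ne_zero.2 hd0) ?_
    show _ • R w = _ • ((r : ℂ) • w)
    rw [h4, smul_smul, ← Complex.ofReal_mul, hr, mul_div_cancel₀ _ hd0]
    norm_num
  have hrI : r ∈ Set.Icc (0 : ℝ) 2 :=
    ⟨by positivity, (div_le_iff₀ (by positivity)).2 (by nlinarith [sq_nonneg μ])⟩
  have hfr : fT r = μ * r := by
    rw [fT, show r * (2 - r) = (μ * r) ^ 2 by rw [hr]; field_simp; ring,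
      Real.sqrt_sq (by positivity)]
  have hTw : opT R w = ((μ * r : ℝ) : ℂ) • w :=
    hfr ▸ cfc_eigen hm VP132.continuous_fT' hrI hR
  have hJv : J v = (μ : ℂ) • w := by
    refine sub_eq_zero.1 (opT_inj hm ?_)
    rw [map_sub, map_smul, h3, hR, hTw, smul_smul, smul_smul, sub_eq_zero]
    congr 1
    push_cast
    ring
  have hrho : rho J e ξ = (μ : ℂ) • w := (VP132.Fixed.rho_xi hm e).trans hJv
  refine ⟨?_, hrho⟩
  have hz : rho J e - y ∈ M.commutant := sub_mem (hm.conj_mem _ (star_mem he)) hy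
  refine sub_eq_zero.1 (ContinuousLinearMap.ext fun z => congrFun
    (Continuous.ext_on hd (rho J e - y).continuous continuous_const (g := fun _ => 0) ?_) z)
  rintro _ ⟨x, hx, rfl⟩
  show (rho J e - y) (x ξ) = 0
  rw [← commutant_apply hx hz, sub_apply, hrho, h1, sub_self, map_zero]

/-! ### The stabilised algebra -/

theorem mem_amb {x : AmbH H →L[ℂ] AmbH H} :
    x ∈ amb M ↔ ∀ g ∈ ten '' (M.commutant : Set (H →L[ℂ] H)) ∪
      Set.range (fun p : ℕ × Matrix (Fin 2) (Fin 2) ℂ => rightSite (siteW p.1) p.1 p.2),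
        g * x = x * g ∧ star g * x = x * star g :=
  StarSubalgebra.mem_centralizer_iff ℂ

theorem ten_mem_amb {x : H →L[ℂ] H} (hx : x ∈ M) : ten x ∈ amb M := by
  refine mem_amb.2 ?_
  rintro _ (⟨b, hb, rfl⟩ | ⟨p, rfl⟩)
  · refine ⟨?_, ?_⟩
    · rw [ten_mul, ten_mul, (VonNeumannAlgebra.mem_commutant_iff.1 hb x hx)]
    · rw [star_ten, ten_mul, ten_mul, VonNeumannAlgebra.mem_commutant_iff.1 (star_mem hb) x hx]
  · exact ⟨(ten_siteOp x _ _).eq.symm, by rw [star_rightSite]; exact (ten_siteOp x _ _).eq.symm⟩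

theorem leftSite_mem_amb (n : ℕ) (a : Matrix (Fin 2) (Fin 2) ℂ) :
    leftSite (siteW n) n a ∈ amb M := by
  refine mem_amb.2 ?_
  rintro _ (⟨b, _, rfl⟩ | ⟨p, rfl⟩)
  · exact ⟨(ten_siteOp b _ _).eq, by rw [star_ten]; exact (ten_siteOp _ _ _).eq⟩
  · have hw : ∀ m, siteW m 0 ^ 2 + siteW m 1 ^ 2 = 1 := fun m => famW_sq _
    exact ⟨(leftSite_rightSite hw _ _ _ _).eq.symm,
      by rw [star_rightSite]; exact (leftSite_rightSite hw _ _ _ _).eq.symm⟩

theorem rightSite_mem_commutant (n : ℕ) (a : Matrix (Fin 2) (Fin 2) ℂ) :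
    rightSite (siteW n) n a ∈ (amb M).commutant :=
  VonNeumannAlgebra.mem_commutant_iff.2 fun _ hg =>
    ((mem_amb.1 hg) _ (Or.inr ⟨(n, a), rfl⟩)).1.symm

theorem ten_mem_commutant {b : H →L[ℂ] H} (hb : b ∈ M.commutant) :
    ten b ∈ (amb M).commutant :=
  VonNeumannAlgebra.mem_commutant_iff.2 fun _ hg =>
    ((mem_amb.1 hg) _ (Or.inl ⟨b, hb, rfl⟩)).1.symm

theorem norm_put0 (v : H) : ‖put0 v‖ = ‖v‖ := by
  rw [put0_apply]
  exact lp.norm_single (E := fun _ : Idx => H) (p := 2) (by norm_num) (0 : Idx) v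

theorem put0_atRest (v : H) (n : ℕ) : AtRest n (put0 v) := by
  intro i hi
  rw [put0_apply, lp.single_apply, Pi.single_apply, if_neg fun e => hi (by rw [e]; rfl)]

/-- An algebra with enough site operators has the product vectors in a dense orbit. -/
theorem dense_orbit {A : VonNeumannAlgebra (AmbH H)} {ξ : H}
    (h0 : Dense {v : H | ∃ x ∈ A, x (put0 ξ) = put0 v})
    (hcol : ∀ n k, ∃ C, siteOp n C ∈ A ∧ ∀ l : Fin 4, C l 0 = if l = k then 1 else 0) :
    Dense {v : AmbH H | ∃ x ∈ A, x (put0 ξ) = v} := by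
  let W : Submodule ℂ (AmbH H) :=
    { carrier := {v | ∃ x ∈ A, x (put0 ξ) = v}
      add_mem' := by
        rintro _ _ ⟨x, hx, rfl⟩ ⟨y, hy, rfl⟩
        exact ⟨x + y, add_mem hx hy, add_apply _ _ _⟩
      zero_mem' := ⟨0, zero_mem A, zero_apply _⟩
      smul_mem' := by
        rintro c _ ⟨x, hx, rfl⟩
        exact ⟨c • x, VP132.Fixed.smul_mem_vn c hx, smul_apply _ _ _⟩ }
  refine dense_of_single W fun i => ?_
  induction i using Finsupp.induction with
  | zero =>
    intro v
    refine W.isClosed_topologicalClosure.closure_subset_iff.2 ?_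
      (image_closure_subset_closure_image (put0 (H := H)).continuous ⟨v, h0 v, rfl⟩)
    rintro _ ⟨u, hu, rfl⟩
    exact W.le_topologicalClosure hu
  | single_add n k f hn hk ih =>
    intro v
    obtain ⟨C, hC, hcl⟩ := hcol n k
    have hf : f n = 0 := Finsupp.notMem_support_iff.1 hn
    have e : siteOp n C (lp.single 2 f v) = lp.single 2 (Finsupp.single n k + f) v := by
      rw [siteOp_single, hf]
      simp only [hcl, ite_smul, one_smul, zero_smul, Finset.sum_ite_eq', Finset.mem_univ, if_true]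
      congr 1
      refine Finsupp.ext fun m => ?_
      rcases eq_or_ne m n with rfl | hm <;> simp [*]
    rw [← e]
    have ih' : lp.single 2 f v ∈ closure (W : Set (AmbH H)) := by
      rw [← Submodule.topologicalClosure_coe]; exact ih v
    refine W.isClosed_topologicalClosure.closure_subset_iff.2 ?_
      (image_closure_subset_closure_image (siteOp n C).continuous
        ⟨_, ih', rfl⟩)
    rintro _ ⟨u, ⟨x, hx, rfl⟩, rfl⟩
    exact W.le_topologicalClosure ⟨siteOp n C * x, mul_mem hC hx, mul_apply_eq_comp _ _ _⟩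

theorem exists_leftCol {w : Fin 2 → ℝ} (h0 : 0 < w 0) (h1 : 0 < w 1)
    (hw : w 0 ^ 2 + w 1 ^ 2 = 1) (k : Fin 4) : ∃ a : Matrix (Fin 2) (Fin 2) ℂ, ∀ l,
      (siteBasis w * leftMat a * siteBasis w) l 0 = if l = k then 1 else 0 := by
  refine ⟨!![siteBasis w 0 k / w 0, siteBasis w 1 k / w 1; siteBasis w 2 k / w 0,
    siteBasis w 3 k / w 1], fun l => ?_⟩
  set a : Matrix (Fin 2) (Fin 2) ℂ := !![siteBasis w 0 k / w 0, siteBasis w 1 k / w 1;
    siteBasis w 2 k / w 0, siteBasis w 3 k / w 1] with ha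
  have h00 : (w 0 : ℂ) ≠ 0 := Complex.ofReal_ne_zero.2 h0.ne'
  have h11 : (w 1 : ℂ) ≠ 0 := Complex.ofReal_ne_zero.2 h1.ne'
  have e : ∀ m, (leftMat a * siteBasis w) m 0 = siteBasis w m k := fun m => by
    rw [Matrix.mul_apply]
    fin_cases m <;> simp [ha, leftMat, siteBasis, Fin.sum_univ_four, h00, h11]
  rw [Matrix.mul_assoc, Matrix.mul_apply]
  simp only [e]
  rw [← Matrix.mul_apply, siteBasis_sq hw, Matrix.one_apply]

theorem exists_rightCol {w : Fin 2 → ℝ} (h0 : 0 < w 0) (h1 : 0 < w 1)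
    (hw : w 0 ^ 2 + w 1 ^ 2 = 1) (k : Fin 4) : ∃ a : Matrix (Fin 2) (Fin 2) ℂ, ∀ l,
      (siteBasis w * rightMat a * siteBasis w) l 0 = if l = k then 1 else 0 := by
  refine ⟨!![siteBasis w 0 k / w 0, siteBasis w 2 k / w 1; siteBasis w 1 k / w 0,
    siteBasis w 3 k / w 1], fun l => ?_⟩
  set a : Matrix (Fin 2) (Fin 2) ℂ := !![siteBasis w 0 k / w 0, siteBasis w 2 k / w 1;
    siteBasis w 1 k / w 0, siteBasis w 3 k / w 1] with ha
  have h00 : (w 0 : ℂ) ≠ 0 := Complex.ofReal_ne_zero.2 h0.ne'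
  have h11 : (w 1 : ℂ) ≠ 0 := Complex.ofReal_ne_zero.2 h1.ne'
  have e : ∀ m, (rightMat a * siteBasis w) m 0 = siteBasis w m k := fun m => by
    rw [Matrix.mul_apply]
    fin_cases m <;> simp [ha, rightMat, siteBasis, Fin.sum_univ_four, h00, h11]
  rw [Matrix.mul_assoc, Matrix.mul_apply]
  simp only [e]
  rw [← Matrix.mul_apply, siteBasis_sq hw, Matrix.one_apply]

theorem siteW_pos (n : ℕ) (a : Fin 2) : 0 < siteW n a := famW_pos _ a

theorem siteW_sq (n : ℕ) : siteW n 0 ^ 2 + siteW n 1 ^ 2 = 1 := famW_sq _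

/-- The product vector is cyclic and separating for the stabilised algebra. -/
theorem cycSep_amb (h : CycSep M ξ) : CycSep (amb M) (put0 ξ) := by
  have hten : ∀ x, ten x (put0 ξ) = put0 (x ξ) := fun x => by
    rw [put0_apply, put0_apply, ten_single]
  have hcyc : Dense {v : AmbH H | ∃ x ∈ amb M, x (put0 ξ) = v} := by
    refine dense_orbit (h.cyclic.mono ?_) fun n k => ?_
    · rintro _ ⟨x, hx, rfl⟩
      exact ⟨ten x, ten_mem_amb hx, hten x⟩
    · obtain ⟨a, ha⟩ := exists_leftCol (siteW_pos n 0) (siteW_pos n 1) (siteW_sq n) k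
      exact ⟨_, leftSite_mem_amb n a, ha⟩
  refine ⟨hcyc, fun x hx hx0 => ?_⟩
  have hcom : Dense {v : AmbH H | ∃ y ∈ (amb M).commutant, y (put0 ξ) = v} := by
    refine dense_orbit (h.commutant_dense.mono ?_) fun n k => ?_
    · rintro _ ⟨y, hy, rfl⟩
      exact ⟨ten y, ten_mem_commutant hy, hten y⟩
    · obtain ⟨a, ha⟩ := exists_rightCol (siteW_pos n 0) (siteW_pos n 1) (siteW_sq n) k
      exact ⟨_, rightSite_mem_commutant n a, ha⟩
  refine ContinuousLinearMap.ext fun v => congrFun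
    (Continuous.ext_on hcom x.continuous continuous_const (g := fun _ => 0) ?_) v
  rintro _ ⟨y, hy, rfl⟩
  show x (y (put0 ξ)) = 0
  rw [commutant_apply hx hy, hx0, map_zero]

/-! ### The slots -/

/-- The slot `j` of the family `i`. -/
noncomputable def slot (i j : ℕ) (a b : Fin 2) : AmbH H →L[ℂ] AmbH H :=
  leftSite (famW i) (Nat.pair i j) (Matrix.single a b 1)

/-- Its mirror. -/
noncomputable def mirror (i j : ℕ) (a b : Fin 2) : AmbH H →L[ℂ] AmbH H :=
  rightSite (famW i) (Nat.pair i j) (Matrix.single b a 1)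

theorem siteW_pair (i j : ℕ) : siteW (Nat.pair i j) = famW i := by rw [siteW, Nat.unpair_pair]

theorem slot_mem (i j : ℕ) (a b : Fin 2) : slot i j a b ∈ amb M := by
  rw [slot, ← siteW_pair i j]; exact leftSite_mem_amb _ _

theorem mirror_mem (i j : ℕ) (a b : Fin 2) : mirror i j a b ∈ (amb M).commutant := by
  rw [mirror, ← siteW_pair i j]; exact rightSite_mem_commutant _ _

theorem star_slot (i j : ℕ) (a b : Fin 2) : star (slot (H := H) i j a b) = slot i j b a := by
  rw [slot, star_leftSite, slot, Matrix.conjTranspose_single, star_one]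

theorem star_mirror (i j : ℕ) (a b : Fin 2) : star (mirror (H := H) i j a b) = mirror i j b a := by
  rw [mirror, star_rightSite, mirror, Matrix.conjTranspose_single, star_one]

theorem slot_mul (i j : ℕ) (a b c d : Fin 2) :
    slot (H := H) i j a b * slot i j c d = if b = c then slot i j a d else 0 := by
  rw [slot, slot, leftSite_mul (famW_sq i)]
  split_ifs with h
  · subst h
    rw [Matrix.single_mul_single_same, one_mul, slot]
  · rw [Matrix.single_mul_single_of_ne (h := h), leftSite, leftMat_zero, Matrix.mul_zero,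
      Matrix.zero_mul, siteOp_zero]

theorem slot_sum (i j : ℕ) : slot (H := H) i j 0 0 + slot i j 1 1 = 1 := by
  rw [slot, slot, leftSite, leftSite, ← siteOp_add, ← Matrix.add_mul, ← Matrix.mul_add,
    ← leftMat_add]
  have e : Matrix.single (0 : Fin 2) (0 : Fin 2) (1 : ℂ) + Matrix.single 1 1 1 = 1 := by
    ext p q; fin_cases p <;> fin_cases q <;> simp
  rw [e, leftMat_one, Matrix.mul_one, siteBasis_sq (famW_sq i), siteOp_one]

theorem slot_comm (i j i' j' : ℕ) (a b c d : Fin 2) (h : (i, j) ≠ (i', j')) :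
    Commute (slot (H := H) i j a b) (slot i' j' c d) :=
  siteOp_comm (fun e => h (by simpa using congrArg Nat.unpair e)) _ _

theorem norm_slot_le (i j : ℕ) (a b : Fin 2) : ‖slot (H := H) i j a b‖ ≤ 1 := by
  have h : ‖slot (H := H) i j a b‖ * ‖slot (H := H) i j a b‖ = ‖slot (H := H) i j b b‖ := by
    rw [← CStarRing.norm_star_mul_self, star_slot, slot_mul, if_pos rfl]
  have h2 := VP132.Fixed.le_one_of_proj (star_slot (H := H) i j b b) (by rw [slot_mul, if_pos rfl])
  nlinarith [norm_nonneg (slot (H := H) i j a b)]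

/-- At rest the mirror is the multiple `w a / w b` of the slot. -/
theorem mirror_atRest (i j : ℕ) (a b : Fin 2) {v : AmbH H} (hv : AtRest (Nat.pair i j) v) :
    mirror i j a b v = ((famW i a / famW i b : ℝ) : ℂ) • slot i j a b v := by
  rw [slot, leftSite, ← smul_apply, ← siteOp_smul, mirror, rightSite]
  refine lp.ext (funext fun p => ?_)
  rw [siteOp_atRest hv, siteOp_atRest hv]
  congr 1
  have e : ∀ m, (rightMat (Matrix.single b a 1) * siteBasis (famW i)) m 0
      = ((famW i a / famW i b : ℝ) : ℂ) * (leftMat (Matrix.single a b 1) * siteBasis (famW i)) m 0 := by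
    intro m
    have h0 : (famW i 0 : ℂ) ≠ 0 := Complex.ofReal_ne_zero.2 (famW_pos i 0).ne'
    have h1 : (famW i 1 : ℂ) ≠ 0 := Complex.ofReal_ne_zero.2 (famW_pos i 1).ne'
    rw [Matrix.mul_apply, Matrix.mul_apply]
    fin_cases a <;> fin_cases b <;> fin_cases m <;>
      simp [rightMat, leftMat, siteBasis, Fin.sum_univ_four, h0, h1]
  rw [Matrix.mul_assoc, Matrix.smul_apply, Matrix.mul_assoc, Matrix.mul_apply, Matrix.mul_apply,
    smul_eq_mul, Finset.mul_sum]
  exact Finset.sum_congr rfl fun m _ => by rw [e]; ring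

theorem norm_slot_atRest (i j : ℕ) (a : Fin 2) {v : AmbH H} (hv : AtRest (Nat.pair i j) v) :
    ‖slot i j a a v‖ = famW i a * ‖v‖ := by
  rw [← pow_left_inj₀ (norm_nonneg _) (mul_nonneg (famW_pos i a).le (norm_nonneg _)) two_ne_zero]
  rw [ContinuousLinearMap.apply_norm_sq_eq_inner_adjoint_right,
    ← ContinuousLinearMap.star_eq_adjoint]
  show RCLike.re ⟪v, (star (slot (H := H) i j a a) * slot (H := H) i j a a : AmbH H →L[ℂ] AmbH H) v⟫_ℂ = _
  rw [star_slot, slot_mul, if_pos rfl, slot, leftSite, inner_siteOp_atRest hv,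
    inner_self_eq_norm_sq_to_K, mul_pow]
  have e : (siteBasis (famW i) * leftMat (Matrix.single a a 1) * siteBasis (famW i)) 0 0
      = ((famW i a ^ 2 : ℝ) : ℂ) := by
    fin_cases a <;>
      simp [leftMat, siteBasis, Matrix.mul_apply, Fin.sum_univ_four] <;> ring
  rw [e, RCLike.re_to_complex]
  simp [← Complex.ofReal_mul, ← Complex.ofReal_pow]

theorem tendsto_pair (i : ℕ) : Tendsto (Nat.pair i) atTop atTop :=
  tendsto_atTop_mono (fun j => Nat.right_le_pair i j) tendsto_id

section Data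

variable {R : AmbH H →L[ℂ] AmbH H} {J : AmbH H ≃ₗᵢ⋆[ℂ] AmbH H}
  {U : ℝ → AmbH H →L[ℂ] AmbH H}

theorem slot_eigen (hm : Modular (amb M) (put0 ξ) R J U)
    (hd : Dense {v : AmbH H | ∃ x ∈ amb M, x (put0 ξ) = v}) (i j : ℕ) (a b : Fin 2) :
    rho J (slot i j a b) = mirror i j a b ∧ rho J (slot i j a b) (put0 ξ)
      = ((famW i a / famW i b : ℝ) : ℂ) • slot i j a b (put0 ξ) := by
  refine rho_eq_of_mirror hm hd (slot_mem i j a b) (mirror_mem i j a b)
    (div_pos (famW_pos i a) (famW_pos i b)) (mirror_atRest i j a b (put0_atRest ξ _)) ?_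
  rw [star_mirror, star_slot, mirror_atRest i j b a (put0_atRest ξ _), inv_div]

theorem slot_central (hm : Modular (amb M) (put0 ξ) R J U)
    (hd : Dense {v : AmbH H | ∃ x ∈ amb M, x (put0 ξ) = v}) (i : ℕ) (a b : Fin 2) (v : AmbH H) :
    Tendsto (fun j => ((famW i a / famW i b : ℝ) : ℂ) • slot i j a b v - rho J (slot i j a b) v)
      atTop (𝓝 0) := by
  set μ := famW i a / famW i b with hμ
  have hμ0 : 0 < μ := div_pos (famW_pos i a) (famW_pos i b)
  refine tendsto_zero_of_dense (C := μ + 1)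
    (T := fun j => (μ : ℂ) • slot i j a b - rho J (slot i j a b)) (fun j z => ?_)
    dense_locVecs (fun z hz => ?_) (tendsto_const_nhds (x := v))
  · rw [sub_apply, smul_apply, add_one_mul]
    refine (norm_sub_le _ _).trans
      (add_le_add ?_ (VP132.Fixed.rho_apply_le (norm_slot_le (H := H) i j a b) z))
    rw [norm_smul, Complex.norm_real, Real.norm_of_nonneg hμ0.le]
    exact mul_le_mul_of_nonneg_left (VP132.Fixed.apply_le (norm_slot_le (H := H) i j a b) z) hμ0.le
  · refine tendsto_const_nhds.congr' ?_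
    filter_upwards [(tendsto_pair i).eventually hz] with j hj
    rw [(slot_eigen hm hd i j a b).1, sub_apply, smul_apply, mirror_atRest i j a b hj, sub_self]

theorem slot_weight (i : ℕ) (a : Fin 2) (v : AmbH H) :
    Tendsto (fun j => ‖slot i j a a v‖) atTop (𝓝 (famW i a * ‖v‖)) := by
  rw [Metric.tendsto_atTop]
  intro ε hε
  obtain ⟨z, hz, hzv⟩ := Metric.mem_closure_iff.1 (dense_locVecs (H := H) v) (ε / 3) (by positivity)
  rw [dist_eq_norm] at hzv
  obtain ⟨N, hN⟩ := eventually_atTop.1 ((tendsto_pair i).eventually hz)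
  refine ⟨N, fun j hj => ?_⟩
  have h1 : |‖slot i j a a v‖ - ‖slot i j a a z‖| ≤ ‖v - z‖ :=
    (abs_norm_sub_norm_le _ _).trans
      (by rw [← map_sub]; exact VP132.Fixed.apply_le (norm_slot_le (H := H) i j a a) _)
  rw [norm_slot_atRest i j a (hN j hj)] at h1
  have hw1 : famW i a ≤ 1 := by
    have := famW_sq i
    fin_cases a <;> simp only [Fin.zero_eta, Fin.mk_one] <;> nlinarith [famW_pos i 0, famW_pos i 1]
  have h2 : |famW i a * ‖z‖ - famW i a * ‖v‖| ≤ ‖v - z‖ := by
    rw [← mul_sub, abs_mul, abs_of_pos (famW_pos i a), abs_sub_comm]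
    exact (mul_le_of_le_one_left (abs_nonneg _) hw1).trans (abs_norm_sub_norm_le _ _)
  rw [Real.dist_eq]
  calc |‖slot i j a a v‖ - famW i a * ‖v‖| ≤ |‖slot i j a a v‖ - famW i a * ‖z‖|
        + |famW i a * ‖z‖ - famW i a * ‖v‖| := abs_sub_le _ _ _
    _ < ε := by linarith

/-- The slots of the stabilised algebra. -/
noncomputable def ambSlots (hm : Modular (amb M) (put0 ξ) R J U)
    (hd : Dense {v : AmbH H | ∃ x ∈ amb M, x (put0 ξ) = v}) : Slots (amb M) (put0 ξ) J where
  w := famW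
  e := slot
  w_pos := famW_pos
  w_sq := famW_sq
  w_zero := famW_zero
  levels := famW_levels
  mem := slot_mem
  star_e := star_slot
  e_mul := slot_mul
  e_sum := slot_sum
  comm := slot_comm
  eigen i j a b := (slot_eigen hm hd i j a b).2
  central := slot_central hm hd
  weight := slot_weight

/-- In the stabilised algebra every element with moduli is central. -/
theorem modCentral_amb (hm : Modular (amb M) (put0 ξ) R J U)
    (hs : IsStandardVector (AmbH H) (amb M) (put0 ξ)) : ModCentral (amb M) (put0 ξ) J :=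
  fun _ ha ha' y hy => (VonNeumannAlgebra.mem_commutant_iff.1
    ((ambSlots hm hs.2.1).central_of_hasMod hm hs ha ha') y hy).symm

/-- The family `0` consists of tracial slots. -/
theorem traceSlots_amb (hm : Modular (amb M) (put0 ξ) R J U)
    (hd : Dense {v : AmbH H | ∃ x ∈ amb M, x (put0 ξ) = v}) :
    TraceSlots (amb M) (put0 ξ) J (slot 0) := by
  have h1 : ∀ a b, famW 0 a / famW 0 b = 1 := fun a b => by
    fin_cases a <;> fin_cases b <;>
      simp [famW_zero, (famW_pos 0 1).ne']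
  refine ⟨fun j => ⟨slot_mem 0 j, slot_mul 0 j, star_slot 0 j,
    by rw [Fin.sum_univ_two]; exact slot_sum 0 j, fun a b => ?_⟩,
    fun i j a b c d hij => slot_comm 0 i 0 j a b c d (by simpa using hij), fun a b v => ?_⟩
  · simpa [h1] using (slot_eigen hm hd 0 j a b).2
  · simpa [h1] using slot_central hm hd 0 a b v

end Data

/-- The stabilisation of a cyclic separating unit vector: modular data, central moduli and tracial
slots in the centralizer. -/
theorem exists_amb_data (h : CycSep M ξ) (hξ : ‖ξ‖ = 1) :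
    ∃ R J U, Modular (amb M) (put0 ξ) R J U ∧ IsStandardVector (AmbH H) (amb M) (put0 ξ) ∧
      ModCentral (amb M) (put0 ξ) J ∧ TraceSlots (amb M) (put0 ξ) J (slot 0) := by
  have hc := cycSep_amb h
  have h1 : ‖put0 ξ‖ = 1 := (norm_put0 ξ).trans hξ
  obtain ⟨R, J, U, hm⟩ := Vale.Agent.P132.Tomita.exists_modular (amb M) (put0 ξ) hc h1
  have hs : IsStandardVector (AmbH H) (amb M) (put0 ξ) := ⟨h1, hc.cyclic, hc.separating⟩
  exact ⟨R, J, U, hm, hs, modCentral_amb hm hs, traceSlots_amb hm hc.cyclic⟩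

end Vale.Agent.P096.Cent
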