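import Vale.Agent.P096.Cent.Build
import Vale.Agent.P096.Three.Pinned

/-!
P096, type III: the centralizer data give a pinned standard vector.
-/

open scoped InnerProductSpace
open Filter Topology
open Vale.Agent.P132.Tomita (conjBy Modular)
open VP132 (rho)
open VP132.Fixed (rho_apply rho_mul rho_comm rho_apply_le apply_le norm_of_star_mul_self norm_rho_star)

set_option linter.unusedSectionVars false

namespace Vale.Agent.P096.Cent

open Vale.Agent.P104.Continuous
open Vale.Agent.P096 (Full.Reduce.Groups Full.Reduce.avg)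

variable {H : Type} [NormedAddCommGroup H] [InnerProductSpace ℂ H] [CompleteSpace H]
variable {M : VonNeumannAlgebra H} {ξ η : H} {R : H →L[ℂ] H} {J : H ≃ₗᵢ⋆[ℂ] H}
  {U : ℝ → H →L[ℂ] H} {Γ : ℕ → Type} [∀ k, Fintype (Γ k)] {g : ∀ k, Γ k → H →L[ℂ] H}

theorem avg_shift_right {G : Full.Reduce.Groups H} {m : ℕ} {k : H →L[ℂ] H} (hk : k ∈ G.G m)
    (f : (H →L[ℂ] H) → (H →L[ℂ] H)) :
    Full.Reduce.avg G m (fun h => f (h * k)) = Full.Reduce.avg G m f := by
  have hu := Unitary.mem_iff.1 (G.mem_unitary m k hk)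
  rw [Full.Reduce.avg, Full.Reduce.avg]
  congr 1
  refine Finset.sum_nbij' (fun h => h * k) (fun h => h * star k) ?_ ?_ ?_ ?_ ?_
  · exact fun h hh => G.mul_mem m h hh k hk
  · exact fun h hh => G.mul_mem m h hh _ (G.star_mem m k hk)
  · exact fun h _ => by simp only [mul_assoc, hu.2, mul_one]
  · exact fun h _ => by simp only [mul_assoc, hu.1, mul_one]
  · exact fun h _ => rfl

namespace CentralizerData

variable (D : CentralizerData M ξ J η Γ g)
include D

/-- The groups as sets of operators. -/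
noncomputable def groups : Full.Reduce.Groups H :=
  haveI := Classical.decEq (H →L[ℂ] H)
  { G := fun k => Finset.univ.image (g k)
    one_mem := fun k => by
      obtain ⟨i, hi⟩ := D.one k
      exact Finset.mem_image.2 ⟨i, Finset.mem_univ i, hi⟩
    mul_mem := fun k a ha b hb => by
      obtain ⟨i, -, rfl⟩ := Finset.mem_image.1 ha
      obtain ⟨j, -, rfl⟩ := Finset.mem_image.1 hb
      obtain ⟨l, hl⟩ := D.mul k i j
      exact Finset.mem_image.2 ⟨l, Finset.mem_univ l, hl⟩
    star_mem := fun k a ha => by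
      obtain ⟨i, -, rfl⟩ := Finset.mem_image.1 ha
      obtain ⟨l, hl⟩ := D.star_g k i
      exact Finset.mem_image.2 ⟨l, Finset.mem_univ l, hl⟩
    mem_unitary := fun k a ha => by
      obtain ⟨i, -, rfl⟩ := Finset.mem_image.1 ha
      exact Unitary.mem_iff.2 (D.unitary k i)
    mono := fun k l h a ha => by
      obtain ⟨i, -, rfl⟩ := Finset.mem_image.1 ha
      obtain ⟨j, hj⟩ := D.mono k l h i
      exact Finset.mem_image.2 ⟨j, Finset.mem_univ j, hj⟩ }

theorem mem_groups {k : ℕ} {a : H →L[ℂ] H} : a ∈ D.groups.G k ↔ ∃ i, g k i = a := by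
  simp [groups]

theorem avg_groups (k : ℕ) (x : H →L[ℂ] H) :
    Full.Reduce.avg D.groups k (fun h => h * x * star h) = conjAvg (fun i => star (g k i)) x := by
  obtain ⟨i₀, -⟩ := D.one k
  have : Nonempty (Γ k) := ⟨i₀⟩
  obtain ⟨B, hB⟩ : ∃ B, B = conjAvg (fun i => star (g k i)) x := ⟨_, rfl⟩
  have h1 : Full.Reduce.avg D.groups k (fun h => h * B * star h) = B := by
    rw [Full.Reduce.avg_congr (f' := fun _ => B) fun h hh => ?_, Full.Reduce.avg_const]
    obtain ⟨i, rfl⟩ := D.mem_groups.1 hh
    have hc : Commute B (g k i) := hB ▸ D.avg_commute k x i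
    rw [← hc.eq, mul_assoc, (D.unitary k i).2, mul_one]
  have h2 : Full.Reduce.avg D.groups k (fun h => h * B * star h)
      = Full.Reduce.avg D.groups k (fun h => h * x * star h) := by
    have h3 : ∀ i, Full.Reduce.avg D.groups k (fun h => h * (g k i * x * star (g k i)) * star h)
        = Full.Reduce.avg D.groups k (fun h => h * x * star h) := fun i => by
      refine Eq.trans (Full.Reduce.avg_congr fun h _ => ?_)
        (avg_shift_right (D.mem_groups.2 ⟨i, rfl⟩) fun h => h * x * star h)
      simp [star_mul, mul_assoc]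
    calc Full.Reduce.avg D.groups k (fun h => h * B * star h)
        = (Fintype.card (Γ k) : ℂ)⁻¹ • ∑ i,
            Full.Reduce.avg D.groups k (fun h => h * (g k i * x * star (g k i)) * star h) := by
          simp only [Full.Reduce.avg, hB, conjAvg, star_star, mul_smul_comm, smul_mul_assoc,
            Finset.mul_sum, Finset.sum_mul, Finset.smul_sum, smul_smul, mul_comm]
          rw [Finset.sum_comm]
      _ = _ := by
          simp only [h3, Finset.sum_const, Finset.card_univ]
          rw [← Nat.cast_smul_eq_nsmul ℂ, smul_smul,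
            inv_mul_cancel₀ (by exact_mod_cast Fintype.card_ne_zero), one_smul]
  rw [← h2, h1, hB]

theorem avg_avg {k l : ℕ} (h : k ≤ l) (x : H →L[ℂ] H) :
    conjAvg (fun i => star (g l i)) (conjAvg (fun i => star (g k i)) x)
      = conjAvg (fun i => star (g l i)) x := by
  obtain ⟨i₀, -⟩ := D.one k
  have : Nonempty (Γ k) := ⟨i₀⟩
  have h3 : ∀ j, conjAvg (fun i => star (g l i)) (g k j * x * star (g k j))
      = conjAvg (fun i => star (g l i)) x := fun j => by
    obtain ⟨j', hj⟩ := D.mono k l h j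
    rw [← avg_groups D, ← avg_groups D]
    refine Eq.trans (Full.Reduce.avg_congr fun a _ => ?_)
      (avg_shift_right (D.mem_groups.2 ⟨j', hj⟩) fun a => a * x * star a)
    simp [star_mul, mul_assoc]
  calc conjAvg (fun i => star (g l i)) (conjAvg (fun i => star (g k i)) x)
      = (Fintype.card (Γ k) : ℂ)⁻¹ • ∑ j,
          conjAvg (fun i => star (g l i)) (g k j * x * star (g k j)) := by
        simp only [conjAvg, star_star, mul_smul_comm, smul_mul_assoc, Finset.mul_sum,
          Finset.sum_mul, Finset.smul_sum, smul_smul, mul_comm]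
        rw [Finset.sum_comm]
    _ = _ := by
        simp only [h3, Finset.sum_const, Finset.card_univ]
        rw [← Nat.cast_smul_eq_nsmul ℂ, smul_smul,
          inv_mul_cancel₀ (by exact_mod_cast Fintype.card_ne_zero), one_smul]

/-- The averages converge strongly into the centre. -/
theorem exists_tendsto_avg (hm : Modular M ξ R J U) {x : H →L[ℂ] H} (hx : x ∈ M) :
    ∃ z ∈ M, z ∈ M.commutant ∧
      ∀ v, Tendsto (fun k => conjAvg (fun i => star (g k i)) x v) atTop (𝓝 (z v)) := by
  obtain ⟨E, hE⟩ : ∃ E : ℕ → H →L[ℂ] H, E = fun k => conjAvg (fun i => star (g k i)) x := ⟨_, rfl⟩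
  have hne : ∀ k, Nonempty (Γ k) := fun k => ⟨(D.one k).choose⟩
  have hEM : ∀ k, E k ∈ M := fun k => hE ▸ conjAvg_mem (fun i => star_mem (D.mem k i)) hx
  have hEn : ∀ k, ‖E k‖ ≤ ‖x‖ := fun k => hE ▸
    norm_conjAvg_le (fun i => by rw [star_star]; exact (D.unitary k i).2) x
  have hcau : CauchySeq fun k => E k η := by
    refine Metric.cauchySeq_iff'.2 fun ε hε => ?_
    obtain ⟨K, hK⟩ := eventually_atTop.1 (D.avg x hx (ε / 3) (by positivity))
    refine ⟨K, fun l hl => ?_⟩
    obtain ⟨z, hzM, hzc, hz⟩ := hK K le_rfl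
    have hne' := hne l
    have hsub : ‖E l η - z η‖ ≤ ‖(E K - z) η‖ := by
      have e : E l - z = conjAvg (fun i => star (g l i)) (E K - z) := by
        have hz' : ∀ i, g l i * z * star (g l i) = z := fun i => by
          rw [← hzc _ (D.mem l i), mul_assoc, (D.unitary l i).2, mul_one]
        conv_lhs => rw [hE]; simp only; rw [← D.avg_avg hl x]
        simp only [hE, conjAvg, star_star, mul_sub, sub_mul, Finset.sum_sub_distrib, smul_sub,
          hz', Finset.sum_const, Finset.card_univ]
        rw [← Nat.cast_smul_eq_nsmul ℂ, smul_smul (Fintype.card (Γ l) : ℂ)⁻¹ (Fintype.card (Γ l) : ℂ),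
          inv_mul_cancel₀ (by exact_mod_cast Fintype.card_ne_zero), one_smul]
      rw [← sub_apply, e]
      simp only [conjAvg, smul_apply, norm_smul, norm_inv, Complex.norm_natCast, sum_apply]
      rw [inv_mul_le_iff₀ (by exact_mod_cast Fintype.card_pos)]
      refine (norm_sum_le _ _).trans ((Finset.sum_le_sum fun i _ =>
        show _ ≤ ‖(E K - z) η‖ from ?_).trans_eq (by simp))
      obtain ⟨j, hj⟩ := D.star_g l i
      rw [star_star, apply_mul, apply_mul, norm_of_star_mul_self (D.unitary l i).1, ← hj,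
        ← D.cent, ← rho_comm hm (D.mem l j) (sub_mem (hEM K) hzM), hj,
        norm_rho_star (D.unitary l i).1]
    have h1 : ‖(E K - z) η‖ ≤ ε / 3 := by rw [sub_apply, hE]; exact hz
    rw [dist_eq_norm]
    linarith [norm_sub_le_norm_sub_add_norm_sub (E l η) (z η) (E K η), norm_sub_rev (z η) (E K η),
      show ‖E K η - z η‖ = ‖(E K - z) η‖ by rw [sub_apply]]
  -- strong convergence on a dense set, hence everywhere
  have hd2 : Dense {w : H | ∃ m ∈ M, rho J m η = w} := by
    refine ((Function.Surjective.denseRange (fun v => ⟨J v, hm.J_J v⟩)).dense_image J.continuous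
      D.cyclic).mono ?_
    rintro _ ⟨_, ⟨m, hmM, rfl⟩, rfl⟩
    exact ⟨star m, star_mem hmM, by rw [rho_apply, star_star, D.J_eta]⟩
  have hall : ∀ v, CauchySeq fun k => E k v := by
    intro v
    refine Metric.cauchySeq_iff.2 fun ε hε => ?_
    obtain ⟨_, ⟨m, hmM, rfl⟩, hmv⟩ := Metric.mem_closure_iff.1 (hd2 v)
      (ε / (4 * (‖x‖ + 1))) (by positivity)
    rw [dist_eq_norm] at hmv
    obtain ⟨K, hK⟩ := Metric.cauchySeq_iff.1
      ((rho J m).uniformContinuous.comp_cauchySeq hcau) (ε / 4) (by positivity)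
    refine ⟨K, fun i hi j hj => ?_⟩
    have hij : ‖E i (rho J m η) - E j (rho J m η)‖ < ε / 4 := by
      rw [← rho_comm hm hmM (hEM i), ← rho_comm hm hmM (hEM j)]
      simpa [dist_eq_norm, Function.comp_def] using hK i hi j hj
    have hb : ∀ k, ‖E k v - E k (rho J m η)‖ ≤ ε / 4 := fun k => by
      rw [← map_sub]
      refine ((E k).le_of_opNorm_le (hEn k) _).trans ?_
      calc ‖x‖ * ‖v - rho J m η‖ ≤ (‖x‖ + 1) * (ε / (4 * (‖x‖ + 1))) := by gcongr; linarith
        _ = ε / 4 := by field_simp
    rw [dist_eq_norm]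
    linarith [norm_sub_le_norm_sub_add_norm_sub (E i v) (E i (rho J m η)) (E j v),
      norm_sub_le_norm_sub_add_norm_sub (E i (rho J m η)) (E j (rho J m η)) (E j v),
      hb i, hb j, norm_sub_rev (E j v) (E j (rho J m η))]
  choose F hF using fun v => cauchySeq_tendsto_of_complete (hall v)
  obtain ⟨z, hz⟩ : ∃ z : H →L[ℂ] H, ∀ v, z v = F v :=
    ⟨continuousLinearMapOfTendsto (g := E) (f := F) (tendsto_pi_nhds.2 hF), fun v => rfl⟩
  have hzt : ∀ v, Tendsto (fun k => E k v) atTop (𝓝 (z v)) := fun v => (hz v).symm ▸ hF v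
  have hcomm : ∀ b : H →L[ℂ] H, (∀ᶠ k in atTop, b * E k = E k * b) → b * z = z * b := by
    intro b hb
    ext v
    refine tendsto_nhds_unique ((b.continuous.tendsto _).comp (hzt v))
      ((hzt (b v)).congr' (hb.mono fun k hk => ?_))
    simp only [Function.comp_apply]
    rw [← apply_mul, ← apply_mul, hk]
  have hzM : z ∈ M := mem_iff_comm.2 fun b hb =>
    hcomm b (Eventually.of_forall fun k => mem_iff_comm.1 (hEM k) b hb)
  have hc : ∀ k i, Commute z (g k i) := fun k i =>
    (hcomm _ (eventually_atTop.2 ⟨k, fun l hl => by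
      obtain ⟨j, hj⟩ := D.mono k l hl i
      rw [← hj, hE]
      exact (D.avg_commute l x j).eq.symm⟩)).symm
  refine ⟨z, hzM, VonNeumannAlgebra.mem_commutant_iff.2 fun b hb =>
    (D.central_of_commute hm hzM hc b hb).symm, ?_⟩
  rw [hE] at hzt
  exact hzt

/-- The pinned vector of the centralizer data. -/
theorem pinned (hm : Modular M ξ R J U) : Nonempty (Three.Pinned M η) := by
  have hmem : ∀ a ∈ D.groups.carrier, ∃ k i, g k i = a := fun a ⟨k, hk⟩ =>
    ⟨k, D.mem_groups.1 hk⟩
  exact ⟨{
    Γ := D.groups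
    r := fun a => rho J (star a)
    memM := fun a ha => by obtain ⟨k, i, rfl⟩ := hmem a ha; exact D.mem k i
    r_mem := fun a ha => by
      obtain ⟨k, i, rfl⟩ := hmem a ha
      rw [rho, star_star]
      exact hm.conj_mem _ (D.mem k i)
    r_unitary := fun a ha => by
      obtain ⟨k, i, rfl⟩ := hmem a ha
      rw [rho, star_star, Unitary.mem_iff, VP132.Row.star_conjBy J hm.J_J,
        ← VP132.Row.conjBy_mul J hm.J_J, ← VP132.Row.conjBy_mul J hm.J_J, (D.unitary k i).1,
        (D.unitary k i).2]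
      exact ⟨VP132.Row.conjBy_one J hm.J_J, VP132.Row.conjBy_one J hm.J_J⟩
    r_ξ := fun a ha => by
      obtain ⟨k, i, rfl⟩ := hmem a ha
      obtain ⟨l, hl⟩ := D.star_g k i
      rw [← hl]
      exact D.cent k l
    central := fun x hx => by
      obtain ⟨z, hzM, hzc, hzt⟩ := D.exists_tendsto_avg hm hx
      exact ⟨z, hzM, hzc, fun v => (hzt v).congr fun k => by rw [D.avg_groups]⟩ }⟩

theorem isStandardVector (hξ : ‖ξ‖ = 1) : VP132.IsStandardVector H M η :=
  ⟨D.norm_eq.trans hξ, D.cyclic, D.separating⟩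

end CentralizerData

/-- A standard pair with tracial slots and central moduli has a pinned standard vector. -/
theorem exists_pinned [TopologicalSpace.SeparableSpace H] {f : ℕ → Fin 2 → Fin 2 → H →L[ℂ] H}
    (hm : Modular M ξ R J U) (hs : VP132.IsStandardVector H M ξ) (hf : TraceSlots M ξ J f)
    (hA : ModCentral M ξ J) :
    ∃ η : H, VP132.IsStandardVector H M η ∧ Nonempty (Three.Pinned M η) := by
  obtain ⟨η, Γ, hΓ, g, D⟩ := exists_centralizerData hm hs.2.1 hf hA
  exact ⟨η, D.isStandardVector hs.1, D.pinned hm⟩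

end Vale.Agent.P096.Cent
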