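import Vale.Agent.P096.Cent.Site

/-!
P096, type III: the stabilised space of a separable space is separable.
-/

open Filter Topology
open TopologicalSpace (SeparableSpace)

namespace Vale.Agent.P096.Cent

variable {H : Type} [NormedAddCommGroup H] [InnerProductSpace ℂ H] [CompleteSpace H]

theorem separableSpace_amb [SeparableSpace H] : SeparableSpace (AmbH H) := by
  obtain ⟨D, hDc, hDd⟩ := TopologicalSpace.exists_countable_dense H
  let S : Set (AmbH H) := ⋃ i : Idx, (lp.single 2 i) '' D
  have hS : S.Countable := Set.countable_iUnion fun i => hDc.image _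
  have hspan : Dense (Submodule.span ℂ S : Set (AmbH H)) := dense_of_single _ fun i v => by
    have hv : v ∈ closure D := hDd v
    have := map_mem_closure (lp.singleContinuousLinearMap ℂ (fun _ : Idx => H) 2 i).continuous hv
      (t := (Submodule.span ℂ S : Set (AmbH H))) fun d hd =>
      Submodule.subset_span (Set.mem_iUnion.2 ⟨i, d, hd, rfl⟩)
    exact this
  have h := (hS.isSeparable.span (R := ℂ)).closure
  rw [hspan.closure_eq, TopologicalSpace.isSeparable_univ_iff] at h
  exact h

end Vale.Agent.P096.Cent
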