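import Vale.Agent.P132.Interface

/-!
P096: slots.  A standard pair with commuting families of two by two matrix units which are eigen
operators of the modular group and asymptotically central.
-/

open scoped InnerProductSpace
open Filter Topology
open Vale.Agent.P132.Tomita (Modular)
open VP132 (rho)

namespace Vale.Agent.P096.Cent

variable {H : Type} [NormedAddCommGroup H] [InnerProductSpace ℂ H] [CompleteSpace H]

/-- `e i j` is the `j`-th slot of the family `i`, whose weights are `w i`; family `0` is tracial. -/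
structure Slots (M : VonNeumannAlgebra H) (ξ : H) (J : H ≃ₗᵢ⋆[ℂ] H) where
  /-- The square roots of the weights. -/
  w : ℕ → Fin 2 → ℝ
  /-- The matrix units. -/
  e : ℕ → ℕ → Fin 2 → Fin 2 → H →L[ℂ] H
  w_pos : ∀ i a, 0 < w i a
  w_sq : ∀ i, w i 0 ^ 2 + w i 1 ^ 2 = 1
  w_zero : w 0 0 = w 0 1
  levels : ∀ κ : ℝ, 0 < κ → ∀ ε : ℝ, 0 < ε → ∃ i, |w i 1 / w i 0 - κ| < ε
  mem : ∀ i j a b, e i j a b ∈ M
  star_e : ∀ i j a b, star (e i j a b) = e i j b a
  e_mul : ∀ i j a b c d, e i j a b * e i j c d = if b = c then e i j a d else 0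
  e_sum : ∀ i j, e i j 0 0 + e i j 1 1 = 1
  comm : ∀ i j i' j' a b c d, (i, j) ≠ (i', j') → Commute (e i j a b) (e i' j' c d)
  eigen : ∀ i j a b, rho J (e i j a b) ξ = ((w i a / w i b : ℝ) : ℂ) • e i j a b ξ
  central : ∀ i a b v,
    Tendsto (fun j => ((w i a / w i b : ℝ) : ℂ) • e i j a b v - rho J (e i j a b) v) atTop (𝓝 0)
  weight : ∀ i a v, Tendsto (fun j => ‖e i j a a v‖) atTop (𝓝 (w i a * ‖v‖))

end Vale.Agent.P096.Cent
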