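import Vale.Agent.P096.Cent.Blocks

/-!
P096, type III: one step of the construction: a nearly centralizing unitary commuting with the
used slots, after which the expectation over more slots is nearly central.
-/

open scoped InnerProductSpace
open Filter Topology Complex
open Vale.Agent.P132.Tomita (conjBy Modular)
open VP132 (rho)
open VP132.Fixed (rho_apply rho_mul rho_comm rho_apply_le apply_le norm_of_star_mul_self norm_rho_star)

set_option linter.unusedSectionVars false

namespace Vale.Agent.P096.Cent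

open Vale.Agent.P104.Continuous

variable {H : Type} [NormedAddCommGroup H] [InnerProductSpace ℂ H] [CompleteSpace H]
variable {M : VonNeumannAlgebra H} {ξ : H} {R : H →L[ℂ] H} {J : H ≃ₗᵢ⋆[ℂ] H}
  {U : ℝ → H →L[ℂ] H}

theorem norm_sum_sq_of_orthogonal {I : Type} [Fintype I] {v : I → H}
    (h : ∀ a b, a ≠ b → ⟪v a, v b⟫_ℂ = 0) : ‖∑ a, v a‖ ^ 2 = ∑ a, ‖v a‖ ^ 2 := by
  classical
  rw [← re_inner_self, inner_sum, re_sum]
  refine Finset.sum_congr rfl fun a _ => ?_
  rw [sum_inner, Finset.sum_eq_single a (fun b _ hb => h b a hb) (by simp), re_inner_self]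

/-- The diagonal sum of unitaries over matrix units commuting with them. -/
noncomputable def diagU {I : Type} [Fintype I] (e : I → I → H →L[ℂ] H) (w : I → H →L[ℂ] H) :
    H →L[ℂ] H :=
  ∑ a, w a * e a a

section Diag

variable {I : Type} [Fintype I] [DecidableEq I] {e : I → I → H →L[ℂ] H} {w : I → H →L[ℂ] H}
  (he : IsUnits M ξ J e) (hwe : ∀ a c d, Commute (w a) (e c d))
include he hwe

theorem commute_star_units (a c d : I) : Commute (star (w a)) (e c d) := by
  simpa [he.star_eq] using (hwe a d c).star_star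

theorem star_diagU : star (diagU e w) = diagU e fun a => star (w a) := by
  simp only [diagU, star_sum, star_mul, he.star_eq]
  exact Finset.sum_congr rfl fun a _ => (commute_star_units he hwe a a a).eq.symm

theorem diagU_mul {u : I → H →L[ℂ] H} :
    diagU e u * diagU e w = diagU e fun a => u a * w a := by
  have h1 : ∀ a b, u a * e a a * (w b * e b b) = if a = b then u a * w a * e a a else 0 := fun a b => by
    calc u a * e a a * (w b * e b b) = u a * (e a a * w b) * e b b := by simp only [mul_assoc]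
      _ = u a * w b * (e a a * e b b) := by rw [← (hwe b a a).eq]; simp only [mul_assoc]
      _ = _ := by rw [he.mul]; split_ifs with h <;> simp [h]
  simp only [diagU, Finset.sum_mul, Finset.mul_sum, h1, Finset.sum_ite_eq',
    Finset.mem_univ, if_true]

theorem diagU_unitary (h1 : ∀ a, star (w a) * w a = 1) (h2 : ∀ a, w a * star (w a) = 1) :
    star (diagU e w) * diagU e w = 1 ∧ diagU e w * star (diagU e w) = 1 := by
  rw [star_diagU he hwe, diagU_mul he hwe, diagU_mul he (commute_star_units he hwe)]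
  constructor <;> simp [diagU, h1, h2, he.sum_one]

theorem diagU_defect (hm : Modular M ξ R J U) (hw : ∀ a, w a ∈ M) :
    ‖diagU e w ξ - rho J (diagU e w) ξ‖ ^ 2
      = (Fintype.card I : ℝ)⁻¹ * ∑ a, ‖w a ξ - rho J (w a) ξ‖ ^ 2 := by
  obtain ⟨d, hd⟩ : ∃ d : I → H, d = fun a => w a ξ - rho J (w a) ξ := ⟨_, rfl⟩
  have hr : ∀ a b c, rho J (e b c) (w a ξ) = w a (e b c ξ) := fun a b c => by
    rw [rho_comm hm (he.mem b c) (hw a), he.cent]
  have hr' : ∀ a b c, rho J (w a) (e b c ξ) = rho J (e b c) (rho J (w a) ξ) := fun a b c => by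
    rw [← he.cent, ← apply_mul, ← rho_mul hm, ← (hwe a b c).eq, rho_mul hm, apply_mul]
  have hswap : ∀ a b, e b b (rho J (w a) ξ) = rho J (w a) (e b b ξ) := fun a b =>
    (rho_comm hm (hw a) (he.mem b b) ξ).symm
  have key : diagU e w ξ - rho J (diagU e w) ξ = ∑ a, e a a (d a) := by
    simp only [diagU, rho_sum, sum_apply, hd, map_sub, ← Finset.sum_sub_distrib]
    refine Finset.sum_congr rfl fun a _ => ?_
    congr 1
    · rw [(hwe a a a).eq, apply_mul]
    · rw [rho_mul hm, apply_mul, hswap, hr']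
  have hmove : ∀ a b c, rho J (e b c) (e c b (d a)) = e c c (d a) := fun a b c => by
    simp only [hd, map_sub]
    congr 1
    · rw [← apply_mul (e c b), ← apply_mul (e c c), ← (hwe a c b).eq, ← (hwe a c c).eq,
        rho_comm hm (he.mem b c) (mul_mem (hw a) (he.mem c b)), he.cent, apply_mul, ← apply_mul (e c b),
        he.mul, if_pos rfl]
      rfl
    · rw [rho_comm hm (he.mem b c) (he.mem c b), ← hr', ← rho_comm hm (hw a) (he.mem c b),
        ← apply_mul (e c b), he.mul, if_pos rfl, ← rho_comm hm (hw a) (he.mem c c)]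
  have hle : ∀ a b c, ‖e c c (d a)‖ ≤ ‖e b b (d a)‖ := fun a b c => by
    rw [← hmove a b c]
    refine (rho_apply_le (he.norm_le b c) _).trans ?_
    calc ‖e c b (d a)‖ = ‖e c b (e b b (d a))‖ := by rw [← apply_mul, he.mul, if_pos rfl]
      _ ≤ _ := apply_le (he.norm_le c b) _
  have horth : ∀ (z : I → H) a b, a ≠ b → ⟪e a a (z a), e b b (z b)⟫_ℂ = 0 := fun z a b hab => by
    rw [← ContinuousLinearMap.adjoint_inner_right, ← ContinuousLinearMap.star_eq_adjoint,
      ← apply_mul, he.star_eq, he.mul, if_neg hab]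
    simp
  have hone : ∀ a, ‖e a a (d a)‖ ^ 2 = (Fintype.card I : ℝ)⁻¹ * ‖d a‖ ^ 2 := by
    intro a
    have h := norm_sum_sq_of_orthogonal (horth fun _ => d a)
    rw [he.apply_sum, Finset.sum_congr rfl fun c _ => by
      rw [le_antisymm (hle a a c) (hle a c a)], Finset.sum_const, Finset.card_univ,
      nsmul_eq_mul] at h
    have : Nonempty I := ⟨a⟩
    rw [h, ← mul_assoc, inv_mul_cancel₀ (by exact_mod_cast Fintype.card_ne_zero), one_mul]
  rw [key, norm_sum_sq_of_orthogonal (horth d), Finset.mul_sum]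
  exact Finset.sum_congr rfl fun a _ => by rw [hone, hd]

theorem diag_apply_le (hm : Modular M ξ R J U) (hw : ∀ a, w a ∈ M) {y : H →L[ℂ] H} (hy : y ∈ M) :
    ‖y (diagU e w ξ)‖ ≤ ∑ a, ‖y (w a ξ)‖ := by
  simp only [diagU, sum_apply, apply_mul, map_sum]
  refine (norm_sum_le _ _).trans (Finset.sum_le_sum fun a _ => ?_)
  rw [← he.cent, ← rho_comm hm (he.mem a a) (hw a), ← rho_comm hm (he.mem a a) hy]
  exact rho_apply_le (he.norm_le a a) _

theorem phi_diag [Nonempty I] {y : H →L[ℂ] H} (hy : ∀ c d, Commute y (e c d)) :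
    phi e (star (diagU e w) * y * diagU e w) = conjAvg w y := by
  have h1 : star (diagU e w) * y = diagU e fun a => star (w a) * y := by
    rw [star_diagU he hwe, diagU, diagU, Finset.sum_mul]
    exact Finset.sum_congr rfl fun a _ => by rw [mul_assoc, ← (hy a a).eq, ← mul_assoc]
  rw [h1, diagU_mul he hwe, diagU, phi_sum, conjAvg, Finset.smul_sum]
  refine Finset.sum_congr rfl fun a _ => ?_
  have hc : ∀ c d, Commute (star (w a) * y * w a) (e c d) := fun c d =>
    ((commute_star_units he hwe a c d).mul_left (hy c d)).mul_left (hwe a c d)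
  have h2 : ∀ c d, e c d * (star (w a) * y * w a * e a a) * e d c
      = if d = a then star (w a) * y * w a * e c c else 0 := fun c d => by
    calc _ = (e c d * (star (w a) * y * w a)) * (e a a * e d c) := by simp only [mul_assoc]
      _ = (star (w a) * y * w a) * (e c d * (e a a * e d c)) := by
          rw [← (hc c d).eq]; simp only [mul_assoc]
      _ = _ := by
          rw [he.mul]
          split_ifs with h h' h'
          · subst h'; rw [he.mul, if_pos rfl]
          · exact absurd h.symm h'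
          · exact absurd h'.symm h
          · simp
  simp only [phi, h2, Finset.sum_ite_eq', Finset.mem_univ, if_true, ← Finset.mul_sum, he.sum_one,
    mul_one]

end Diag

/-- Conjugation by a unitary commuting with a system commutes with its expectation. -/
theorem phi_conj {I : Type} [Fintype I] [DecidableEq I] {e : I → I → H →L[ℂ] H}
    (he : IsUnits M ξ J e) {V : H →L[ℂ] H} (hV : ∀ c d, Commute V (e c d)) (y : H →L[ℂ] H) :
    phi e (star V * y * V) = star V * phi e y * V := by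
  have hs : ∀ c d, Commute (star V) (e c d) := fun c d => by
    simpa [he.star_eq] using (hV d c).star_star
  simp only [phi, mul_smul_comm, smul_mul_assoc, Finset.mul_sum, Finset.sum_mul]
  congr 1
  refine Finset.sum_congr rfl fun c _ => Finset.sum_congr rfl fun d _ => ?_
  calc e c d * (star V * y * V) * e d c
      = (e c d * star V) * y * (V * e d c) := by simp only [mul_assoc]
    _ = _ := by rw [← (hs c d).eq, (hV d c).eq]; simp only [mul_assoc]

variable {f : ℕ → Fin 2 → Fin 2 → H →L[ℂ] H}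

namespace TraceSlots

variable (hf : TraceSlots M ξ J f)
include hf

/-- The exchange of the first `m` slots with those from `m + n` on. -/
theorem flip_props (hm : Modular M ξ R J U) (m n : ℕ) :
    flipU (blk f 0 m) (blk f (m + n) m) ∈ M ∧
      star (flipU (blk f 0 m) (blk f (m + n) m)) = flipU (blk f 0 m) (blk f (m + n) m) ∧
      flipU (blk f 0 m) (blk f (m + n) m) * flipU (blk f 0 m) (blk f (m + n) m) = 1 ∧
      rho J (flipU (blk f 0 m) (blk f (m + n) m)) ξ = flipU (blk f 0 m) (blk f (m + n) m) ξ :=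
  have h := hf.blk_commute (a := 0) (K := m) (b := m + n) (L := m) (Or.inl (by omega))
  have he := hf.isUnits_blk hm 0 m
  have he' := hf.isUnits_blk hm (m + n) m
  ⟨flipU_mem he he' h, star_flipU he he' h, flipU_mul_self he he' h, flipU_cent he he' h hm⟩

theorem flip_commutator (hm : Modular M ξ R J U) (m : ℕ) {a : ℕ → H →L[ℂ] H} {A : H →L[ℂ] H}
    (ha : ∀ n, a n ∈ M) (hA : SLim a A) (hc : ∀ n p q, Commute (a n) (blk f 0 m p q)) (v : H) :
    Tendsto (fun n => a n (flipU (blk f 0 m) (blk f (m + n) m) v)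
      - flipU (blk f 0 m) (blk f (m + n) m) (a n v)) atTop (𝓝 0) := by
  have e : ∀ n, a n (flipU (blk f 0 m) (blk f (m + n) m) v)
      - flipU (blk f 0 m) (blk f (m + n) m) (a n v)
      = ∑ p, ∑ q, blk f 0 m p q (a n (blk f (m + n) m q p v) - blk f (m + n) m q p (a n v)) := fun n => by
    simp only [flipU, sum_apply, apply_mul, map_sum, map_sub, Finset.sum_sub_distrib]
    congr 1
    refine Finset.sum_congr rfl fun p _ => Finset.sum_congr rfl fun q _ => ?_
    rw [← apply_mul (a n), (hc n p q).eq, apply_mul]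
  simp only [e]
  rw [show (0 : H) = ∑ _p : Fin m → Fin 2, (0 : H) by simp]
  refine tendsto_finsetSum _ fun p _ => ?_
  rw [show (0 : H) = ∑ _q : Fin m → Fin 2, (0 : H) by simp]
  refine tendsto_finsetSum _ fun q _ => ?_
  exact squeeze_zero_norm (fun n => apply_le ((hf.isUnits_blk hm 0 m).norm_le p q) _)
    (tendsto_zero_iff_norm_tendsto_zero.1 (tendsto_commutator hm
      (fun n => (hf.isUnits_blk hm _ _).mem q p) (fun n => (hf.isUnits_blk hm _ _).norm_le q p)
      (fun z => hf.asymp_blk hm m (tendsto_atTop_mono (fun n => Nat.le_add_left n m) tendsto_id) q p z)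
      ha hA v))

/-- The step. -/
theorem exists_step (hm : Modular M ξ R J U) (hd : Dense {v : H | ∃ x ∈ M, x ξ = v})
    (hA : ModCentral M ξ J) (m : ℕ) {κ : Type} [Fintype κ] (y : κ → H →L[ℂ] H) (hy : ∀ i, y i ∈ M)
    {ε δ : ℝ} (hε : 0 < ε) (hδ : 0 < δ) :
    ∃ (m' : ℕ) (V : H →L[ℂ] H), m < m' ∧ IsNearCen M ξ J δ V ∧
      (∀ p q, Commute V (blk f 0 m p q)) ∧
      ∀ i, ∃ z ∈ M, (∀ b ∈ M, z * b = b * z) ∧ ‖z‖ ≤ ‖y i‖ ∧
        ‖psi f 0 m' (star V * y i * V) ξ - z ξ‖ ≤ ε := by
  classical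
  obtain ⟨y0, hy0⟩ : ∃ y0 : κ → H →L[ℂ] H, y0 = fun i => psi f 0 m (y i) := ⟨_, rfl⟩
  have hy0M : ∀ i, y0 i ∈ M := fun i => hy0 ▸ hf.psi_mem 0 m (hy i)
  have hy0n : ∀ i, ‖y0 i‖ ≤ ‖y i‖ := fun i => hy0 ▸ hf.norm_psi_le 0 m _
  have hy0c : ∀ i p q, Commute (y0 i) (blk f 0 m p q) := fun i p q => by
    rw [hy0]
    show Commute (psi f 0 m (y i)) _
    rw [← hf.phi_blk]; exact (hf.isUnits_blk hm 0 m).phi_commute _ p q
  obtain ⟨ι, hι, hne, w, z, ⟨p, hp⟩, hw, hz, hwz⟩ :=
    exists_avg_central hm hd hA y0 hy0M (ε := ε / 4) (δ := δ / 4) (by positivity) (by positivity)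
  obtain ⟨B, hB⟩ : ∃ B : ℝ, B = ∑ i, ‖y0 i‖ := ⟨_, rfl⟩
  have hBi : ∀ i, ‖y0 i‖ ≤ B := fun i => hB ▸ Finset.single_le_sum (f := fun i => ‖y0 i‖)
    (fun _ _ => norm_nonneg _) (Finset.mem_univ i)
  have hB0 : 0 ≤ B := hB ▸ by positivity
  obtain ⟨η, hη⟩ : ∃ η : ℝ, η = min (δ / 4) (ε / (8 * (B + 1))) := ⟨_, rfl⟩
  have hη0 : 0 < η := hη ▸ by positivity
  choose h hsa hcom hap using fun d => exists_exp_approx (hw d).2.1 (hw d).2.2.1
    (Sum.elim (fun b : Bool => if b then ξ else star (w d) ξ)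
      fun i : κ => star (w d) (y0 i (w d ξ))) hη0
  have hhM : ∀ d, h d ∈ M := fun d => mem_iff_comm.2 fun b hb =>
    ((hcom d b (mem_iff_comm.1 (hw d).1 b hb).symm
      (mem_iff_comm.1 (star_mem (hw d).1) b hb).symm).eq).symm
  -- the exponentials and their averaged versions
  obtain ⟨Ue, hUe⟩ : ∃ Ue : ι → H →L[ℂ] H, Ue = fun d => NormedSpace.exp (I • h d) := ⟨_, rfl⟩
  obtain ⟨hn, hhn⟩ : ∃ hn : ι → ℕ → H →L[ℂ] H, hn = fun d n => psi f (m + n) (m + p) (h d) :=
    ⟨_, rfl⟩
  have hs : Tendsto (fun n => m + n) atTop atTop :=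
    tendsto_atTop_mono (fun n => Nat.le_add_left n m) tendsto_id
  have hhnM : ∀ d n, hn d n ∈ M := fun d n => hhn ▸ hf.psi_mem _ _ (hhM d)
  have hhnsa : ∀ d n, IsSelfAdjoint (hn d n) := fun d n => by
    rw [hhn]
    show IsSelfAdjoint (psi f (m + n) (m + p) (h d))
    rw [← hf.phi_blk, isSelfAdjoint_iff, (hf.isUnits_blk hm _ _).star_phi, (hsa d).star_eq]
  have hlim : ∀ d, SLim (hn d) (h d) := fun d => hhn ▸
    hf.slim_psi hm (m + p) hs (fun _ => hhM d) (SLim.const (h d))
  obtain ⟨u, hu⟩ : ∃ u : ι → ℕ → H →L[ℂ] H, u = fun d n => NormedSpace.exp (I • hn d n) := ⟨_, rfl⟩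
  have hu1 : ∀ d n, star (u d n) * u d n = 1 ∧ u d n * star (u d n) = 1 := fun d n =>
    hu ▸ exp_I_smul_unitary (hhnsa d n)
  have huM : ∀ d n, u d n ∈ M := fun d n => mem_iff_comm.2 fun b hb =>
    ((hu ▸ (show Commute (I • hn d n) b from
      (Commute.smul_left (mem_iff_comm.1 (hhnM d n) b hb).symm I)).exp_left : Commute (u d n) b)).eq.symm
  have hublk : ∀ d n a K, m + n ≤ a → a + K ≤ m + n + (m + p) → ∀ P Q,
      Commute (u d n) (blk f a K P Q) := fun d n a K h1 h2 P Q => by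
    refine hf.commute_blk (fun j hj hj' c e => ?_) P Q
    rw [hu]
    refine (Commute.smul_left ?_ I).exp_left
    rw [hhn]
    exact hf.psi_commute_slot (Or.inl ⟨by omega, by omega⟩) c e
  have hul : ∀ d, SLim (u d) (Ue d) := fun d =>
    ⟨⟨1, fun n => norm_le_one_of_unitary (hu1 d n).1⟩, fun v => by
      rw [hu, hUe]; exact ((hlim d).smul I).exp v⟩
  have husl : ∀ d, SLim (fun n => star (u d n)) (star (Ue d)) := fun d =>
    ⟨⟨1, fun n => (norm_star _).trans_le (norm_le_one_of_unitary (hu1 d n).1)⟩, fun v => by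
      simp only [hu, hUe, star_exp_I_smul (hhnsa d _), star_exp_I_smul (hsa d)]
      exact ((hlim d).smul (-I)).exp v⟩
  have hU1 : ∀ d, star (Ue d) * Ue d = 1 ∧ Ue d * star (Ue d) = 1 := fun d =>
    hUe ▸ exp_I_smul_unitary (hsa d)
  -- the approximations
  have hapU : ∀ d, ‖Ue d ξ - w d ξ‖ ≤ η := fun d => by
    simpa [hUe] using hap d (Sum.inl true)
  have hapS : ∀ d (v : H), ‖star (Ue d) v - star (w d) v‖
      = ‖Ue d (star (w d) v) - w d (star (w d) v)‖ := fun d v => by
    rw [← norm_of_star_mul_self (hU1 d).1 (star (Ue d) v - star (w d) v), map_sub, ← apply_mul,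
      (hU1 d).2, ← apply_mul (w d), (hw d).2.2.1, norm_sub_rev]
  -- the flipped unitaries and the block
  obtain ⟨F, hF⟩ : ∃ F : ℕ → H →L[ℂ] H, F = fun n => flipU (blk f 0 m) (blk f (m + n) m) :=
    ⟨_, rfl⟩
  have hFp : ∀ n, F n ∈ M ∧ star (F n) = F n ∧ F n * F n = 1 ∧ rho J (F n) ξ = F n ξ := fun n =>
    hF ▸ hf.flip_props hm m n
  have hF1 : ∀ n, star (F n) * F n = 1 := fun n => by rw [(hFp n).2.1, (hFp n).2.2.1]
  have hFr : ∀ n v, ‖rho J (F n) v‖ = ‖v‖ := fun n v => by
    have := norm_rho_star (J := J) (hF1 n) v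
    rwa [(hFp n).2.1] at this
  have hFblk : ∀ n P Q, Commute (F n) (blk f (2 * m + n) p P Q) := fun n P Q => by
    rw [hF]
    exact Commute.sum_left _ _ _ fun a _ => Commute.sum_left _ _ _ fun b _ =>
      (hf.blk_commute (Or.inl (by omega)) a b P Q).mul_left
        (hf.blk_commute (Or.inl (by omega)) b a P Q)
  have hFint : ∀ n P Q, F n * blk f 0 m P Q = blk f (m + n) m P Q * F n := fun n P Q =>
    hF ▸ flipU_intertwine (hf.isUnits_blk hm 0 m) (hf.isUnits_blk hm (m + n) m)
      (hf.blk_commute (Or.inl (by omega))) P Q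
  have hFint' : ∀ n P Q, F n * blk f (m + n) m P Q = blk f 0 m P Q * F n := fun n P Q => by
    calc _ = F n * (blk f (m + n) m P Q * F n) * F n := by
          rw [mul_assoc, mul_assoc, (hFp n).2.2.1, mul_one]
      _ = (F n * F n) * blk f 0 m P Q * F n := by rw [← hFint]; simp only [mul_assoc]
      _ = _ := by rw [(hFp n).2.2.1, one_mul]
  let σ : (Fin p → Fin 2) ≃ ι := Fintype.equivOfCardEq (by simp [hp])
  obtain ⟨W, hW⟩ : ∃ W : ℕ → (Fin p → Fin 2) → H →L[ℂ] H, W = fun n a => F n * u (σ a) n * F n :=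
    ⟨_, rfl⟩
  have hWM : ∀ n a, W n a ∈ M := fun n a => hW ▸ mul_mem (mul_mem (hFp n).1 (huM _ n)) (hFp n).1
  have hWs : ∀ n a, star (W n a) = F n * star (u (σ a) n) * F n := fun n a => by
    simp [hW, star_mul, (hFp n).2.1, mul_assoc]
  have hW1 : ∀ n a, star (W n a) * W n a = 1 ∧ W n a * star (W n a) = 1 := fun n a => by
    have h3 : ∀ s t : H →L[ℂ] H, F n * s * F n * (F n * t * F n) = F n * (s * t) * F n := fun s t => by
      calc _ = F n * s * (F n * F n) * t * F n := by simp only [mul_assoc]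
        _ = _ := by rw [(hFp n).2.2.1, mul_one]; simp only [mul_assoc]
    rw [hWs, hW]
    simp only [h3, (hu1 _ n).1, (hu1 _ n).2, mul_one, (hFp n).2.2.1, and_self]
  have hWe : ∀ n a P Q, Commute (W n a) (blk f (2 * m + n) p P Q) := fun n a P Q => hW ▸
    ((hFblk n P Q).mul_left (hublk _ n _ _ (by omega) (by omega) P Q)).mul_left (hFblk n P Q)
  have hW0 : ∀ n a P Q, Commute (W n a) (blk f 0 m P Q) := fun n a P Q => by
    rw [commute_iff_eq, hW]
    calc F n * u (σ a) n * F n * blk f 0 m P Q = F n * u (σ a) n * (F n * blk f 0 m P Q) := by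
          simp only [mul_assoc]
      _ = F n * (u (σ a) n * blk f (m + n) m P Q) * F n := by rw [hFint]; simp only [mul_assoc]
      _ = (F n * blk f (m + n) m P Q) * u (σ a) n * F n := by
          rw [(hublk _ n _ _ (by omega) (by omega) P Q).eq]; simp only [mul_assoc]
      _ = _ := by rw [hFint']; simp only [mul_assoc]
  obtain ⟨V, hV⟩ : ∃ V : ℕ → H →L[ℂ] H, V = fun n => diagU (blk f (2 * m + n) p) (W n) := ⟨_, rfl⟩
  have heN := fun n => hf.isUnits_blk hm (2 * m + n) p
  have hVM : ∀ n, V n ∈ M := fun n => hV ▸ sum_mem fun a _ => mul_mem (hWM n a) ((heN n).mem a a)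
  have hV1 : ∀ n, star (V n) * V n = 1 ∧ V n * star (V n) = 1 := fun n =>
    hV ▸ diagU_unitary (heN n) (hWe n) (fun a => (hW1 n a).1) fun a => (hW1 n a).2
  have hV0 : ∀ n P Q, Commute (V n) (blk f 0 m P Q) := fun n P Q => hV ▸
    Commute.sum_left _ _ _ fun a _ =>
      (hW0 n a P Q).mul_left (hf.blk_commute (Or.inr (by omega)) a a P Q)
  -- the moving versions of `y0`
  obtain ⟨yn, hyn⟩ : ∃ yn : κ → ℕ → H →L[ℂ] H, yn = fun i n => psi f (2 * m + n) p (y0 i) :=
    ⟨_, rfl⟩
  have hynM : ∀ i n, yn i n ∈ M := fun i n => hyn ▸ hf.psi_mem _ _ (hy0M i)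
  have hyne : ∀ i n P Q, Commute (yn i n) (blk f (2 * m + n) p P Q) := fun i n P Q => by
    rw [hyn]
    show Commute (psi f (2 * m + n) p (y0 i)) _
    rw [← hf.phi_blk]; exact (heN n).phi_commute _ P Q
  have hyn0 : ∀ i n P Q, Commute (yn i n) (blk f 0 m P Q) := fun i n P Q => by
    rw [hyn]
    show Commute (psi f (2 * m + n) p (y0 i)) _
    rw [← hf.phi_blk]
    exact phi_commute_other (fun a b => hf.blk_commute (Or.inr (by omega)) a b P Q) (hy0c i P Q)
  have hynl : ∀ i, SLim (yn i) (y0 i) := fun i => hyn ▸ hf.slim_psi hm p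
    (tendsto_atTop_mono (fun n => Nat.le_add_left n (2 * m)) tendsto_id) (fun _ => hy0M i)
    (SLim.const _)
  have hYl : ∀ i, SLim (fun n => F n * yn i n * F n) (y0 i) := fun i => by
    obtain ⟨C, hC⟩ := (hynl i).1
    refine ⟨⟨C, fun n => ?_⟩, fun v => ?_⟩
    · refine (norm_mul_le _ _).trans (le_trans (mul_le_mul_of_nonneg_right (norm_mul_le _ _)
        (norm_nonneg _)) ?_)
      calc ‖F n‖ * ‖yn i n‖ * ‖F n‖ ≤ 1 * C * 1 := by
            gcongr
            exacts [mul_nonneg zero_le_one ((norm_nonneg _).trans (hC n)),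
              norm_le_one_of_unitary (hF1 n), hC n, norm_le_one_of_unitary (hF1 n)]
        _ = C := by ring
    · have e : ∀ n, (F n * yn i n * F n) v = F n (yn i n (F n v) - F n (yn i n v)) + yn i n v :=
        fun n => by
          rw [map_sub, ← apply_mul (F n) (F n), (hFp n).2.2.1, one_apply_eq_self, sub_add_cancel]
          rfl
      simp only [e]
      rw [← zero_add (y0 i v)]
      refine Tendsto.add ?_ ((hynl i).2 v)
      refine squeeze_zero_norm (fun n => apply_le (norm_le_one_of_unitary (hF1 n)) _) ?_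
      exact tendsto_zero_iff_norm_tendsto_zero.1
        (hF ▸ hf.flip_commutator hm m (hynM i) (hynl i) (hyn0 i) v)
  -- the first error
  have herr : ∀ i (a : Fin p → Fin 2),
      Tendsto (fun n => ‖(y0 i - yn i n) (W n a ξ)‖) atTop (𝓝 0) := by
    intro i a
    obtain ⟨C, hC⟩ := (hynl i).1
    have hlim0 : SLim (fun n => y0 i - yn i n) 0 :=
      ⟨⟨‖y0 i‖ + C, fun n => (norm_sub_le _ _).trans (add_le_add le_rfl (hC n))⟩, fun v => by
        simpa using ((hynl i).2 v).const_sub (y0 i v)⟩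
    have e : ∀ n, ‖(y0 i - yn i n) (W n a ξ)‖ = ‖(y0 i - yn i n) (F n (u (σ a) n ξ))‖ := fun n => by
      rw [hW]
      simp only [apply_mul]
      rw [← (hFp n).2.2.2, ← rho_comm hm (hFp n).1 (huM _ n), ← rho_comm hm (hFp n).1 (hFp n).1,
        ← rho_comm hm (hFp n).1 (sub_mem (hy0M i) (hynM i n)), hFr]
    simp only [e]
    obtain ⟨v, hv⟩ : ∃ v, v = Ue (σ a) ξ := ⟨_, rfl⟩
    have h1 : Tendsto (fun n => (y0 i - yn i n) (F n v) - F n ((y0 i - yn i n) v)) atTop (𝓝 0) := by
      subst hF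
      exact hf.flip_commutator hm m (fun n => sub_mem (hy0M i) (hynM i n)) hlim0
        (fun n P Q => (hy0c i P Q).sub_left (hyn0 i n P Q)) v
    have h2 : Tendsto (fun n => F n ((y0 i - yn i n) v)) atTop (𝓝 0) :=
      squeeze_zero_norm (fun n => apply_le (norm_le_one_of_unitary (hF1 n)) _)
        (tendsto_zero_iff_norm_tendsto_zero.1 (by simpa using hlim0.2 v))
    have h3 : Tendsto (fun n => (y0 i - yn i n) (F n (u (σ a) n ξ - v))) atTop (𝓝 0) := by
      refine squeeze_zero_norm (fun n => ((y0 i - yn i n).le_of_opNorm_le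
        ((norm_sub_le _ _).trans (add_le_add le_rfl (hC n))) _).trans
          (mul_le_mul_of_nonneg_left (apply_le (norm_le_one_of_unitary (hF1 n)) _)
            (by linarith [norm_nonneg (y0 i), (norm_nonneg _).trans (hC n)]))) ?_
      simpa [hv] using (tendsto_iff_norm_sub_tendsto_zero.1 ((hul (σ a)).2 ξ)).const_mul (‖y0 i‖ + C)
    refine tendsto_zero_iff_norm_tendsto_zero.1 ?_
    have h4 := (h1.add h2).add h3
    simp only [add_zero] at h4
    refine h4.congr fun n => ?_
    simp only [map_sub]; abel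
  -- the main term
  obtain ⟨G, hG⟩ : ∃ G : κ → ℕ → H →L[ℂ] H,
      G = fun i n => conjAvg (fun d => u d n) (F n * yn i n * F n) := ⟨_, rfl⟩
  have hGM : ∀ i n, G i n ∈ M := fun i n =>
    hG ▸ conjAvg_mem (fun d => huM d n) (mul_mem (mul_mem (hFp n).1 (hynM i n)) (hFp n).1)
  have hmain : ∀ i n, ‖(conjAvg (W n) (yn i n) - z i) ξ‖ = ‖G i n ξ - z i ξ‖ := fun i n => by
    have e1 : conjAvg (W n) (yn i n) = F n * G i n * F n := by
      rw [hG]
      simp only [conjAvg, hWs, mul_smul_comm, smul_mul_assoc, Finset.mul_sum, Finset.sum_mul]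
      rw [Fintype.card_congr σ]
      congr 1
      exact Fintype.sum_equiv σ _ _ fun a => by simp [hW, mul_assoc]
    have e2 : z i = F n * z i * F n := by
      rw [← ((hz i).2.1 _ (hFp n).1), mul_assoc, (hFp n).2.2.1, mul_one]
    rw [e1]
    conv_lhs => rw [e2]
    rw [← sub_mul, ← mul_sub, apply_mul, apply_mul, norm_of_star_mul_self (hF1 n), ← (hFp n).2.2.2,
      ← rho_comm hm (hFp n).1 (sub_mem (hGM i n) (hz i).1), hFr, sub_apply]
  have hGl : ∀ i, Tendsto (fun n => G i n ξ) atTop (𝓝 (conjAvg Ue (y0 i) ξ)) := fun i => by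
    rw [hG]
    exact (((SLim.finsetSum Finset.univ fun d _ => ((husl d).mul (hYl i)).mul (hul d))).smul _).2 ξ
  have hUw : ∀ i, ‖conjAvg Ue (y0 i) ξ - conjAvg w (y0 i) ξ‖ ≤ (B + 1) * η := by
    intro i
    rw [← sub_apply, conjAvg, conjAvg, ← smul_sub, ← Finset.sum_sub_distrib, smul_apply, norm_smul,
      norm_inv, Complex.norm_natCast, inv_mul_le_iff₀ (by exact_mod_cast Fintype.card_pos), sum_apply]
    refine (norm_sum_le _ _).trans ((Finset.sum_le_sum fun d _ =>
      show _ ≤ (B + 1) * η from ?_).trans_eq (by simp))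
    have e : (star (Ue d) * y0 i * Ue d - star (w d) * y0 i * w d) ξ
        = star (Ue d) (y0 i (Ue d ξ - w d ξ))
          + (star (Ue d) (y0 i (w d ξ)) - star (w d) (y0 i (w d ξ))) := by
      simp [map_sub]
    rw [e]
    refine (norm_add_le _ _).trans ?_
    rw [norm_of_star_mul_self (show star (star (Ue d)) * star (Ue d) = 1 by
      rw [star_star, (hU1 d).2]), hapS, add_one_mul]
    refine add_le_add ?_ (by simpa [hUe] using hap d (Sum.inr i))
    exact ((y0 i).le_opNorm _).trans (mul_le_mul (hBi i) (hapU d) (norm_nonneg _) hB0)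
  -- the defect
  have hdef : ∀ d, ∀ᶠ n in atTop, ‖u d n ξ - rho J (u d n) ξ‖ ≤ δ := fun d => by
    have hr : ∀ x : H →L[ℂ] H, rho J x ξ = J (star x ξ) := VP132.Fixed.rho_xi hm
    have hl : Tendsto (fun n => ‖u d n ξ - rho J (u d n) ξ‖) atTop
        (𝓝 ‖Ue d ξ - rho J (Ue d) ξ‖) := by
      simp only [hr]
      exact (((hul d).2 ξ).sub ((J.continuous.tendsto _).comp ((husl d).2 ξ))).norm
    refine hl.eventually (ge_mem_nhds ?_)
    have h1 : ‖rho J (w d) ξ - rho J (Ue d) ξ‖ ≤ η := by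
      rw [hr, hr, ← map_sub, J.norm_map, norm_sub_rev, hapS]
      simpa [hUe] using hap d (Sum.inl false)
    have h2 := norm_sub_le_norm_sub_add_norm_sub (Ue d ξ) (w d ξ) (rho J (Ue d) ξ)
    have h3 := norm_sub_le_norm_sub_add_norm_sub (w d ξ) (rho J (w d) ξ) (rho J (Ue d) ξ)
    have h4 : η ≤ δ / 4 := hη ▸ min_le_left _ _
    linarith [hapU d, (hw d).2.2.2]
  have hηB : (B + 1) * η ≤ ε / 8 := by
    refine (mul_le_mul_of_nonneg_left (hη ▸ min_le_right _ _) (by positivity)).trans_eq ?_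
    field_simp
  have hfin : ∀ i, ∀ᶠ n in atTop,
      (∑ a, ‖(y0 i - yn i n) (W n a ξ)‖) + ‖G i n ξ - z i ξ‖ ≤ ε := fun i => by
    have h1 : Tendsto (fun n => (∑ a, ‖(y0 i - yn i n) (W n a ξ)‖) + ‖G i n ξ - z i ξ‖) atTop
        (𝓝 (0 + ‖conjAvg Ue (y0 i) ξ - z i ξ‖)) := by
      refine Tendsto.add ?_ ((hGl i).sub_const _).norm
      rw [← Finset.sum_const_zero (s := (Finset.univ : Finset (Fin p → Fin 2)))]
      exact tendsto_finsetSum _ fun a _ => herr i a
    refine h1.eventually (ge_mem_nhds ?_)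
    have h2 := norm_sub_le_norm_sub_add_norm_sub (conjAvg Ue (y0 i) ξ) (conjAvg w (y0 i) ξ) (z i ξ)
    linarith [hUw i, hwz i]
  obtain ⟨n, ⟨hn1, hn2⟩, hn3⟩ :=
    (((eventually_all.2 hdef).and (eventually_all.2 hfin)).and (eventually_gt_atTop 0)).exists
  refine ⟨2 * m + n + p, V n, by omega, ⟨hVM n, (hV1 n).1, (hV1 n).2, ?_⟩, hV0 n,
    fun i => ⟨z i, (hz i).1, (hz i).2.1, (hz i).2.2.trans (hy0n i), ?_⟩⟩
  · refine (pow_le_pow_iff_left₀ (norm_nonneg _) hδ.le two_ne_zero).1 ?_
    rw [hV, diagU_defect (heN n) (hWe n) hm (hWM n),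
      inv_mul_le_iff₀ (by exact_mod_cast Fintype.card_pos)]
    refine (Finset.sum_le_sum fun a _ => show _ ≤ δ ^ 2 from ?_).trans_eq (by simp)
    refine pow_le_pow_left₀ (norm_nonneg _) (le_of_eq_of_le ?_ (hn1 (σ a))) 2
    rw [hW]
    obtain ⟨hFM, -, -, hFx⟩ := hFp n
    simp only [rho_mul hm, apply_mul]
    rw [hFx, rho_comm hm (huM _ n) hFM, rho_comm hm hFM hFM, ← hFx,
      ← rho_comm hm hFM (huM _ n), ← map_sub, norm_of_star_mul_self (hF1 n), ← map_sub, hFr]
  · have hz0 : psi f m (m + n) (z i) = z i := hf.psi_of_commute _ _ fun j _ _ c e =>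
      (hz i).2.1 _ ((hf.units j).mem c e)
    have hx : star (V n) * y0 i * V n ∈ M :=
      mul_mem (mul_mem (star_mem (hVM n)) (hy0M i)) (hVM n)
    have e : psi f 0 (2 * m + n + p) (star (V n) * y i * V n)
        = psi f m (m + n) (psi f (2 * m + n) p (star (V n) * y0 i * V n)) := by
      rw [psi_add f 0 (2 * m + n) p, zero_add]
      conv_lhs => rw [show 2 * m + n = m + (m + n) by omega, psi_add f 0 m (m + n), zero_add,
        hf.psi_psi_comm le_rfl, ← show 2 * m + n = m + (m + n) by omega]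
      rw [hy0]
      simp only [← hf.phi_blk 0 m, phi_conj (hf.isUnits_blk hm 0 m) (hV0 n)]
    rw [e, ← sub_apply]
    conv_lhs => rw [← hz0]
    rw [← psi_sub]
    refine (hf.psi_xi_le hm _ _ (sub_mem (hf.psi_mem _ _ hx) (hz i).1)).trans ?_
    have hsplit : psi f (2 * m + n) p (star (V n) * y0 i * V n) - z i
        = psi f (2 * m + n) p (star (V n) * (y0 i - yn i n) * V n)
          + (conjAvg (W n) (yn i n) - z i) := by
      rw [mul_sub, sub_mul, psi_sub, ← hf.phi_blk _ _ (star (V n) * yn i n * V n), hV,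
        phi_diag (heN n) (hWe n) (hyne i n)]
      abel
    rw [hsplit, add_apply]
    refine (norm_add_le _ _).trans (le_trans (add_le_add ?_ (hmain i n).le) (hn2 i))
    refine (hf.psi_xi_le hm _ _
      (mul_mem (mul_mem (star_mem (hVM n)) (sub_mem (hy0M i) (hynM i n))) (hVM n))).trans ?_
    rw [apply_mul, apply_mul, norm_of_star_mul_self
      (show star (star (V n)) * star (V n) = 1 by rw [star_star, (hV1 n).2]), hV]
    exact diag_apply_le (heN n) (hWe n) hm (hWM n) (sub_mem (hy0M i) (hynM i n))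

end TraceSlots

end Vale.Agent.P096.Cent
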