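import Vale.Agent.P096.Cent.Average
import Vale.Agent.P132.Fixed

/-!
P096, type III: systems of matrix units in the centralizer, their monomial groups and the
expectations onto their commutants.
-/

open scoped InnerProductSpace
open Filter Topology
open Vale.Agent.P132.Tomita (conjBy Modular)
open VP132 (rho)
set_option linter.unusedSectionVars false

open VP132.Fixed (rho_apply rho_mul rho_comm rho_apply_le apply_le)

namespace Vale.Agent.P096.Cent

open Vale.Agent.P104.Continuous

variable {H : Type} [NormedAddCommGroup H] [InnerProductSpace ℂ H] [CompleteSpace H]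
variable {M : VonNeumannAlgebra H} {ξ : H} {R : H →L[ℂ] H} {J : H ≃ₗᵢ⋆[ℂ] H}
  {U : ℝ → H →L[ℂ] H}

theorem rho_add (x y : H →L[ℂ] H) : rho J (x + y) = rho J x + rho J y := by
  ext v; simp [rho_apply]

theorem rho_smul (c : ℂ) (x : H →L[ℂ] H) : rho J (c • x) = c • rho J x := by
  ext v
  simp [rho_apply, star_smul, LinearIsometryEquiv.map_smulₛₗ]

theorem rho_sum {κ : Type} (s : Finset κ) (x : κ → H →L[ℂ] H) :
    rho J (∑ i ∈ s, x i) = ∑ i ∈ s, rho J (x i) := by
  ext v; simp [rho_apply, star_sum]

theorem rho_one (hm : Modular M ξ R J U) : rho J (1 : H →L[ℂ] H) = 1 := by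
  ext v; simp [rho_apply, hm.J_J]

/-- A system of matrix units in the centralizer of `ξ`. -/
structure IsUnits (M : VonNeumannAlgebra H) (ξ : H) (J : H ≃ₗᵢ⋆[ℂ] H) {I : Type} [Fintype I]
    [DecidableEq I] (e : I → I → H →L[ℂ] H) : Prop where
  mem : ∀ a b, e a b ∈ M
  mul : ∀ a b c d, e a b * e c d = if b = c then e a d else 0
  star_eq : ∀ a b, star (e a b) = e b a
  sum_one : ∑ a, e a a = 1
  cent : ∀ a b, rho J (e a b) ξ = e a b ξ

/-- The sign of a bit. -/
noncomputable def sg : Bool → ℂ
  | true => 1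
  | false => -1

theorem sg_mul_self (b : Bool) : sg b * sg b = 1 := by cases b <;> simp [sg]

theorem sg_xnor (a b : Bool) : sg (a == b) = sg a * sg b := by cases a <;> cases b <;> simp [sg]

theorem star_sg (b : Bool) : star (sg b) = sg b := by cases b <;> simp [sg]

variable {I : Type} [Fintype I] [DecidableEq I]

/-- The expectation onto the commutant of a system of matrix units. -/
noncomputable def phi (e : I → I → H →L[ℂ] H) (x : H →L[ℂ] H) : H →L[ℂ] H :=
  (Fintype.card I : ℂ)⁻¹ • ∑ c, ∑ d, e c d * x * e d c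

theorem phi_sub (e : I → I → H →L[ℂ] H) (x y : H →L[ℂ] H) : phi e (x - y) = phi e x - phi e y := by
  simp only [phi, mul_sub, sub_mul, Finset.sum_sub_distrib, smul_sub]

theorem phi_smul (e : I → I → H →L[ℂ] H) (c : ℂ) (x : H →L[ℂ] H) :
    phi e (c • x) = c • phi e x := by
  simp only [phi, mul_smul_comm, smul_mul_assoc, ← Finset.smul_sum, smul_smul, mul_comm c]

theorem phi_sum {κ : Type} (e : I → I → H →L[ℂ] H) (s : Finset κ) (x : κ → H →L[ℂ] H) :
    phi e (∑ i ∈ s, x i) = ∑ i ∈ s, phi e (x i) := by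
  simp only [phi, Finset.mul_sum, Finset.sum_mul, ← Finset.smul_sum]
  congr 1
  rw [Finset.sum_comm (s := s)]
  exact Finset.sum_congr rfl fun c _ => Finset.sum_comm

theorem phi_congr {I' : Type} [Fintype I'] [DecidableEq I'] (e : I → I → H →L[ℂ] H) (σ : I' ≃ I)
    (x : H →L[ℂ] H) : phi (fun a b => e (σ a) (σ b)) x = phi e x := by
  rw [phi, phi, Fintype.card_congr σ]
  congr 1
  exact Fintype.sum_equiv σ _ _ fun c => Fintype.sum_equiv σ _ _ fun d => rfl

namespace IsUnits

variable {e : I → I → H →L[ℂ] H} (he : IsUnits M ξ J e)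
include he

theorem norm_le (a b : I) : ‖e a b‖ ≤ 1 := by
  have h : ‖e a b‖ * ‖e a b‖ = ‖e b b‖ := by
    rw [← CStarRing.norm_star_mul_self, he.star_eq, he.mul, if_pos rfl]
  have := VP132.Fixed.le_one_of_proj (he.star_eq b b) (by rw [he.mul, if_pos rfl])
  nlinarith [norm_nonneg (e a b)]

theorem phi_mem {x : H →L[ℂ] H} (hx : x ∈ M) : phi e x ∈ M :=
  smul_mem_vn _ (sum_mem fun c _ => sum_mem fun d _ => mul_mem (mul_mem (he.mem c d) hx) (he.mem d c))

theorem star_phi (x : H →L[ℂ] H) : star (phi e x) = phi e (star x) := by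
  simp [phi, star_smul, star_sum, star_mul, he.star_eq, mul_assoc]

theorem phi_commute (x : H →L[ℂ] H) (a b : I) : Commute (phi e x) (e a b) := by
  refine (Commute.smul_left ?_ _)
  rw [commute_iff_eq, Finset.sum_mul, Finset.mul_sum]
  have h1 : ∀ c d, e c d * x * e d c * e a b = if c = a then e c d * x * e d b else 0 := fun c d => by
    rw [mul_assoc, he.mul]; split_ifs <;> simp
  have h2 : ∀ c d, e a b * (e c d * x * e d c) = if b = c then e a d * x * e d c else 0 := fun c d => by
    rw [← mul_assoc, ← mul_assoc, he.mul]; split_ifs <;> simp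
  simp only [Finset.sum_mul, Finset.mul_sum, h1, h2]
  rw [Finset.sum_comm, Finset.sum_comm (f := fun c d => if b = c then _ else _)]
  simp only [Finset.sum_ite_eq, Finset.sum_ite_eq', Finset.mem_univ, if_true]

theorem phi_of_commute [Nonempty I] {x : H →L[ℂ] H} (hx : ∀ a b, Commute x (e a b)) :
    phi e x = x := by
  have h : ∀ c d, e c d * x * e d c = x * e c c := fun c d => by
    rw [← (hx c d).eq, mul_assoc, he.mul, if_pos rfl]
  simp only [phi, h, Finset.sum_const, Finset.card_univ, ← Finset.smul_sum, ← Finset.mul_sum,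
    he.sum_one, mul_one]
  rw [← Nat.cast_smul_eq_nsmul ℂ, smul_smul, inv_mul_cancel₀
    (by exact_mod_cast Fintype.card_ne_zero), one_smul]

theorem apply_sum (v : H) : ∑ a, e a a v = v := by
  have := congrArg (fun T : H →L[ℂ] H => T v) he.sum_one
  simpa [sum_apply] using this

theorem cent_comm (hm : Modular M ξ R J U) {x : H →L[ℂ] H} (hx : x ∈ M) (a b : I) :
    x (e a b ξ) = rho J (e a b) (x ξ) := by
  rw [← he.cent, rho_comm hm (he.mem a b) hx]

end IsUnits

theorem phi_commute_other {e : I → I → H →L[ℂ] H} {x y : H →L[ℂ] H}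
    (hy : ∀ a b, Commute (e a b) y) (hx : Commute x y) : Commute (phi e x) y :=
  (Commute.sum_left _ _ _ fun c _ => Commute.sum_left _ _ _ fun d _ =>
    ((hy c d).mul_left hx).mul_left (hy d c)).smul_left _

theorem phi_phi_comm {I' : Type} [Fintype I'] [DecidableEq I'] {e : I → I → H →L[ℂ] H}
    {e' : I' → I' → H →L[ℂ] H} (h : ∀ a b c d, Commute (e a b) (e' c d)) (x : H →L[ℂ] H) :
    phi e (phi e' x) = phi e' (phi e x) := by
  conv_lhs => rw [phi.eq_def (e := e'), phi_smul, phi_sum]; simp only [phi_sum]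
  rw [phi.eq_def (e := e')]
  congr 1
  refine Finset.sum_congr rfl fun c _ => Finset.sum_congr rfl fun d _ => ?_
  simp only [phi, mul_smul_comm, smul_mul_assoc, Finset.mul_sum, Finset.sum_mul]
  congr 1
  refine Finset.sum_congr rfl fun a _ => Finset.sum_congr rfl fun b _ => ?_
  calc e a b * (e' c d * x * e' d c) * e b a
      = (e a b * e' c d) * x * (e' d c * e b a) := by simp only [mul_assoc]
    _ = _ := by rw [(h a b c d).eq, ← (h b a d c).eq]; simp only [mul_assoc]

/-- The product of two commuting systems. -/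
noncomputable def prodU {I' : Type} (e : I → I → H →L[ℂ] H) (e' : I' → I' → H →L[ℂ] H)
    (p q : I × I') : H →L[ℂ] H :=
  e p.1 q.1 * e' p.2 q.2

theorem isUnits_prodU (hm : Modular M ξ R J U) {I' : Type} [Fintype I'] [DecidableEq I']
    {e : I → I → H →L[ℂ] H} {e' : I' → I' → H →L[ℂ] H} (he : IsUnits M ξ J e)
    (he' : IsUnits M ξ J e') (h : ∀ a b c d, Commute (e a b) (e' c d)) :
    IsUnits M ξ J (prodU e e') where
  mem p q := mul_mem (he.mem _ _) (he'.mem _ _)
  mul p q r s := by
    simp only [prodU]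
    calc e p.1 q.1 * e' p.2 q.2 * (e r.1 s.1 * e' r.2 s.2)
        = e p.1 q.1 * (e' p.2 q.2 * e r.1 s.1) * e' r.2 s.2 := by simp only [mul_assoc]
      _ = (e p.1 q.1 * e r.1 s.1) * (e' p.2 q.2 * e' r.2 s.2) := by
        rw [← (h r.1 s.1 p.2 q.2).eq]; simp only [mul_assoc]
      _ = _ := by
        rw [he.mul, he'.mul]
        split_ifs <;> simp_all [Prod.ext_iff]
  star_eq p q := by rw [prodU, star_mul, he.star_eq, he'.star_eq, ← (h _ _ _ _).eq]; rfl
  sum_one := by
    simp only [prodU, Fintype.sum_prod_type, ← Finset.mul_sum, he'.sum_one, mul_one, he.sum_one]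
  cent p q := by
    rw [prodU, rho_mul hm, apply_mul, apply_mul, he.cent,
      rho_comm hm (he'.mem _ _) (he.mem _ _), he'.cent]

theorem phi_prodU {I' : Type} [Fintype I'] [DecidableEq I'] {e : I → I → H →L[ℂ] H}
    {e' : I' → I' → H →L[ℂ] H} (h : ∀ a b c d, Commute (e a b) (e' c d)) (x : H →L[ℂ] H) :
    phi (prodU e e') x = phi e (phi e' x) := by
  rw [phi.eq_def (e := e'), phi_smul]
  simp only [phi_sum]
  simp only [phi, prodU, Fintype.card_prod, Nat.cast_mul, mul_inv, Fintype.sum_prod_type,
    ← Finset.smul_sum, smul_smul, mul_comm (Fintype.card I : ℂ)⁻¹]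
  congr 1
  rw [Finset.sum_comm]
  refine Finset.sum_congr rfl fun c' _ => ?_
  conv_rhs => rw [Finset.sum_comm]
  refine Finset.sum_congr rfl fun c _ => ?_
  rw [Finset.sum_comm]
  refine Finset.sum_congr rfl fun d' _ => Finset.sum_congr rfl fun d _ => ?_
  rw [(h d c d' c').eq]
  simp only [mul_assoc]

section Mon

variable [AddCommGroup I]

/-- The monomial unitary of a translation and signs. -/
noncomputable def mon (e : I → I → H →L[ℂ] H) (g : I × (I → Bool)) : H →L[ℂ] H :=
  ∑ a, sg (g.2 a) • e (a + g.1) a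

variable {e : I → I → H →L[ℂ] H} (he : IsUnits M ξ J e)
include he

theorem mon_mem (g : I × (I → Bool)) : mon e g ∈ M :=
  sum_mem fun a _ => smul_mem_vn _ (he.mem _ _)

theorem mon_mul (g h : I × (I → Bool)) :
    mon e g * mon e h = mon e (g.1 + h.1, fun a => g.2 (a + h.1) == h.2 a) := by
  simp only [mon, Finset.sum_mul, Finset.mul_sum, smul_mul_smul_comm, he.mul]
  refine Finset.sum_congr rfl fun a _ => ?_
  simp only [smul_ite, smul_zero, Finset.sum_ite_eq', Finset.mem_univ, if_true, sg_xnor]
  congr 2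
  abel

theorem mon_zero : mon e (0, fun _ => true) = 1 := by simp [mon, sg, he.sum_one]

theorem star_mon (g : I × (I → Bool)) :
    star (mon e g) = mon e (-g.1, fun a => g.2 (a - g.1)) := by
  simp only [mon, star_sum, star_smul, star_sg, he.star_eq]
  exact Fintype.sum_equiv (Equiv.addRight g.1) _ _ fun a => by simp

theorem mon_unitary (g : I × (I → Bool)) :
    star (mon e g) * mon e g = 1 ∧ mon e g * star (mon e g) = 1 := by
  constructor <;>
  · rw [star_mon he, mon_mul he]
    refine Eq.trans (congrArg (mon e) (Prod.ext ?_ ?_)) (mon_zero he)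
    · simp
    · funext a; simp [sub_eq_add_neg]

theorem mon_cent (g : I × (I → Bool)) : rho J (mon e g) ξ = mon e g ξ := by
  simp [mon, rho_sum, rho_smul, sum_apply, he.cent]

omit he in
theorem sum_sg_mul (a b : I) :
    ∑ s : I → Bool, sg (s a) * sg (s b) = if a = b then ((2 : ℂ) ^ Fintype.card I) else 0 := by
  split_ifs with h
  · subst h; simp [sg_mul_self]
  · have hflip : Function.Involutive fun s : I → Bool => Function.update s a (!(s a)) := fun s => by
      funext c; rcases eq_or_ne c a with rfl | hc <;> simp [*]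
    have h1 := Fintype.sum_equiv hflip.toPerm (fun s : I → Bool => -(sg (s a) * sg (s b)))
      (fun s => sg (s a) * sg (s b)) fun s => by
        simp only [Function.Involutive.coe_toPerm, Function.update_self,
          Function.update_of_ne (Ne.symm h)]
        cases s a <;> simp [sg]
    rw [Finset.sum_neg_distrib] at h1
    linear_combination -h1 / 2

theorem conjAvg_mon (x : H →L[ℂ] H) : conjAvg (fun g => star (mon e g)) x = phi e x := by
  have hone : ∀ k, ∑ s : I → Bool, mon e (k, s) * x * star (mon e (k, s))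
      = ((2 : ℂ) ^ Fintype.card I) • ∑ a, e (a + k) a * x * e a (a + k) := by
    intro k
    simp only [mon, star_sum, star_smul, star_sg, he.star_eq, Finset.sum_mul, Finset.mul_sum,
      smul_mul_assoc, mul_smul_comm, smul_smul, Finset.smul_sum]
    rw [Finset.sum_comm]
    refine Finset.sum_congr rfl fun a _ => ?_
    rw [Finset.sum_comm]
    simp only [← Finset.sum_smul, sum_sg_mul, ite_smul, zero_smul, Finset.sum_ite_eq,
      Finset.mem_univ, if_true]
  simp only [conjAvg, star_star, Fintype.sum_prod_type, hone, ← Finset.smul_sum, Fintype.card_prod,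
    Fintype.card_fun, Fintype.card_bool, smul_smul]
  rw [phi, Finset.sum_comm]
  push_cast
  rw [mul_inv, mul_assoc, inv_mul_cancel₀ (pow_ne_zero _ two_ne_zero), mul_one]
  congr 1
  have h2 : ∀ a, ∑ k, e (a + k) a * x * e a (a + k) = ∑ c, e c a * x * e a c := fun a =>
    Fintype.sum_equiv (Equiv.addLeft a) _ _ fun k => rfl
  simp only [h2]
  exact Finset.sum_comm

/-- The expectation is contractive in norm. -/
theorem norm_phi_le (x : H →L[ℂ] H) : ‖phi e x‖ ≤ ‖x‖ := by
  rw [← conjAvg_mon he]
  exact norm_conjAvg_le (fun g => by rw [star_star]; exact (mon_unitary he g).2) x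

theorem phi_xi_le (hm : Modular M ξ R J U) {x : H →L[ℂ] H} (hx : x ∈ M) :
    ‖phi e x ξ‖ ≤ ‖x ξ‖ := by
  rw [← conjAvg_mon he, conjAvg, smul_apply, norm_smul, norm_inv, Complex.norm_natCast,
    inv_mul_le_iff₀ (by exact_mod_cast Fintype.card_pos), sum_apply]
  refine (norm_sum_le _ _).trans ((Finset.sum_le_sum fun g _ => show _ ≤ ‖x ξ‖ from ?_).trans_eq
    (by simp))
  have hg := mon_unitary he g
  have h1 : rho J (star (mon e g)) ξ = star (mon e g) ξ := by
    rw [star_mon he]; exact mon_cent he _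
  rw [star_star, apply_mul, apply_mul, VP132.Fixed.norm_of_star_mul_self hg.1, ← h1,
    ← rho_comm hm (star_mem (mon_mem he g)) hx, VP132.Fixed.norm_rho_star hg.1]

end Mon

end Vale.Agent.P096.Cent
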